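import Mathlib.Algebra.MvPolynomial.Equiv
import Mathlib.Algebra.MvPolynomial.CommRing
import Mathlib.RingTheory.MvPolynomial.Ideal
import Mathlib.RingTheory.Polynomial.Basic
import Mathlib.RingTheory.Ideal.Span
import Mathlib.Data.Nat.Prime.Int
import Mathlib.Algebra.BigOperators.Associated

/-!
# P257 (helper702): the regular sequence `p, X 0, X 1, …` in the integral polynomial ring
-/

open MvPolynomial

namespace Vale.Agent.P257.H702

/-- the sequence `p, X 0, X 1, …` -/
noncomputable def vseq (p : ℕ) : ℕ → MvPolynomial ℕ ℤ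
  | 0 => C (p : ℤ)
  | i + 1 => X i

/-- membership in the ideal `(p, X 0, …, X (k-1))` -/
theorem mem_span_vseq {p : ℕ} (k : ℕ) (x : MvPolynomial ℕ ℤ) :
    x ∈ Ideal.span (Set.range fun i : Fin (k + 1) => vseq p i) ↔
      ∀ m : ℕ →₀ ℕ, (∀ i < k, m i = 0) → (p : ℤ) ∣ coeff m x := by
  constructor
  · intro h
    refine Submodule.span_induction ?_ ?_ ?_ ?_ h
    · rintro _ ⟨i, rfl⟩ m hm
      rcases i with ⟨i, hi⟩
      rcases i with _ | i
      · simp only [vseq]
        rw [show (C (p : ℤ) : MvPolynomial ℕ ℤ) = C (p : ℤ) * 1 by rw [mul_one], coeff_C_mul]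
        exact dvd_mul_right _ _
      · simp only [vseq]
        rw [coeff_X]
        rw [if_neg]
        · exact dvd_zero _
        · rintro rfl
          have := hm i (by omega)
          simp at this
    · intro m _
      simp
    · intro x y _ _ hx hy m hm
      rw [coeff_add]
      exact dvd_add (hx m hm) (hy m hm)
    · intro a x _ hx m hm
      rw [smul_eq_mul, coeff_mul]
      refine Finset.dvd_sum fun q hq => ?_
      refine dvd_mul_of_dvd_right (hx q.2 fun i hi => ?_) _
      have h1 := Finset.mem_antidiagonal.1 hq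
      have h2 := hm i hi
      rw [← h1, Finsupp.add_apply] at h2
      omega
  · intro h
    rw [x.as_sum]
    refine Ideal.sum_mem _ fun m hm => ?_
    by_cases h1 : ∀ i < k, m i = 0
    · obtain ⟨c, hc⟩ := h m h1
      have h2 : monomial m (coeff m x) = monomial m c * vseq p 0 := by
        rw [hc, vseq, mul_comm (monomial m c), C_mul_monomial]
      rw [h2]
      exact Ideal.mul_mem_left _ _ (Ideal.subset_span ⟨⟨0, Nat.succ_pos k⟩, rfl⟩)
    · push Not at h1
      obtain ⟨i, hi, h1⟩ := h1
      have h2 : monomial m (coeff m x) =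
          monomial (m - Finsupp.single i 1) (coeff m x) * vseq p (i + 1) := by
        have h3 : m - Finsupp.single i 1 + Finsupp.single i 1 = m := by
          refine tsub_add_cancel_of_le ?_
          rw [Finsupp.single_le_iff]
          omega
        rw [vseq, X, monomial_mul, mul_one, h3]
      rw [h2]
      exact Ideal.mul_mem_left _ _ (Ideal.subset_span ⟨⟨i + 1, by omega⟩, rfl⟩)

/-- **`p, X 0, X 1, …` is a regular sequence.** -/
theorem reg_vseq {p : ℕ} (hp : p.Prime) (k : ℕ) (x : MvPolynomial ℕ ℤ)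
    (h : x * vseq p k ∈ Ideal.span (Set.range fun i : Fin k => vseq p i)) :
    x ∈ Ideal.span (Set.range fun i : Fin k => vseq p i) := by
  rcases k with _ | k
  · have h0 : (Set.range fun i : Fin 0 => vseq p i) = ∅ := Set.range_eq_empty _
    rw [h0, Ideal.span_empty, Ideal.mem_bot] at h ⊢
    rcases mul_eq_zero.1 h with h | h
    · exact h
    · rw [vseq, C_eq_zero] at h
      exact absurd h (by exact_mod_cast hp.ne_zero)
  · rw [mem_span_vseq] at h ⊢
    intro m hm
    have h1 := h (m + Finsupp.single k 1) (fun i hi => by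
      rw [Finsupp.add_apply, hm i hi, Finsupp.single_apply, if_neg (by omega), add_zero])
    rw [vseq, coeff_mul_X] at h1
    exact h1

/-- regularity after inverting the integers prime to `p` -/
theorem reg_of_loc {p : ℕ} (hp : p.Prime) {B : Type*} [CommRing B]
    (ψ : MvPolynomial ℕ ℤ →+* B) (hinj : Function.Injective ψ)
    (hfrac : ∀ y : B, ∃ m : ℤ, ¬ (p : ℤ) ∣ m ∧ ∃ x, (m : B) * y = ψ x)
    (hunit : ∀ m : ℤ, ¬ (p : ℤ) ∣ m → IsUnit (m : B)) (k : ℕ) (y : B)
    (h : y * ψ (vseq p k) ∈ Ideal.span (Set.range fun i : Fin k => ψ (vseq p i))) :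
    y ∈ Ideal.span (Set.range fun i : Fin k => ψ (vseq p i)) := by
  have hpp : Prime (p : ℤ) := Nat.prime_iff_prime_int.mp hp
  have hrange : Ideal.span (Set.range fun i : Fin k => ψ (vseq p i)) =
      (Ideal.span (Set.range fun i : Fin k => vseq p i)).map ψ := by
    rw [Ideal.map_span, ← Set.range_comp]
    rfl
  rw [Ideal.mem_span_range_iff_exists_fun] at h
  obtain ⟨r, hr⟩ := h
  choose m hm x hx using hfrac
  -- a common denominator
  set M : ℤ := m y * ∏ i, m (r i) with hM
  have hMp : ¬ (p : ℤ) ∣ M := by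
    rw [hM]
    intro hd
    rcases hpp.dvd_or_dvd hd with h1 | h1
    · exact hm y h1
    · obtain ⟨i, -, hi⟩ := (Prime.dvd_finset_prod_iff hpp _).1 h1
      exact hm (r i) hi
  have hMy : ∃ x', (M : B) * y = ψ x' := by
    refine ⟨C (∏ i, m (r i)) * x y, ?_⟩
    rw [map_mul, ← hx y, hM]
    have : ψ (C (∏ i, m (r i))) = ((∏ i, m (r i) : ℤ) : B) := by
      simp
    rw [this]
    push_cast
    ring
  have hMr : ∀ i, ∃ x', (M : B) * r i = ψ x' := by
    intro i
    classical
    refine ⟨C (m y * ∏ j ∈ Finset.univ.erase i, m (r j)) * x (r i), ?_⟩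
    rw [map_mul, ← hx (r i), hM, ← Finset.mul_prod_erase Finset.univ _ (Finset.mem_univ i)]
    have : ψ (C (m y * ∏ j ∈ Finset.univ.erase i, m (r j))) =
        ((m y * ∏ j ∈ Finset.univ.erase i, m (r j) : ℤ) : B) := by
      simp
    rw [this]
    push_cast
    ring
  obtain ⟨x', hx'⟩ := hMy
  choose z hz using hMr
  have h1 : x' * vseq p k = ∑ i : Fin k, z i * vseq p i := by
    apply hinj
    rw [map_mul, ← hx', map_sum, _root_.mul_assoc, ← hr, Finset.mul_sum]
    refine Finset.sum_congr rfl fun i _ => ?_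
    rw [map_mul, ← hz]
    ring
  have h2 : x' ∈ Ideal.span (Set.range fun i : Fin k => vseq p i) := by
    refine reg_vseq hp k x' ?_
    rw [h1]
    exact Ideal.sum_mem _ fun i _ => Ideal.mul_mem_left _ _ (Ideal.subset_span ⟨i, rfl⟩)
  rw [hrange]
  have h3 : (M : B) * y ∈ (Ideal.span (Set.range fun i : Fin k => vseq p i)).map ψ := by
    rw [hx']
    exact Ideal.mem_map_of_mem _ h2
  exact (Ideal.unit_mul_mem_iff_mem _ (hunit M hMp)).1 h3

end Vale.Agent.P257.H702
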