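import Vale.Agent.P257.H702.GenK

/-!
# P257 (helper702): ideals of the homotopy ring, and regularity

* `inI_iff_mem_span` : `InI v k a` is membership of `a` in the ideal of the graded homotopy ring
  generated by `v 0, …, v (k-1)`;
* `reg_of_alg` : `Reg v h` from the regularity in the even homotopy ring, if `v 0 = p` is bijective
  on the odd homotopy.
-/

open CategoryTheory MonoidalCategory Limits Pretriangulated MonObj

set_option linter.unusedSectionVars false

universe v u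

namespace Vale.Agent.P257.H702

open Vale.Agent.P251.T Vale.Agent.P251.S Vale.Agent.P251.M Vale.Agent.P257.H314
open Vale.Agent.P251.M.EvenSpheres

section ring

variable {T : Type u} [Category.{v} T] [Preadditive T] [MonoidalCategory T] [SymmetricCategory T]
  [MonoidalPreadditive T] {E : EvenSpheres T} {K : T} [MonObj K] [IsCommMonObj K]

/-- components of a product with a homogeneous element -/
theorem mul_of_apply (r : HRing E K) {m w n : ℤ} (h : m + w = n) (v : E.S w ⟶ K) :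
    (r * HRing.of E K w v) n = gmul h (r m) v := by
  subst h
  induction r using DirectSum.induction_on with
  | zero =>
    rw [zero_mul]
    exact (gmul_zero_left rfl v).symm
  | of i x =>
    have h1 : HRing.of E K i x * HRing.of E K w v = HRing.of E K (i + w) (gmul rfl x v) :=
      of_mul_of rfl x v
    by_cases hi : i = m
    · subst hi
      refine (congrFun (congrArg DFunLike.coe h1) (i + w)).trans ?_
      refine (DirectSum.of_eq_same (β := E.Gr K) (i + w) (gmul rfl x v)).trans ?_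
      exact congrArg (fun y => gmul rfl y v) (DirectSum.of_eq_same (β := E.Gr K) i x).symm
    · refine (congrFun (congrArg DFunLike.coe h1) (m + w)).trans ?_
      refine (DirectSum.of_eq_of_ne (β := E.Gr K) (i + w) (m + w) (gmul rfl x v)
        (by omega)).trans ?_
      have h2 : (DirectSum.of (E.Gr K) i x) m = 0 :=
        DirectSum.of_eq_of_ne (β := E.Gr K) i m x (by omega)
      exact ((congrArg (fun y => gmul rfl y v) h2).trans (gmul_zero_left rfl v)).symm
  | add x y hx hy =>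
    rw [add_mul]
    refine (congrArg₂ (· + ·) hx hy).trans ?_
    exact (gmul_add_left rfl (x m) (y m) v).symm

theorem of_sum {n : ℤ} {ι : Type*} (I : Finset ι) (f : ι → (E.S n ⟶ K)) :
    HRing.of E K n (∑ i ∈ I, f i) = ∑ i ∈ I, HRing.of E K n (f i) :=
  map_sum (DirectSum.of (E.Gr K) n) f I

theorem of_inj {n : ℤ} {a b : E.S n ⟶ K} (h : HRing.of E K n a = HRing.of E K n b) : a = b :=
  DirectSum.of_injective (β := E.Gr K) n h

/-- every map `A ⊗ S ⟶ B ⊗ S`, `S` a sphere, is `f ▷ S` -/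
theorem whiskerRight_surj (S₀ : T) [IsInv S₀] {X Y : T} (h : X ⊗ S₀ ⟶ Y ⊗ S₀) :
    ∃ f : X ⟶ Y, f ▷ S₀ = h := by
  obtain ⟨f, hf⟩ := whiskerLeft_surj S₀ ((β_ S₀ X).hom ≫ h ≫ (β_ Y S₀).hom)
  refine ⟨f, ?_⟩
  have h1 : f ▷ S₀ = (β_ X S₀).hom ≫ S₀ ◁ f ≫ (β_ S₀ Y).hom := by
    rw [BraidedCategory.braiding_naturality_right, SymmetricCategory.symmetry_assoc]
  rw [h1, hf]
  simp only [Category.assoc, SymmetricCategory.symmetry_assoc,
    SymmetricCategory.symmetry, Category.comp_id]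

theorem whiskerLeft_comp_mul {n m w : ℤ} (h : m + w = n) (v : E.S w ⟶ K) (b' : E.S m ⟶ K) :
    ((E.mu m w n h).inv ≫ b' ▷ E.S w) ≫ K ◁ v ≫ μ[K] = gmul h b' v := by
  rw [gmul, EvenSpheres.ext, tensorHom_def]
  simp only [Category.assoc]

/-- the elements `b v` for `b : S^{2n} ⟶ K ⊗ S^{2w}` -/
theorem exists_of_mul {n w : ℤ} (v : E.S w ⟶ K) (b : E.S n ⟶ K ⊗ E.S w) :
    ∃ b' : E.S (n - w) ⟶ K, b ≫ K ◁ v ≫ μ[K] = gmul (by ring) b' v := by
  obtain ⟨b', hb⟩ := whiskerRight_surj (E.S w)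
    ((E.mu (n - w) w n (by ring)).hom ≫ b)
  refine ⟨b', ?_⟩
  rw [← whiskerLeft_comp_mul, hb, Iso.inv_hom_id_assoc]

/-- **Ideals.** -/
theorem inI_iff_mem_span {w : ℕ → ℤ} (v : ∀ i, E.S (w i) ⟶ K) (k : ℕ) {n : ℤ} (a : E.S n ⟶ K) :
    InI v k a ↔ HRing.of E K n a ∈
      Ideal.span (Set.range fun i : Fin k => HRing.of E K (w i) (v i)) := by
  rw [Ideal.mem_span_range_iff_exists_fun]
  constructor
  · rintro ⟨b, rfl⟩
    choose b' hb' using fun i => exists_of_mul (v i) (b i)
    refine ⟨fun i => HRing.of E K (n - w i) (b' i), ?_⟩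
    rw [of_sum, Finset.sum_range]
    refine Finset.sum_congr rfl fun i _ => ?_
    rw [hb']
    exact of_mul_of (by ring) _ _
  · rintro ⟨r, hr⟩
    have h1 : a = ∑ i ∈ Finset.range k, (if h : i < k then
        gmul (sub_add_cancel n (w i)) ((r ⟨i, h⟩) (n - w i)) (v i) else 0) := by
      apply of_inj (E := E)
      have h2 : HRing.of E K n a = HRing.of E K n ((∑ i : Fin k, r i * HRing.of E K (w i) (v i) :
          HRing E K) n) := by
        rw [hr]
        exact congrArg _ (DirectSum.of_eq_same (β := E.Gr K) n a).symm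
      rw [h2]
      congr 1
      rw [Finset.sum_range]
      have h3 : (∑ i : Fin k, r i * HRing.of E K (w i) (v i) : HRing E K) n =
          ∑ i : Fin k, (r i * HRing.of E K (w i) (v i) : HRing E K) n := by
        exact DFinsupp.finsetSum_apply _ _ _
      rw [h3]
      refine Finset.sum_congr rfl fun i _ => ?_
      rw [mul_of_apply (r i) (sub_add_cancel n (w i)) (v i), dif_pos i.2]
    refine ⟨fun i => if h : i < k then (E.mu (n - w i) (w i) n (sub_add_cancel n (w i))).inv ≫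
      ((r ⟨i, h⟩) (n - w i)) ▷ E.S (w i) else 0, ?_⟩
    rw [h1]
    refine Finset.sum_congr rfl fun i hi => ?_
    simp only [dif_pos (Finset.mem_range.1 hi)]
    rw [whiskerLeft_comp_mul]

end ring

section reg

variable {T : Type u} [Category.{v} T] [Preadditive T] [HasZeroObject T]
    [HasShift T ℤ] [∀ n : ℤ, (shiftFunctor T n).Additive] [Pretriangulated T]
    [MonoidalCategory T] [SymmetricCategory T] [TensorTriangulated T]

theorem InI.of_iso {K : T} [MonObj K] {S : ℕ → T} {v : ∀ i, S i ⟶ K} {n : ℕ} {A B : T}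
    {a : A ⟶ K} (e : B ≅ A) (h : InI v n (e.hom ≫ a)) : InI v n a := by
  have := h.comp v e.inv
  rwa [Iso.inv_hom_id_assoc] at this

theorem pr_comp {K : T} [MonObj K] {A B S : T} (g : B ⟶ A) (a : A ⟶ K) (v : S ⟶ K) :
    pr (g ≫ a) v = g ▷ S ≫ pr a v := by
  simp [pr, tensorHom_def]

theorem InI.mono {K : T} [MonObj K] {S : ℕ → T} {v : ∀ i, S i ⟶ K} {m n : ℕ} (h : m ≤ n) {A : T}
    {a : A ⟶ K} (ha : InI v m a) : InI v n a := by
  induction h with
  | refl => exact ha
  | step _ ih =>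
    rw [Nat.succ_eq_add_one, inI_succ]
    exact ⟨0, by simpa using ih⟩

/-- **Regularity** from the regularity in the even homotopy ring. -/
theorem reg_of_alg {K : T} [MonObj K] [IsCommMonObj K] {p : ℕ} {w : ℕ → ℤ}
    {v : ∀ i, (stdEven T).S (w i) ⟶ K} (e0 : (stdEven T).S (w 0) ≅ 𝟙_ T)
    (hv0 : v 0 = (p : ℤ) • (e0.hom ≫ η[K])) {h : ℕ}
    (hodd : ∀ j : ℤ, ∀ a : (𝟙_ T)⟦2 * j + 1⟧ ⟶ K,
      ((p : ℤ) • a = 0 → a = 0) ∧ ∃ b : (𝟙_ T)⟦2 * j + 1⟧ ⟶ K, a = (p : ℤ) • b)
    (halg : ∀ k < h, ∀ (n : ℤ) (a : (stdEven T).S n ⟶ K),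
      HRing.of (stdEven T) K n a * HRing.of (stdEven T) K (w k) (v k) ∈
        Ideal.span (Set.range fun i : Fin k => HRing.of (stdEven T) K (w i) (v i)) →
      HRing.of (stdEven T) K n a ∈
        Ideal.span (Set.range fun i : Fin k => HRing.of (stdEven T) K (w i) (v i))) :
    Reg v h := by
  intro k hk A hA a ha
  obtain ⟨j, ⟨e⟩⟩ := hA
  rcases Int.even_or_odd' j with ⟨n, rfl | rfl⟩
  · -- even degree
    let e' : (stdEven T).S n ≅ A := sI T n ≪≫ e.symm
    refine InI.of_iso e' ?_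
    rw [inI_iff_mem_span]
    refine halg k hk n _ ?_
    have h1 : HRing.of (stdEven T) K n (e'.hom ≫ a) * HRing.of (stdEven T) K (w k) (v k) =
        HRing.of (stdEven T) K (n + w k) (((stdEven T).mu n (w k) (n + w k) rfl).inv ≫
          e'.hom ▷ (stdEven T).S (w k) ≫ pr a (v k)) := by
      rw [of_mul_of rfl, gmul, EvenSpheres.ext, ← pr_comp, Category.assoc]
      rfl
    rw [h1, ← inI_iff_mem_span]
    exact (ha.comp v _).comp v _
  · -- odd degree
    have h1 : ((p : ℤ) • a = 0 → a = 0) ∧ ∃ b : A ⟶ K, a = (p : ℤ) • b := by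
      obtain ⟨h2, b, hb⟩ := hodd n (e.inv ≫ a)
      refine ⟨fun h3 => ?_, e.hom ≫ b, ?_⟩
      · have h4 := h2 (by rw [← Preadditive.comp_zsmul, h3, comp_zero])
        rw [← cancel_epi e.inv, h4, comp_zero]
      · rw [← Preadditive.comp_zsmul, ← hb, Iso.hom_inv_id_assoc]
    rcases Nat.eq_zero_or_pos k with rfl | hk0
    · rw [inI_zero] at ha ⊢
      refine h1.1 ?_
      have h5 : pr a (v 0) = A ◁ e0.hom ≫ (ρ_ A).hom ≫ ((p : ℤ) • a) := by
        rw [pr, hv0]
        have h6 : (a ⊗ₘ ((p : ℤ) • (e0.hom ≫ η[K]))) = (p : ℤ) • (a ⊗ₘ (e0.hom ≫ η[K])) := by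
          rw [tensorHom_def, tensorHom_def]
          have h7 : K ◁ ((p : ℤ) • (e0.hom ≫ η[K])) = (p : ℤ) • (K ◁ (e0.hom ≫ η[K])) :=
            Functor.map_zsmul (F := tensorLeft K)
          rw [h7, Preadditive.comp_zsmul]
        rw [h6, Preadditive.zsmul_comp, tensorHom_def', Category.assoc,
          MonoidalCategory.whiskerLeft_comp, Category.assoc, whisker_exchange_assoc,
          MonObj.mul_one, rightUnitor_naturality]
        simp only [Preadditive.comp_zsmul]
      rw [h5, ← Category.assoc] at ha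
      have h8 : IsIso (A ◁ e0.hom ≫ (ρ_ A).hom) := inferInstance
      rw [← cancel_epi (A ◁ e0.hom ≫ (ρ_ A).hom), ha, comp_zero]
    · obtain ⟨b, rfl⟩ := h1.2
      refine InI.mono (m := 1) hk0 ?_
      rw [inI_succ]
      refine ⟨b ≫ (ρ_ K).inv ≫ K ◁ e0.inv, ?_⟩
      rw [inI_zero, sub_eq_zero, hv0]
      have h7 : K ◁ ((p : ℤ) • (e0.hom ≫ η[K])) = (p : ℤ) • (K ◁ (e0.hom ≫ η[K])) :=
        Functor.map_zsmul (F := tensorLeft K)
      rw [h7]
      simp

end reg

end Vale.Agent.P257.H702
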