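import Vale.Agent.P257.H702.Under
import Vale.Agent.P257.H702.RegAlg
import Vale.Agent.P257.H702.Poly

/-!
# P257 (helper702): the homotopy ring of the Brown-Peterson spectrum of the statement layer

`IsBP.reg` : `v_0 = p, v_1, v_2, …` is a regular sequence on `π_* B`.
-/

open CategoryTheory MonoidalCategory OnePoint Topology Limits Pretriangulated Matrix MonObj

set_option linter.unusedSectionVars false

noncomputable section

namespace Vale.Agent.P257.H702

open Vale.Agent.P251 Vale.Agent.P251.G Vale.Agent.P251.G.LC Vale.Agent.P251.I Vale.Agent.P251.T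
  Vale.Agent.P251.M Vale.Agent.P251.St Vale.Agent.P251.F Vale.Agent.P257.H314
open Vale.Agent.P251.M.EvenSpheres

variable {T : SHCat} {S : Susp T} {R : RingSp T}

/-- the class of `x ∈ π_{2n} R` in the even homotopy ring -/
def cls (S : Susp T) (R : RingSp T) (n : ℕ) :
    SHCat.Hom (S.obj (St.Cn n)) R.obj →+ HRing (stdEven T.C) R.obj where
  toFun x := HRing.of (stdEven T.C) R.obj n ((isoE S n).inv ≫ x)
  map_zero' := by
    rw [comp_zero]
    exact map_zero (DirectSum.of ((stdEven T.C).Gr R.obj) (n : ℤ))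
  map_add' x y := by
    rw [Preadditive.comp_add]
    exact map_add (DirectSum.of ((stdEven T.C).Gr R.obj) (n : ℤ)) _ _

theorem cls_apply {n : ℕ} (x : SHCat.Hom (S.obj (St.Cn n)) R.obj) :
    cls S R n x = HRing.of (stdEven T.C) R.obj n ((isoE S n).inv ≫ x) := rfl

/-- products -/
theorem cls_mul {n m : ℕ} {x : SHCat.Hom (S.obj (St.Cn n)) R.obj}
    {y : SHCat.Hom (S.obj (St.Cn m)) R.obj} {z : SHCat.Hom (S.obj (St.Cn (n + m))) R.obj}
    (h : P257.St.IsProd x y z) : cls S R (n + m) z = cls S R n x * cls S R m y := by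
  have hk : (n : ℤ) + (m : ℤ) = ((n + m : ℕ) : ℤ) := by push_cast; rfl
  have h1 := h (ofHom (X := (St.Cn n).prod (St.Cn m)) (Y := St.Cn (n + m))
    (Z.appendIso n m).hom) (fun a b => Z.isAppend_appendIso n m a b)
  have h2 := (eps S).add n m (Z.appendIso n m) (Z.isAppend_appendIso n m) hk
  have key : ∀ {A B C A' B' C' K : T.C} (a : A ≅ A') (b : B ≅ B') (c : C ≅ C')
      (s : A ⊗ B ≅ C) (mu : A' ⊗ B' ≅ C') (_ : s.hom ≫ c.hom = (a.hom ⊗ₘ b.hom) ≫ mu.hom)
      (x : A ⟶ K) (y : B ⟶ K) (z : C ⟶ K) (m : K ⊗ K ⟶ K) (_ : s.hom ≫ z = (x ⊗ₘ y) ≫ m),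
      c.inv ≫ z = (mu.inv ≫ ((a.inv ≫ x) ⊗ₘ (b.inv ≫ y))) ≫ m := by
    intro A B C A' B' C' K a b c s mu hs x y z m hz
    have e1 : mu.inv ≫ (a.inv ⊗ₘ b.inv) ≫ s.hom = c.inv := by
      rw [← cancel_mono c.hom, Category.assoc, Category.assoc, hs,
        tensorHom_comp_tensorHom_assoc]
      simp
    rw [← tensorHom_comp_tensorHom, Category.assoc, Category.assoc, ← hz, ← e1]
    simp only [Category.assoc]
  rw [cls_apply, cls_apply, cls_apply, of_mul_of hk]
  congr 1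
  exact key (isoE S n) (isoE S m) (isoE S (n + m)) (Z.SCadd S.toSpaceFunctor (Z.appendIso n m))
    ((stdEven T.C).mu n m (n + m : ℕ) hk) h2 x y z _ ((Category.assoc _ _ _).trans h1)

/-- the unit -/
theorem cls_one {x : SHCat.Hom (S.obj (St.Cn 0)) R.obj}
    (h : ∀ j : St.Map Pn (St.Cn 0), j.toFun (Space.pt (X := Pn) ()) = Space.pt (X := St.Cn 0) 0 →
      SHCat.comp S.unit (SHCat.comp (S.map j) x) = R.unit) : cls S R 0 x = 1 := by
  have h1 := h (ofHom (X := Pn) (Y := St.Cn 0) Z.unitIso.hom) rfl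
  have h2 : Z.unitT S.toSpaceFunctor ≫ (isoE S 0).hom = (stdEven T.C).z :=
    Z.sph_zero (M.lineIso S.toSpaceFunctor)
  have h3 : Z.unitT S.toSpaceFunctor ≫ x = η[R.obj] := (Category.assoc _ _ _).trans h1
  have key : ∀ {A B K : T.C} (t : 𝟙_ T.C ⟶ A) (a : A ≅ B) (z : 𝟙_ T.C ≅ B) (_ : t ≫ a.hom = z.hom)
      (x : A ⟶ K) (y : 𝟙_ T.C ⟶ K) (_ : t ≫ x = y), a.inv ≫ x = z.inv ≫ y := by
    intro A B K t a z h x y hx
    rw [← hx, ← Category.assoc]
    congr 1
    rw [← cancel_epi z.hom, Iso.hom_inv_id_assoc, ← h, Category.assoc, Iso.hom_inv_id,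
      Category.comp_id]
  rw [cls_apply]
  refine Eq.trans (congrArg (HRing.of (stdEven T.C) R.obj (0 : ℤ)) ?_) of_one
  exact key (Z.unitT S.toSpaceFunctor) (isoE S 0) (stdEven T.C).zero h2 x η[R.obj] h3

/-- the grading of the polynomial ring -/
abbrev VP (p : ℕ) : ℕ → Submodule ℤ (MvPolynomial ℕ ℤ) :=
  MvPolynomial.weightedHomogeneousSubmodule ℤ (fun i : ℕ => p ^ (i + 1) - 1)

instance gradedVP (p : ℕ) : GradedAlgebra (VP p) := MvPolynomial.weightedGradedAlgebra ℤ _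

section psi

variable {p : ℕ} {o : St.Oriented S R} {c : ∀ k : ℕ, SHCat.Hom (S.obj (St.Cn k)) R.obj}

/-- the ring map `ℤ[v_1, v_2, …] ⟶ π_* B` -/
theorem exists_psi (hp : p.Prime) (hB : P257.St.IsBP p o c) :
    ∃ ψ : MvPolynomial ℕ ℤ →+* HRing (stdEven T.C) R.obj, Function.Injective ψ ∧
      (∀ y, ∃ m : ℤ, ¬ (p : ℤ) ∣ m ∧ ∃ x, (m : HRing (stdEven T.C) R.obj) * y = ψ x) ∧
      ∀ i, ψ (MvPolynomial.X i) = cls S R (p ^ (i + 1) - 1) (c (p ^ (i + 1) - 1)) := by
  obtain ⟨e, h1, hmul, hX, hinj⟩ := hB.poly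
  let f : ∀ n, VP p n →+ HRing (stdEven T.C) R.obj := fun n => (cls S R n).comp (e n)
  let ψ₀ : (DirectSum ℕ fun n => VP p n) →+* HRing (stdEven T.C) R.obj :=
    DirectSum.toSemiring (A := fun n => VP p n) f
      (cls_one fun j hj => h1 1 j rfl hj)
      (fun {i j} a b => cls_mul (hmul i j a b _ rfl))
  have hof : ∀ (n : ℕ) (x : VP p n), ψ₀ (DirectSum.of (fun n => VP p n) n x) =
      HRing.of (stdEven T.C) R.obj n ((isoE S n).inv ≫ e n x) := fun n x =>
    DirectSum.toSemiring_of (A := fun n => VP p n) f _ _ n x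
  have hcomp : ∀ (a : DirectSum ℕ fun n => VP p n) (n : ℕ),
      (ψ₀ a) (n : ℤ) = (isoE S n).inv ≫ e n (a n) := by
    intro a n
    induction a using DirectSum.induction_on with
    | zero =>
      rw [map_zero]
      have h2 : (isoE S n).inv ≫ e n ((0 : DirectSum ℕ fun n => VP p n) n) = 0 := by
        rw [DirectSum.zero_apply, map_zero, comp_zero]
      rw [h2]
      rfl
    | of i x =>
      rw [hof]
      by_cases hi : i = n
      · subst hi
        have h2 : (isoE S i).inv ≫ e i ((DirectSum.of (fun n => VP p n) i x) i) =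
            (isoE S i).inv ≫ e i x := by
          rw [DirectSum.of_eq_same (β := fun n => VP p n) i x]
        rw [h2]
        exact DirectSum.of_eq_same (β := (stdEven T.C).Gr R.obj) (i : ℤ) _
      · have h2 : (isoE S n).inv ≫ e n ((DirectSum.of (fun n => VP p n) i x) n) = 0 := by
          rw [DirectSum.of_eq_of_ne (β := fun n => VP p n) i n x (fun h => hi h.symm), map_zero,
            comp_zero]
        rw [h2]
        exact DirectSum.of_eq_of_ne (β := (stdEven T.C).Gr R.obj) (i : ℤ) (n : ℤ) _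
          (fun h => hi (by exact_mod_cast h.symm))
    | add x y hx hy =>
      have h2 : (isoE S n).inv ≫ e n ((x + y) n) =
          (isoE S n).inv ≫ e n (x n) + (isoE S n).inv ≫ e n (y n) := by
        rw [← Preadditive.comp_add, ← map_add]
        rfl
      rw [h2, ← hx, ← hy, map_add]
      rfl
  have hinj₀ : Function.Injective ψ₀ := by
    rw [injective_iff_map_eq_zero]
    intro a ha
    refine DFinsupp.ext fun n => ?_
    have h2 := hcomp a n
    rw [ha] at h2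
    have h3 : e n (a n) = 0 := by
      rw [← cancel_epi (isoE S n).inv, ← h2, comp_zero]
      rfl
    exact (hinj n).1 (h3.trans (map_zero _).symm)
  have hfrac₀ : ∀ y, ∃ m : ℤ, ¬ (p : ℤ) ∣ m ∧ ∃ x, (m : HRing (stdEven T.C) R.obj) * y = ψ₀ x := by
    intro y
    have hpp : Prime (p : ℤ) := Nat.prime_iff_prime_int.mp hp
    induction y using DirectSum.induction_on with
    | zero => exact ⟨1, fun h => hpp.not_isUnit (isUnit_of_dvd_one h), 0, by simp⟩
    | of i y =>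
      rcases lt_or_ge i 0 with hi | hi
      · have h2 : y = 0 := by
          have h3 := hB.conc (2 * i) ((sI T.C i).inv ≫ y) (Or.inl (by omega))
          rw [← cancel_epi (sI T.C i).inv, h3, comp_zero]
        refine ⟨1, fun h => hpp.not_isUnit (isUnit_of_dvd_one h), 0, ?_⟩
        rw [h2]
        simp
      · obtain ⟨n, rfl⟩ := Int.eq_ofNat_of_zero_le hi
        obtain ⟨m, x, hm, hx⟩ := (hinj n).2 ((isoE S n).hom ≫ y)
        refine ⟨m, hm, DirectSum.of (fun n => VP p n) n x, ?_⟩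
        rw [hof, ← hx]
        have h2 : (isoE S n).inv ≫ zmul m ((isoE S n).hom ≫ y) = m • y := by
          rw [zmul, Preadditive.comp_zsmul, Iso.inv_hom_id_assoc]
        rw [h2]
        have h3 : HRing.of (stdEven T.C) R.obj n (m • y) =
            m • HRing.of (stdEven T.C) R.obj n y := map_zsmul _ _ _
        rw [h3, zsmul_eq_mul]
    | add x y hx hy =>
      obtain ⟨m, hm, a, ha⟩ := hx
      obtain ⟨n, hn, b, hb⟩ := hy
      refine ⟨m * n, fun h => (hpp.dvd_or_dvd h).elim hm hn, (n : ℤ) • a + (m : ℤ) • b, ?_⟩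
      rw [map_add, map_zsmul, map_zsmul, ← ha, ← hb, zsmul_eq_mul, zsmul_eq_mul]
      push_cast
      ring
  let dec := DirectSum.decomposeRingEquiv (VP p)
  refine ⟨ψ₀.comp dec.toRingHom, hinj₀.comp dec.injective, ?_, ?_⟩
  · intro y
    obtain ⟨m, hm, x, hx⟩ := hfrac₀ y
    exact ⟨m, hm, dec.symm x, by simpa using hx⟩
  · intro i
    have h2 : MvPolynomial.X i ∈ VP p (p ^ (i + 1) - 1) :=
      MvPolynomial.isWeightedHomogeneous_X ℤ _ i
    have h3 : dec (MvPolynomial.X i) =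
        DirectSum.of (fun n => VP p n) (p ^ (i + 1) - 1) ⟨MvPolynomial.X i, h2⟩ :=
      DirectSum.decompose_of_mem (VP p) h2
    have h4 : (ψ₀.comp dec.toRingHom) (MvPolynomial.X i) = ψ₀ (dec (MvPolynomial.X i)) := rfl
    rw [h4, h3, hof, hX i ⟨MvPolynomial.X i, h2⟩ rfl, cls_apply]

end psi

/-- the integers prime to `p` are invertible -/
theorem isUnit_of_pLocal {p : ℕ} (h : P257.St.PLocal p R.obj) (m : ℤ) (hm : ¬ (p : ℤ) ∣ m) :
    IsUnit (m : HRing (stdEven T.C) R.obj) := by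
  have h1 : IsIso (m • 𝟙 R.obj) := h m hm
  refine IsUnit.of_mul_eq_one (HRing.of (stdEven T.C) R.obj 0
    ((stdEven T.C).zero.inv ≫ η[R.obj] ≫ inv (m • 𝟙 R.obj))) ?_
  rw [← zsmul_eq_mul]
  have h3 : m • HRing.of (stdEven T.C) R.obj 0
      ((stdEven T.C).zero.inv ≫ η[R.obj] ≫ inv (m • 𝟙 R.obj)) =
      HRing.of (stdEven T.C) R.obj 0
        (m • ((stdEven T.C).zero.inv ≫ η[R.obj] ≫ inv (m • 𝟙 R.obj))) :=
    (map_zsmul (DirectSum.of ((stdEven T.C).Gr R.obj) (0 : ℤ)) _ _).symm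
  have h4 : m • ((stdEven T.C).zero.inv ≫ η[R.obj] ≫ inv (m • 𝟙 R.obj)) =
      (stdEven T.C).zero.inv ≫ η[R.obj] ≫ inv (m • 𝟙 R.obj) ≫ (m • 𝟙 R.obj) := by
    simp only [Preadditive.comp_zsmul, Category.comp_id]
  rw [h3, h4, IsIso.inv_hom_id, Category.comp_id]
  exact of_one

theorem vK_zero {p : ℕ} {D : I.MUData T.C} {K : T.C} [MonObj K] (u : D.R ⟶ K) [IsMonHom u] :
    vK D p u 0 = (p : ℤ) • ((e0 T.C p).hom ≫ η[K]) := by
  rw [vK, vel_zero, Preadditive.zsmul_comp, Category.assoc, IsMonHom.one_hom]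

theorem of_vK_zero {p : ℕ} {D : I.MUData T.C} {K : T.C} [MonObj K] (u : D.R ⟶ K) [IsMonHom u] :
    HRing.of (stdEven T.C) K ((p ^ 0 : ℤ) - 1) (vK D p u 0) = (p : HRing (stdEven T.C) K) := by
  have h0 := D.vel_spec p 0
  rw [vv_zero] at h0
  have h1 := congrArg (HRing.map (E := stdEven T.C) u) h0
  rw [map_natCast, HRing.map_of] at h1
  exact h1.symm

/-- **`p, v_1, v_2, …` is a regular sequence on `π_* B`.** -/
theorem reg_of_isBP {p : ℕ} (hp : p.Prime) {o : St.Oriented S R}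
    {c : ∀ k : ℕ, SHCat.Hom (S.obj (St.Cn k)) R.obj} (hB : P257.St.IsBP p o c)
    {D : I.MUData T.C} (u : D.R ⟶ R.obj) [IsMonHom u]
    (hu : ∀ i, vK D p u i = (spI S hp.one_le i).inv ≫ c (p ^ i - 1)) (h : ℕ) :
    Reg (vK D p u) h := by
  obtain ⟨ψ, hinj, hfrac, hX⟩ := exists_psi hp hB
  have hV : ∀ i, ψ (vseq p i) =
      HRing.of (stdEven T.C) R.obj ((p ^ i : ℤ) - 1) (vK D p u i) := by
    intro i
    rcases i with _ | i
    · rw [of_vK_zero, vseq]
      simp
    · rw [vseq, hX, cls_apply, hu]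
      have hpi : 1 ≤ p ^ (i + 1) := Nat.one_le_pow _ _ hp.one_le
      have h1 : (p ^ (i + 1) : ℤ) - 1 = ((p ^ (i + 1) - 1 : ℕ) : ℤ) := by
        rw [Nat.cast_sub hpi]
        push_cast
        rfl
      rw [spI_inv (S := S) hp.one_le (i + 1) h1, Category.assoc, of_cast]
  refine reg_of_alg (p := p) (w := fun i => (p ^ i : ℤ) - 1) (v := vK D p u) (e0 T.C p)
    (vK_zero u) ?_ ?_
  · intro j a
    have h1 : a = 0 := hB.conc (2 * j + 1) a (Or.inr ⟨j, rfl⟩)
    exact ⟨fun _ => h1, 0, by rw [h1, smul_zero]⟩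
  · intro k _ n a ha
    have h2 : (fun i : Fin k => HRing.of (stdEven T.C) R.obj ((p ^ (i : ℕ) : ℤ) - 1)
        (vK D p u i)) = fun i : Fin k => ψ (vseq p i) := funext fun i => (hV i).symm
    rw [h2] at ha ⊢
    rw [← hV k] at ha
    exact reg_of_loc hp ψ hinj hfrac (isUnit_of_pLocal hB.isLocal) k _ ha

end Vale.Agent.P257.H702
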