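import Vale.Agent.P257.H702.RegAlg

/-!
# P257 (helper702): change of the generators of the ideal
-/

open CategoryTheory MonoidalCategory Limits Pretriangulated MonObj

set_option linter.unusedSectionVars false

universe v u

namespace Vale.Agent.P257.H702

open Vale.Agent.P251.T Vale.Agent.P251.S Vale.Agent.P251.M

variable {T : Type u} [Category.{v} T] [Preadditive T] [HasZeroObject T] [HasShift T ℤ]
  [∀ n : ℤ, (shiftFunctor T n).Additive] [Pretriangulated T]
  [MonoidalCategory T] [SymmetricCategory T] [TensorTriangulated T]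
  {K : T} [MonObj K] {S S' : ℕ → T} {v : ∀ i, S i ⟶ K} {w : ∀ i, S' i ⟶ K}

theorem InI.sum {n : ℕ} {A : T} {ι : Type*} (I : Finset ι) (f : ι → (A ⟶ K))
    (h : ∀ i ∈ I, InI v n (f i)) : InI v n (∑ i ∈ I, f i) := by
  classical
  induction I using Finset.induction_on with
  | empty => exact ⟨fun _ => 0, by simp⟩
  | insert i I hi ih =>
    rw [Finset.sum_insert hi]
    exact (h i (Finset.mem_insert_self _ _)).add v (ih fun j hj => h j (Finset.mem_insert_of_mem hj))

/-- the ideal is closed under multiplication -/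
theorem InI.mul_left {n : ℕ} {A B : T} {x : B ⟶ K} (h : InI v n x) (b : A ⟶ K ⊗ B) :
    InI v n (b ≫ K ◁ x ≫ μ[K]) := by
  obtain ⟨c, rfl⟩ := h
  refine ⟨fun i => b ≫ K ◁ c i ≫ (α_ K K (S i)).inv ≫ μ[K] ▷ S i, ?_⟩
  have h1 : K ◁ (∑ i ∈ Finset.range n, c i ≫ K ◁ v i ≫ μ[K]) =
      ∑ i ∈ Finset.range n, K ◁ (c i ≫ K ◁ v i ≫ μ[K]) :=
    (tensorLeft K).map_sum _ _
  rw [h1, Preadditive.sum_comp, Preadditive.comp_sum]
  refine Finset.sum_congr rfl fun i _ => ?_
  simp only [MonoidalCategory.whiskerLeft_comp, Category.assoc]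
  rw [MonObj.mul_assoc_flip, associator_inv_naturality_right_assoc, whisker_exchange_assoc]

/-- change of generators -/
theorem InI.trans {n : ℕ} (hw : ∀ i < n, InI v n (w i)) {A : T} {a : A ⟶ K} (h : InI w n a) :
    InI v n a := by
  obtain ⟨b, rfl⟩ := h
  exact InI.sum _ _ fun i hi => (hw i (Finset.mem_range.1 hi)).mul_left (b i)

/-- change of generators in the homology of `V` -/
theorem CycK.congr {n : ℕ} (hw : ∀ i < n, InI v n (w i)) (hv : ∀ i < n, InI w n (v i)) {V : T}
    {i : 𝟙_ T ⟶ V} (H : CycK v n i) : CycK w n i :=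
  ⟨H.1, fun A hA a => (H.2 A hA a).trans ⟨fun h => h.trans hv, fun h => h.trans hw⟩⟩

end Vale.Agent.P257.H702
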