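import Vale.Agent.P251.S.TensorShift

/-!
# P257 (helper702): objects killed by an integer
-/

open CategoryTheory MonoidalCategory Limits Pretriangulated

namespace Vale.Agent.P257.H702

/-! ### Torsion -/

section torsion

variable {C : Type*} [Category* C] [Preadditive C] [HasZeroObject C] [HasShift C ℤ]
    [∀ n : ℤ, (shiftFunctor C n).Additive] [Pretriangulated C]

/-- `m` kills `X` -/
def Kills (m : ℤ) (X : C) : Prop := m • 𝟙 X = 0

theorem Kills.of_iso {m : ℤ} {X Y : C} (h : Kills m X) (e : X ≅ Y) : Kills m Y := by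
  have h1 : m • 𝟙 Y = e.inv ≫ (m • 𝟙 X) ≫ e.hom := by simp
  rw [Kills, h1, h]
  simp

theorem Kills.dist {m n : ℤ} {X Y Z : C} {f : X ⟶ Y} {g : Y ⟶ Z} {h : Z ⟶ X⟦(1 : ℤ)⟧}
    (hd : Triangle.mk f g h ∈ distTriang C) (hX : Kills m X) (hZ : Kills n Z) :
    Kills (m * n) Y := by
  have h1 : (n • 𝟙 Y) ≫ g = 0 := by
    have : (n • 𝟙 Y) ≫ g = g ≫ (n • 𝟙 Z) := by simp
    rw [this, hZ, comp_zero]
  obtain ⟨u, hu⟩ : ∃ u : Y ⟶ X, n • 𝟙 Y = u ≫ f := Triangle.coyoneda_exact₂ _ hd (n • 𝟙 Y) h1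
  have h2 : (m * n) • 𝟙 Y = u ≫ (m • 𝟙 X) ≫ f := by
    rw [mul_smul, hu]
    simp
  rw [Kills, h2, hX]
  simp

theorem Kills.shift {m : ℤ} {X : C} (h : Kills m X) (n : ℤ) : Kills m (X⟦n⟧) := by
  have h1 : m • 𝟙 (X⟦n⟧) = (m • 𝟙 X)⟦n⟧' := by
    rw [Functor.map_zsmul, CategoryTheory.Functor.map_id]
  rw [Kills, h1, h, Functor.map_zero]

theorem Kills.cof {m n : ℤ} {X Y Z : C} {f : X ⟶ Y} {g : Y ⟶ Z} {h : Z ⟶ X⟦(1 : ℤ)⟧}
    (hd : Triangle.mk f g h ∈ distTriang C) (hX : Kills m X) (hY : Kills n Y) :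
    Kills (n * m) Z :=
  Kills.dist (rot_of_distTriang _ hd) hY (hX.shift 1)

end torsion

section tensor

universe v u

variable {T : Type u} [Category.{v} T] [Preadditive T] [MonoidalCategory T] [MonoidalPreadditive T]

theorem Kills.tensor {m : ℤ} {X : T} (h : Kills m X) (S : T) : Kills m (S ⊗ X) := by
  have h1 : m • 𝟙 (S ⊗ X) = S ◁ (m • 𝟙 X) := by
    have h2 : (tensorLeft S).map (m • 𝟙 X) = m • (tensorLeft S).map (𝟙 X) :=
      Functor.map_zsmul _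
    change _ = (tensorLeft S).map (m • 𝟙 X)
    rw [h2, CategoryTheory.Functor.map_id]
    rfl
  rw [Kills, h1, h]
  exact MonoidalPreadditive.whiskerLeft_zero

end tensor

section step

universe v u

open Vale.Agent.P251.T

variable {T : Type u} [Category.{v} T] [Preadditive T] [HasZeroObject T] [HasShift T ℤ]
  [∀ n : ℤ, (shiftFunctor T n).Additive] [Pretriangulated T]
  [MonoidalCategory T] [SymmetricCategory T] [TensorTriangulated T]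

/-- `V` is killed by a power of `p` -/
def KillsPow (p : ℕ) (V : T) : Prop := ∃ j : ℕ, Kills ((p : ℤ) ^ j) V

theorem KillsPow.step {p : ℕ} {V : T} (H : KillsPow p V) {S V' : T} {f : S ⊗ V ⟶ V} {j : V ⟶ V'}
    {δ : V' ⟶ (S ⊗ V)⟦(1 : ℤ)⟧} (hΔ : Triangle.mk f j δ ∈ distTriang T) : KillsPow p V' := by
  obtain ⟨n, hn⟩ := H
  exact ⟨n + n, by rw [pow_add]; exact Kills.cof hΔ (hn.tensor S) hn⟩

theorem KillsPow.one {p : ℕ} {C : T} {iC : 𝟙_ T ⟶ C} {δ : C ⟶ (𝟙_ T)⟦(1 : ℤ)⟧}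
    (hC : Triangle.mk ((p : ℤ) • 𝟙 (𝟙_ T)) iC δ ∈ distTriang T) : KillsPow p C := by
  -- `p` kills `i` and `δ`, so that `p ^ 2` kills `C`
  have h1 : (p : ℤ) • iC = 0 := by
    have : ((p : ℤ) • 𝟙 (𝟙_ T)) ≫ iC = 0 := comp_distTriang_mor_zero₁₂ _ hC
    simpa using this
  have h2 : (p : ℤ) • δ = 0 := by
    have : δ ≫ ((p : ℤ) • 𝟙 (𝟙_ T))⟦(1 : ℤ)⟧' = 0 := comp_distTriang_mor_zero₃₁ _ hC
    rw [Functor.map_zsmul, CategoryTheory.Functor.map_id] at this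
    simpa using this
  have h3 : ((p : ℤ) • 𝟙 C) ≫ δ = 0 := by simpa using h2
  obtain ⟨g, hg⟩ : ∃ g : C ⟶ 𝟙_ T, (p : ℤ) • 𝟙 C = g ≫ iC :=
    Triangle.coyoneda_exact₃ _ hC ((p : ℤ) • 𝟙 C) h3
  refine ⟨2, ?_⟩
  rw [Kills, pow_two, mul_smul, hg, ← Preadditive.comp_zsmul, h1, comp_zero]

end step

end Vale.Agent.P257.H702
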