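import Vale.Agent.P257.H702.StatementP
import Vale.Agent.P257.H702.Kills
import Mathlib.Data.Nat.Prime.Int
import Mathlib.RingTheory.Int.Basic

/-!
# P257 (helper702): finite spectra, `p`-local finite spectra
-/

open CategoryTheory MonoidalCategory Limits Pretriangulated Triangulated

set_option linter.unusedSectionVars false

noncomputable section

namespace Vale.Agent.P257.H702

open Vale.Agent.P251.St Vale.Agent.P251.St.SHCat Vale.Agent.P257.St

variable {T : SHCat}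

theorem isZero_of_ident {X : T.C} (h : ident X = 0) : IsZero X := (IsZero.iff_id_eq_zero X).2 h

theorem dist_iso {C : Type*} [Category* C] [Preadditive C] [HasZeroObject C] [HasShift C ℤ]
    [∀ n : ℤ, (shiftFunctor C n).Additive] [Pretriangulated C] {X Y Z X' Y' Z' : C}
    {f : X ⟶ Y} {g : Y ⟶ Z} {h : Z ⟶ X⟦(1 : ℤ)⟧} (hd : Triangle.mk f g h ∈ distTriang C)
    {f' : X' ⟶ Y'} {g' : Y' ⟶ Z'} {h' : Z' ⟶ X'⟦(1 : ℤ)⟧} (a : X ≅ X') (b : Y ≅ Y') (c : Z ≅ Z')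
    (h1 : f ≫ b.hom = a.hom ≫ f') (h2 : g ≫ c.hom = b.hom ≫ g')
    (h3 : h ≫ a.hom⟦(1 : ℤ)⟧' = c.hom ≫ h') : Triangle.mk f' g' h' ∈ distTriang C :=
  isomorphic_distinguished _ hd _
    (Triangle.isoMk (Triangle.mk f g h) (Triangle.mk f' g' h') a b c h1 h2 h3).symm

theorem dist_iso₃ {C : Type*} [Category* C] [Preadditive C] [HasZeroObject C] [HasShift C ℤ]
    [∀ n : ℤ, (shiftFunctor C n).Additive] [Pretriangulated C] {Δ : Triangle C}
    (hd : Δ ∈ distTriang C) {Z : C} (c : Δ.obj₃ ≅ Z) :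
    Triangle.mk Δ.mor₁ (Δ.mor₂ ≫ c.hom) (c.inv ≫ Δ.mor₃) ∈ distTriang C := by
  obtain ⟨X, Y, Z', f, g, h⟩ := Δ
  exact dist_iso hd (Iso.refl _) (Iso.refl _) c (by simp) (by simp) (by simp)

theorem finSp_iso {X Y : T.C} (h : FinSp X) (e : X ≅ Y) : FinSp Y := by
  cases h with
  | zero h0 =>
    refine .zero ?_
    have := (isZero_of_ident h0).of_iso e.symm
    exact this.eq_of_src _ _
  | @cell X' _ k f g h' hd hX =>
    refine .cell (f := f) (g := g ≫ e.hom) (h := e.inv ≫ h') ?_ hX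
    exact dist_iso hd (Iso.refl _) (Iso.refl _) e (by simp) (by simp) (by simp)

/-- attaching a sphere -/
theorem cell' {A X Y : T.C} {k : ℤ} (e : A ≅ sphere T k) {f : A ⟶ X} {g : X ⟶ Y}
    {h : Y ⟶ A⟦(1 : ℤ)⟧} (hd : Triangle.mk f g h ∈ distTriang T.C) (hX : FinSp X) : FinSp Y := by
  refine .cell (f := e.inv ≫ f) (g := g) (h := h ≫ e.hom⟦(1 : ℤ)⟧') ?_ hX
  exact dist_iso hd e (Iso.refl _) (Iso.refl _) (by simp) (by simp) (by simp)

theorem finSp_shift {X : T.C} (h : FinSp X) (n : ℤ) : FinSp (X⟦n⟧) := by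
  induction h with
  | zero h0 =>
    refine .zero ?_
    have := (shiftFunctor T.C n).map_isZero (isZero_of_ident h0)
    exact this.eq_of_src _ _
  | @cell X Y k f g h hd hX ih =>
    have := Triangle.shift_distinguished _ hd n
    exact cell' (A := (sphere T k)⟦n⟧) (k := k + n) ((shiftFunctorAdd T.C k n).app _).symm this ih

theorem finSp_ext_aux {C : T.C} (hC : FinSp C) : ∀ (n : ℤ) {A B C' : T.C} (_ : C' ≅ C⟦n⟧)
    {f : A ⟶ B} {g : B ⟶ C'} {h : C' ⟶ A⟦(1 : ℤ)⟧},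
    Triangle.mk f g h ∈ distTriang T.C → FinSp A → FinSp B := by
  induction hC with
  | zero h0 =>
    intro n A B C' e f g h hd hA
    have hz : IsZero C' := ((shiftFunctor T.C n).map_isZero (isZero_of_ident h0)).of_iso e
    have : IsIso f := (Triangle.isZero₃_iff_isIso₁ _ hd).1 hz
    exact finSp_iso hA (asIso f)
  | @cell X Y k f₀ g₀ h₀ hd₀ hX ih =>
    intro n A B C' e f g h hd hA
    -- the cell of `C'`
    have hd₁ := Triangle.shift_distinguished _ hd₀ n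
    obtain ⟨φ, γ, χ, hd₂⟩ : ∃ (φ : (sphere T k)⟦n⟧ ⟶ X⟦n⟧) (γ : X⟦n⟧ ⟶ C')
        (χ : C' ⟶ ((sphere T k)⟦n⟧)⟦(1 : ℤ)⟧), Triangle.mk φ γ χ ∈ distTriang T.C := by
      exact ⟨_, _, _, dist_iso₃ hd₁ e.symm⟩
    have h12 := rot_of_distTriang _ hd
    have h23 := rot_of_distTriang _ (rot_of_distTriang _ hd₂)
    obtain ⟨Z, v13, w13, h13⟩ := distinguished_cocone_triangle (g ≫ χ)
    have oct := someOctahedron rfl h12 h23 h13
    have hZ : FinSp Z := by
      refine ih (n + 1) (A := A⟦(1 : ℤ)⟧) (C' := (X⟦n⟧)⟦(1 : ℤ)⟧)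
        ((shiftFunctorAdd T.C n 1).app _).symm oct.mem (finSp_shift hA 1)
    have h14 := inv_rot_of_distTriang _ (inv_rot_of_distTriang _ h13)
    refine cell' (k := k + n) ?_ h14 (finSp_shift hZ (-1))
    exact (shiftFunctorCompIsoId T.C (1 : ℤ) (-1) (by norm_num)).app _ ≪≫
      ((shiftFunctorAdd T.C k n).app _).symm

/-- extensions of finite spectra -/
theorem finSp_ext {A B C : T.C} {f : A ⟶ B} {g : B ⟶ C} {h : C ⟶ A⟦(1 : ℤ)⟧}
    (hd : Triangle.mk f g h ∈ distTriang T.C) (hA : FinSp A) (hC : FinSp C) : FinSp B :=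
  finSp_ext_aux hC 0 ((shiftFunctorZero T.C ℤ).app C).symm hd hA

/-- cofibres of maps of finite spectra -/
theorem finSp_cof {A B C : T.C} {f : A ⟶ B} {g : B ⟶ C} {h : C ⟶ A⟦(1 : ℤ)⟧}
    (hd : Triangle.mk f g h ∈ distTriang T.C) (hA : FinSp A) (hB : FinSp B) : FinSp C :=
  finSp_ext (rot_of_distTriang _ hd) hB (finSp_shift hA 1)

theorem pLocal_of_kills {p : ℕ} (hp : p.Prime) {j : ℕ} {X : T.C}
    (h : Kills ((p : ℤ) ^ j) X) : PLocal p X := by
  intro m hm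
  have hc : IsCoprime m ((p : ℤ) ^ j) := by
    apply IsCoprime.pow_right
    rw [isCoprime_comm, Prime.coprime_iff_not_dvd (Nat.prime_iff_prime_int.mp hp)]
    exact hm
  obtain ⟨a, b, hab⟩ := hc
  have h1 : (a * m) • 𝟙 X = 𝟙 X := by
    have h2 : (a * m + b * (p : ℤ) ^ j) • 𝟙 X = 𝟙 X := by rw [hab, one_smul]
    rw [add_smul, mul_smul b, h, smul_zero, add_zero] at h2
    exact h2
  refine ⟨a • 𝟙 X, ?_, ?_⟩
  · change (m • 𝟙 X) ≫ (a • 𝟙 X) = 𝟙 X
    rw [Preadditive.zsmul_comp, Preadditive.comp_zsmul, Category.comp_id, smul_smul, mul_comm, h1]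
  · change (a • 𝟙 X) ≫ (m • 𝟙 X) = 𝟙 X
    rw [Preadditive.zsmul_comp, Preadditive.comp_zsmul, Category.comp_id, smul_smul, h1]

theorem finPLocal_of_kills {p : ℕ} (hp : p.Prime) {j : ℕ} {X : T.C} (hX : FinSp X)
    (h : Kills ((p : ℤ) ^ j) X) : FinPLocal p X := by
  refine ⟨X, X, 𝟙 X, 𝟙 X, 𝟙 X, hX, ⟨pLocal_of_kills hp h, fun Z _ f => ⟨f, ?_, ?_⟩⟩,
    Category.comp_id _⟩
  · exact Category.id_comp f
  · intro g hg
    exact (Category.id_comp g).symm.trans hg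

end Vale.Agent.P257.H702
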