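import Vale.Agent.P257.H702.BPRing
import Vale.Agent.P257.H702.FinP
import Vale.Agent.P257.H314.Assemble

/-!
# P257 (helper702): from the Smith-Toda tower to the statement layer

* `isSmithToda_of_cycK`, `isSmithToda_of_genK`;
* `smithTodaExists_of` : the final statement from a Smith-Toda complex in the sense of the library.
-/

open CategoryTheory MonoidalCategory OnePoint Topology Limits Pretriangulated Matrix MonObj

set_option linter.unusedSectionVars false

noncomputable section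

namespace Vale.Agent.P257.H702

open Vale.Agent.P251 Vale.Agent.P251.I Vale.Agent.P251.T
  Vale.Agent.P251.M Vale.Agent.P251.St Vale.Agent.P257.H314

variable {T : SHCat} {S : Susp T} {R : RingSp T}

/-- the class of `i : 𝟙 ⟶ X` in `R`-homology -/
def unitCls (R : RingSp T) {X : T.C} (i : 𝟙_ T.C ⟶ X) : SHCat.Hom T.one (SHCat.ten R.obj X) :=
  i ≫ (λ_ X).inv ≫ η[R.obj] ▷ X

theorem comp_lin_unitCls {X : T.C} (i : 𝟙_ T.C ⟶ X) {A : T.C} (a : A ⟶ R.obj) :
    SHCat.comp a (P257.St.lin (unitCls R i)) = hcls i a := by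
  have h1 : R.obj ◁ unitCls R i ≫ (α_ R.obj R.obj X).inv ≫ μ[R.obj] ▷ X = R.obj ◁ i := by
    rw [unitCls, MonoidalCategory.whiskerLeft_comp, MonoidalCategory.whiskerLeft_comp,
      Category.assoc, Category.assoc, associator_inv_naturality_middle_assoc,
      ← comp_whiskerRight, MonObj.mul_one]
    simp
  change a ≫ (ρ_ R.obj).inv ≫ (R.obj ◁ unitCls R i) ≫ (α_ R.obj R.obj X).inv ≫
    (μ[R.obj] ▷ X) = a ≫ (ρ_ R.obj).inv ≫ R.obj ◁ i
  rw [h1]

theorem primitive_unitCls {X : T.C} (i : 𝟙_ T.C ⟶ X) :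
    SHCat.comp (unitCls R i) (SHCat.comp (λ_ (SHCat.ten R.obj X)).inv
        (SHCat.tenHom R.unit (SHCat.ident (SHCat.ten R.obj X)))) =
      SHCat.comp (unitCls R i) (SHCat.tenHom (SHCat.ident R.obj)
        (SHCat.comp (λ_ X).inv (SHCat.tenHom R.unit (SHCat.ident X)))) := by
  change (i ≫ (λ_ X).inv ≫ η[R.obj] ▷ X) ≫ (λ_ (R.obj ⊗ X)).inv ≫
      (η[R.obj] ⊗ₘ 𝟙 (R.obj ⊗ X)) = (i ≫ (λ_ X).inv ≫ η[R.obj] ▷ X) ≫
      (𝟙 R.obj ⊗ₘ ((λ_ X).inv ≫ (η[R.obj] ⊗ₘ 𝟙 X)))
  rw [tensorHom_id, tensorHom_id, id_tensorHom]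
  simp only [Category.assoc, MonoidalCategory.whiskerLeft_comp]
  congr 1
  have h1 : (λ_ X).inv ≫ (λ_ (𝟙_ T.C ⊗ X)).inv = (λ_ X).inv ≫ 𝟙_ T.C ◁ (λ_ X).inv :=
    leftUnitor_inv_naturality (λ_ X).inv
  rw [← whisker_exchange_assoc, ← whisker_exchange, leftUnitor_inv_naturality_assoc,
    reassoc_of% h1]

/-- The homology of `X` from the library to the statement layer. -/
theorem isSmithToda_of_cycK {p n : ℕ} (hp : 1 ≤ p)
    {v : ∀ i : ℕ, SHCat.Hom (S.obj (St.Cn (p ^ i - 1))) R.obj} {w : ∀ i, Sv T.C p i ⟶ R.obj}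
    (hu : ∀ i, w i = (spI S hp i).inv ≫ v i) {X : T.C} {i : 𝟙_ T.C ⟶ X}
    (H : CycK w (n + 1) i) : P257.St.IsSmithToda p n v X := by
  refine ⟨unitCls R i, primitive_unitCls i, fun k y => ?_, fun k a => ?_⟩
  · obtain ⟨a, ha⟩ := H.1 _ ⟨k, ⟨Iso.refl _⟩⟩ y
    exact ⟨a, ha.trans (comp_lin_unitCls i a).symm⟩
  · rw [comp_lin_unitCls, H.2 _ ⟨k, ⟨Iso.refl _⟩⟩]
    constructor
    · rintro ⟨b, hb⟩
      refine ⟨fun j => b j ≫ R.obj ◁ (spI S hp j).inv, hb.trans (Finset.sum_congr rfl ?_)⟩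
      intro j _
      change _ = (b j ≫ R.obj ◁ (spI S hp j).inv) ≫ (𝟙 R.obj ⊗ₘ v j) ≫ μ[R.obj]
      rw [hu, id_tensorHom, MonoidalCategory.whiskerLeft_comp]
      simp only [Category.assoc]
    · rintro ⟨b, hb⟩
      refine ⟨fun j => b j ≫ R.obj ◁ (spI S hp j).hom, hb.trans (Finset.sum_congr rfl ?_)⟩
      intro j _
      change b j ≫ (𝟙 R.obj ⊗ₘ v j) ≫ μ[R.obj] = _
      rw [hu, id_tensorHom, MonoidalCategory.whiskerLeft_comp]
      simp only [Category.assoc]
      rw [← MonoidalCategory.whiskerLeft_comp_assoc, Iso.hom_inv_id]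
      simp

/-- **The final statement** from a Smith-Toda complex in the sense of the library. -/
theorem smithTodaExists_of {p n : ℕ} (hp : p.Prime) {D : I.MUData T.C}
    (hD : I.MUUniv (M.lineIso S.toSpaceFunctor) D) {X : T.C} {i : 𝟙_ T.C ⟶ X}
    (hfin : P257.St.FinSp X) (hk : KillsPow p X) (hgen : GenK D p (n + 1) i) :
    P257.St.SmithTodaExists S p n := by
  obtain ⟨j, hj⟩ := hk
  refine ⟨X, finPLocal_of_kills hp hfin hj, fun B o c hB => ?_⟩
  obtain ⟨u, hu1, hu⟩ := exists_under hD hp.one_le hB.series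
  exact isSmithToda_of_cycK hp.one_le (v := fun i => c (p ^ i - 1)) hu
    (hgen B.obj u (reg_of_isBP hp hB u hu (n + 1)))

/-! ### Cell structures -/

theorem finSp_zero {X : T.C} (h : IsZero X) : P257.St.FinSp X := .zero (h.eq_of_src _ _)

open ZeroObject in
theorem finSp_sphere (k : ℤ) : P257.St.FinSp (St.sphere T k) := by
  have h1 := rot_of_distTriang _ (contractible_distinguished (St.sphere T (k - 1)))
  have h2 : P257.St.FinSp ((St.sphere T (k - 1))⟦(1 : ℤ)⟧) :=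
    .cell (k := k - 1) h1 (finSp_zero (isZero_zero T.C))
  exact finSp_iso h2 ((shiftFunctorAdd' T.C (k - 1) 1 k (by ring)).app (𝟙_ T.C)).symm

theorem finSp_of_finCell {s : Set ℤ} {X : T.C} (h : FinCell T.C s X) : P257.St.FinSp X := by
  induction h with
  | zero X hX => exact finSp_zero hX
  | sphere d _ => exact finSp_sphere d
  | ext Δ hΔ _ _ ih₁ ih₃ => exact finSp_ext hΔ ih₁ ih₃

/-! ### From the tower -/

section tower

universe v u

variable {T : Type u} [Category.{v} T] [Preadditive T] [HasZeroObject T]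
    [HasShift T ℤ] [∀ n : ℤ, (shiftFunctor T n).Additive] [Pretriangulated T]
    [MonoidalCategory T] [SymmetricCategory T] [TensorTriangulated T] [MonoidalClosed T]
    [HasCoproducts.{0} T] {D : I.MUData T} {p : ℕ}

theorem genK_of_sTow {h : ℕ} {V : T} {i : 𝟙_ T ⟶ V} (H : STow D p h i) : GenK D p h i := by
  induction H with
  | one hC => exact GenK.one hC
  | succ H x hx f hf j δ hΔ ih => exact ih.step hx hf hΔ

theorem killsPow_of_sTow {h : ℕ} {V : T} {i : 𝟙_ T ⟶ V} (H : STow D p h i) : KillsPow p V := by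
  induction H with
  | one hC => exact KillsPow.one hC
  | succ H x hx f hf j δ hΔ ih => exact ih.step hΔ

end tower

/-- **The final statement** from a Smith-Toda complex `IsST`. -/
theorem smithTodaExists_of_isST {p n : ℕ} (hp : p.Prime) {D : I.MUData T.C}
    (hD : I.MUUniv (M.lineIso S.toSpaceFunctor) D) {C : T.C} {iC : 𝟙_ T.C ⟶ C} {X : T.C}
    {i : 𝟙_ T.C ⟶ X} (H : IsST D p iC (n + 1) i) : P257.St.SmithTodaExists S p n :=
  smithTodaExists_of hp hD (finSp_of_finCell H.fin) (killsPow_of_sTow H.tow) (genK_of_sTow H.tow)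

end Vale.Agent.P257.H702
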