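import Vale.Agent.P257.H702.Series
import Vale.Agent.P251.St.OfChrom

/-!
# P257 (helper702): cohomology classes of the statement layer in the theory of the library

* `act_scale` : converse of `scale_act`;
* `clS hX n x` : the class of `x ∈ R^{2n}(X)` in the theory of `R`; `clS_injective`, `clS_θ`;
* `isScale_iff` : `IsScale c u w ↔ clS w = c • clS u`; `exists_isScale`.
-/

open CategoryTheory MonoidalCategory OnePoint Topology Limits Pretriangulated Matrix MonObj

set_option linter.unusedSectionVars false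

universe v u

noncomputable section

namespace Vale.Agent.P257.H702

open Vale.Agent.P251 Vale.Agent.P251.G Vale.Agent.P251.G.LC Vale.Agent.P251.I Vale.Agent.P251.T
  Vale.Agent.P251.M Vale.Agent.P251.St

section conv

open Vale.Agent.P251.Z

variable {T : Type u} [Category.{v} T] [Preadditive T] [HasZeroObject T]
    [HasShift T ℤ] [∀ n : ℤ, (shiftFunctor T n).Additive] [Pretriangulated T]
    [MonoidalCategory T] [SymmetricCategory T] [TensorTriangulated T]
variable {F : SpaceFunctor T} {K : T} [MonObj K] {Ev : EvenSpheres T}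
variable (ε : SphId F Ev)

/-- **Converse of `scale_act`.** -/
theorem act_scale {Y : T} {k r : ℕ} (g : Z.Cn r ⊗ Z.Cn k ≅ Z.Cn (r + k)) (hg : Z.IsAppend g)
    (h : (k : ℤ) + r = (r + k : ℕ)) (u : Y ⟶ K ⊗ SC F (r + k)) (w : Y ⟶ K ⊗ SC F r)
    (c : SC F k ⟶ K)
    (hs : w ≫ K ◁ (ε.iso r).hom = (u ≫ K ◁ (ε.iso (r + k)).hom) ≫
      actBy Ev h ((ε.iso k).inv ≫ c)) :
    (w ▷ SC F k) ≫ (α_ K (SC F r) (SC F k)).hom ≫ (K ◁ (SCadd F g).hom) =
      (u ⊗ₘ c) ≫ (α_ K (SC F (r + k)) K).hom ≫ (K ◁ (β_ (SC F (r + k)) K).hom) ≫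
        (α_ K K (SC F (r + k))).inv ≫ (μ[K] ▷ SC F (r + k)) := by
  have h' : (r : ℤ) + k = (r + k : ℕ) := by push_cast; rfl
  rw [← cancel_mono (K ◁ (ε.iso (r + k)).hom)]
  have e1 : (Y ◁ (ε.iso k).hom) ≫ ((w ≫ K ◁ (ε.iso r).hom) ▷ Ev.S k) ≫
      (α_ K (Ev.S r) (Ev.S k)).hom ≫ (K ◁ (Ev.mu r k (r + k : ℕ) h').hom) =
      ((w ▷ SC F k) ≫ (α_ K (SC F r) (SC F k)).hom ≫
        (K ◁ (SCadd F g).hom)) ≫ (K ◁ (ε.iso (r + k)).hom) := by
    have e2 : (SCadd F g).hom ≫ (ε.iso (r + k)).hom =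
      ((ε.iso r).hom ⊗ₘ (ε.iso k).hom) ≫ (Ev.mu r k (r + k : ℕ) h').hom := ε.add r k g hg h'
    simp only [Category.assoc]
    rw [← MonoidalCategory.whiskerLeft_comp K (SCadd F g).hom, e2,
      MonoidalCategory.whiskerLeft_comp, comp_whiskerRight, Category.assoc,
      whisker_exchange_assoc]
    congr 1
    simp [tensorHom_def']
  rw [← e1, hs, comp_whiskerRight _ (actBy Ev h _), Category.assoc, susp_act Ev h h']
  simp only [comp_whiskerRight, MonoidalCategory.whiskerLeft_comp, Category.assoc]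
  have e6 : (Y ◁ (ε.iso k).hom) ≫ (u ▷ Ev.S k) ≫ ((K ◁ (ε.iso (r + k)).hom) ▷ Ev.S k) ≫
      ((K ⊗ Ev.S (r + k : ℕ)) ◁ (ε.iso k).inv) ≫ ((K ⊗ Ev.S (r + k : ℕ)) ◁ c) =
      (u ⊗ₘ c) ≫ ((K ◁ (ε.iso (r + k)).hom) ▷ K) := by
    rw [← MonoidalCategory.whiskerLeft_comp, ← comp_whiskerRight_assoc, whisker_exchange_assoc,
      ← MonoidalCategory.whiskerLeft_comp, Iso.hom_inv_id_assoc, tensorHom_def,
      comp_whiskerRight, Category.assoc, Category.assoc, whisker_exchange]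
  rw [reassoc_of% e6, associator_naturality_middle_assoc,
    ← MonoidalCategory.whiskerLeft_comp_assoc, BraidedCategory.braiding_naturality_left,
    MonoidalCategory.whiskerLeft_comp_assoc, associator_inv_naturality_right_assoc,
    whisker_exchange]

end conv

variable {T : SHCat} {S : Susp T} {R : RingSp T} {o : St.Oriented S R}
variable {Ev : EvenSpheres T.C} (ε : Z.SphId S.toSpaceFunctor Ev)
    {s : S.toSpaceFunctor.S.obj CCF ⟶ (RSys R.obj Ev).obj 0 1}
    {W : ThomFam (RSys R.obj Ev) S.toSpaceFunctor s}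
    (hF : CofTriangles S.toSpaceFunctor) (hs : (RSys R.obj Ev).IsSusp s)

/-- The class of a morphism `Σ X ⟶ R ⊗ Σ ℂ^n` in the theory of `R`. -/
def clL {X : LC} (hX : LC.FC X) (n : ℕ) :
    (S.toSpaceFunctor.S.obj ⟨X, hX⟩ ⟶ R.obj ⊗ Z.SC S.toSpaceFunctor n) →+
      (theory (RSys R.obj Ev) S.toSpaceFunctor hF s hs).U X where
  toFun x := tuel hF hs hX n (x ≫ R.obj ◁ (ε.iso n).hom)
  map_zero' := by
    rw [Limits.zero_comp]
    exact map_zero (uel R.obj Ev S.toSpaceFunctor hX n)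
  map_add' x y := by
    rw [Preadditive.add_comp]
    exact map_add (uel R.obj Ev S.toSpaceFunctor hX n) _ _

/-- The class of an element of `R^{2n}(X)` in the theory of `R`. -/
def clS {X : LC} (hX : LC.FC X) (n : ℕ) :
    St.Coh S R n (ofLC X) →+ (theory (RSys R.obj Ev) S.toSpaceFunctor hF s hs).U X :=
  clL ε hF hs hX n

variable {hF hs}

theorem clS_apply {X : LC} (hX : LC.FC X) (n : ℕ)
    (x : S.toSpaceFunctor.S.obj ⟨X, hX⟩ ⟶ R.obj ⊗ Z.SC S.toSpaceFunctor n) :
    clS ε hF hs hX n x = tuel hF hs hX n (x ≫ R.obj ◁ (ε.iso n).hom) := rfl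

theorem clS_injective {X : LC} (hX : LC.FC X) (n : ℕ) :
    Function.Injective (clS (R := R) ε hF hs hX n) := by
  intro x y h
  have h1 := tuel_injective (hF := hF) (hs := hs) hX n h
  exact (cancel_mono (R.obj ◁ (ε.iso n).hom)).mp h1

variable {ε}

/-- The Thom classes. -/
theorem clS_zθ (hW : Z.IsFam ε (zOriented o) W) {X : LC} (hX : LC.FC X) {n : ℕ} {A : Type}
    [Fintype A] (g : X ⟶ LC.of (G.Th n A)) :
    clS ε hF hs hX n (S.mapL g ≫ zθ o n A) =
      (theory (RSys R.obj Ev) S.toSpaceFunctor hF s hs).map g ((W.orientation hF hs).tau n A) := by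
  rw [hW.map_tau hX]
  refine congrArg (tuel hF hs hX n) ?_
  exact Category.assoc _ _ _

/-- The pull backs of the Thom classes. -/
theorem clS_θ (hW : Z.IsFam ε (zOriented o) W) {X : Space} (hX : LC.FC (toLC X)) {n : ℕ} {A : Type}
    [Fintype A] (f : St.Map X (St.Th n A)) :
    clS ε hF hs hX n (SHCat.comp (S.map f) (o.θ n A)) =
      (theory (RSys R.obj Ev) S.toSpaceFunctor hF s hs).map (toHom f ≫ (thIso n A).hom)
        ((W.orientation hF hs).tau n A) := by
  rw [← clS_zθ hW hX]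
  have hA := Z.Cells.th n A
  have hA' := (fc_iff _).mp (fc_th n A)
  refine congrArg (clS ε hF hs hX n) ?_
  have h1 : S.mapL (toHom f ≫ (thIso n A).hom) = S.mapL (toHom f) ≫ S.mapL (thIso n A).hom :=
    S.mapL_comp hX hA' hA _ _
  have h2 := congrArg (fun k => k ≫ zθ o n A) h1
  refine Eq.trans ?_ h2.symm
  refine Eq.trans ?_ (Category.assoc _ _ _).symm
  exact congrArg (fun k => S.mapL (toHom f) ≫ k) (hom_zθ o n A).symm

/-- the homotopy class in the coefficients of the theory -/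
abbrev coS (ε : Z.SphId S.toSpaceFunctor Ev) (hF : CofTriangles S.toSpaceFunctor)
    (hs : (RSys R.obj Ev).IsSusp s) {k : ℕ} (c : SHCat.Hom (S.obj (St.Cn k)) R.obj) :
    (theory (RSys R.obj Ev) S.toSpaceFunctor hF s hs).A := coefOf hF hs ((ε.iso k).inv ≫ c)

/-- **The multiplication by a homotopy class.** -/
theorem isScale_iff {X : LC} (hX : LC.FC X) {r k : ℕ} (c : SHCat.Hom (S.obj (St.Cn k)) R.obj)
    (u : St.Coh S R (r + k) (ofLC X)) (w : St.Coh S R r (ofLC X)) :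
    P257.St.IsScale c u w ↔
      clS ε hF hs hX r w = coS ε hF hs c • clS ε hF hs hX (r + k) u := by
  have hk : (k : ℤ) + r = (r + k : ℕ) := by push_cast; ring
  have e1 : coS ε hF hs c • clS ε hF hs hX (r + k) u = tuel hF hs hX r
      (((show S.toSpaceFunctor.S.obj ⟨X, hX⟩ ⟶ R.obj ⊗ Z.SC S.toSpaceFunctor (r + k) from u) ≫
        R.obj ◁ (ε.iso (r + k)).hom) ≫ actBy Ev hk ((ε.iso k).inv ≫ c)) :=
    smul_tuel hX hk ((ε.iso k).inv ≫ c) _
  rw [e1]
  constructor
  · intro h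
    have h6 := h (ofHom (X := (St.Cn r).prod (St.Cn k)) (Y := St.Cn (r + k))
      (Z.appIso r k).hom) (fun a b => Z.isAppend_appIso r k a b)
    exact congrArg (tuel hF hs hX r) (scale_act ε (F := S.toSpaceFunctor) (K := R.obj)
      (Z.appIso r k) (Z.isAppend_appIso r k) hk u w c h6)
  · intro h g hg
    have h1 := tuel_injective (hF := hF) (hs := hs) hX r h
    have h2 := act_scale ε (F := S.toSpaceFunctor) (K := R.obj)
      (Z.appIso r k) (Z.isAppend_appIso r k) hk u w c h1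
    have hg' : toHom g = (Z.appIso r k).hom := toHom_append g hg
    have h3 : (Z.SCadd S.toSpaceFunctor (Z.appIso r k)).hom =
        S.mul (St.Cn r) (St.Cn k) ≫ S.map g := by
      change S.mul (St.Cn r) (St.Cn k) ≫ S.mapL (Z.appIso r k).hom = _
      rw [← hg']
      rfl
    rw [h3] at h2
    exact h2

theorem exists_isScale (ε : Z.SphId S.toSpaceFunctor Ev) {X : LC} (hX : LC.FC X) {r k : ℕ}
    (c : SHCat.Hom (S.obj (St.Cn k)) R.obj) (u : St.Coh S R (r + k) (ofLC X)) :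
    ∃ w : St.Coh S R r (ofLC X), P257.St.IsScale c u w := by
  have hk : (k : ℤ) + r = (r + k : ℕ) := by push_cast; ring
  let x := ((show S.toSpaceFunctor.S.obj ⟨X, hX⟩ ⟶ R.obj ⊗ Z.SC S.toSpaceFunctor (r + k) from u) ≫
        R.obj ◁ (ε.iso (r + k)).hom) ≫ actBy Ev hk ((ε.iso k).inv ≫ c)
  let w : S.toSpaceFunctor.S.obj ⟨X, hX⟩ ⟶ R.obj ⊗ Z.SC S.toSpaceFunctor r :=
    x ≫ R.obj ◁ (ε.iso r).inv
  refine ⟨w, fun g hg => ?_⟩
  have h1 : w ≫ R.obj ◁ (ε.iso r).hom = x := by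
    simp only [w, Category.assoc]
    rw [← MonoidalCategory.whiskerLeft_comp, Iso.inv_hom_id, MonoidalCategory.whiskerLeft_id,
      Category.comp_id]
  have h2 := act_scale ε (F := S.toSpaceFunctor) (K := R.obj)
    (Z.appIso r k) (Z.isAppend_appIso r k) hk u w c h1
  have hg' : toHom g = (Z.appIso r k).hom := toHom_append g hg
  have h3 : (Z.SCadd S.toSpaceFunctor (Z.appIso r k)).hom =
      S.mul (St.Cn r) (St.Cn k) ≫ S.map g := by
    change S.mul (St.Cn r) (St.Cn k) ≫ S.mapL (Z.appIso r k).hom = _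
    rw [← hg']
    rfl
  rw [h3] at h2
  exact h2

end Vale.Agent.P257.H702
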