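import Vale.Agent.P257.H702.Koszul
import Vale.Agent.P257.H314.Step
import Vale.Agent.P251.M.MUInv

/-!
# P257 (helper702): the homology of the Smith-Toda tower for all monoids under `MU`

`GenK D p h i` (`i : 𝟙 ⟶ V`): for every monoid `K` under `D.R` on whose homotopy `v_0, …, v_{h-1}`
is a regular sequence, `K_* V = K_* / (v_0, …, v_{h-1})`, generated by `i`.
-/

open CategoryTheory MonoidalCategory Limits Pretriangulated MonObj

set_option linter.unusedSectionVars false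

universe v u

namespace Vale.Agent.P257.H702

open Vale.Agent.P251 Vale.Agent.P251.T Vale.Agent.P251.M Vale.Agent.P251.S Vale.Agent.P251.F
  Vale.Agent.P257.H314
open Vale.Agent.P251.M.EvenSpheres

variable {T : Type u} [Category.{v} T] [Preadditive T] [HasZeroObject T]
    [HasShift T ℤ] [∀ n : ℤ, (shiftFunctor T n).Additive] [Pretriangulated T]
    [MonoidalCategory T] [SymmetricCategory T] [TensorTriangulated T] [MonoidalClosed T]
    [HasCoproducts.{0} T]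

/-- the spheres `S^{2(p^i-1)}` -/
noncomputable abbrev Sv (T : Type u) [Category.{v} T] [Preadditive T] [HasZeroObject T]
    [HasShift T ℤ] [∀ n : ℤ, (shiftFunctor T n).Additive] [Pretriangulated T]
    [MonoidalCategory T] [SymmetricCategory T] [TensorTriangulated T] (p : ℕ) (i : ℕ) : T :=
  (stdEven T).S ((p ^ i : ℤ) - 1)

theorem sphAct (p : ℕ) : SphAct (Sv T p) where
  inv k := inferInstance
  desus k A hA := by
    obtain ⟨j, ⟨e⟩⟩ := hA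
    refine ⟨(𝟙_ T)⟦j - 2 * ((p ^ k : ℤ) - 1)⟧, ⟨_, ⟨Iso.refl _⟩⟩, ⟨?_⟩⟩
    exact e ≪≫ ((shiftFunctorAdd' T (j - 2 * ((p ^ k : ℤ) - 1)) (2 * ((p ^ k : ℤ) - 1)) j
      (by ring)).app _) ≪≫ (tensorSph _ _).symm ≪≫ whiskerLeftIso _ (sI T _).symm

variable (D : I.MUData T)

/-- the classes `v_i` of a monoid under `MU` -/
noncomputable def vK (p : ℕ) {K : T} (u : D.R ⟶ K) (i : ℕ) : Sv T p i ⟶ K := D.vel p i ≫ u

/-- For all monoids `K` under `MU`. -/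
def GenK (p h : ℕ) {V : T} (i : 𝟙_ T ⟶ V) : Prop :=
  ∀ (K : T) [MonObj K] (u : D.R ⟶ K) [IsMonHom u], Reg (vK D p u) h → CycK (vK D p u) h i

theorem evw_vw (p h : ℕ) : D.evw 0 ((p ^ h : ℤ) - 1) (vw p h 0) ≫ I.amOne D.R = D.vel p h := by
  apply I.MUData.of_injective
  have h1 := D.vel_spec p h
  have h2 : vv p h D.law1 = D.ev 0 (MvPolynomial.C (Laz.v p h)) := by
    unfold I.MUData.law1
    rw [vv_map]
    rfl
  rw [← h1, I.MUData.law, vv_map, h2, ← HRing.map_of, D.of_evw]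
  rfl

variable {D}

theorem hur_of_det {p h : ℕ} {V : T} {i : 𝟙_ T ⟶ V} {x : Sv T p h ⟶ V}
    (hx : Det D i x (vw p h 0)) {K : T} [MonObj K] (u : D.R ⟶ K) [IsMonHom u] :
    x ≫ (λ_ V).inv ≫ η[K] ▷ V = hcls i (vK D p u h) := by
  have h1 : x ≫ unitMap (Am D.R 1) V ≫ ((I.amOne D.R ≫ u) ▷ V) =
      D.evw 0 ((p ^ h : ℤ) - 1) (vw p h 0) ≫ (redC i).app (Am D.R 1) ≫
        ((I.amOne D.R ≫ u) ▷ V) := by
    rw [← Category.assoc, ← Category.assoc]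
    exact congrArg (· ≫ _) hx
  rw [unitMap_whiskerRight] at h1
  refine Eq.trans h1 ?_
  rw [vK, ← evw_vw D p h, redC_app, hcls]
  simp only [Category.assoc]
  rw [whisker_exchange, rightUnitor_inv_naturality_assoc]
  simp

theorem Reg.mono {K : T} [MonObj K] {S : ℕ → T} {v : ∀ i, S i ⟶ K} {m n : ℕ} (h : m ≤ n)
    (hv : Reg v n) : Reg v m := fun k hk => hv k (by omega)

/-- **The step for all monoids under `MU`.** -/
theorem GenK.step {p h : ℕ} {V : T} {i : 𝟙_ T ⟶ V} (H : GenK D p h i)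
    {x : Sv T p h ⟶ V} (hx : Det D i x (vw p h 0)) {f : Sv T p h ⊗ V ⟶ V}
    (hf : (Sv T p h ◁ i) ≫ f = (ρ_ _).hom ≫ x) {V' : T} {j : V ⟶ V'}
    {δ : V' ⟶ (Sv T p h ⊗ V)⟦(1 : ℤ)⟧} (hΔ : Triangle.mk f j δ ∈ distTriang T) :
    GenK D p (h + 1) (i ≫ j) := by
  intro K _ u _ hr
  refine (H K u (hr.mono (Nat.le_succ h))).step (sphAct p) (hr h (Nat.lt_succ_self h)) ?_ hΔ
  rw [hf, Iso.inv_hom_id_assoc]
  exact hur_of_det hx u

/-! ### The base: `S/p` -/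

theorem dist_iso' {X Y Z X' Y' Z' : T}
    {f : X ⟶ Y} {g : Y ⟶ Z} {h : Z ⟶ X⟦(1 : ℤ)⟧} (hd : Triangle.mk f g h ∈ distTriang T)
    {f' : X' ⟶ Y'} {g' : Y' ⟶ Z'} {h' : Z' ⟶ X'⟦(1 : ℤ)⟧} (a : X ≅ X') (b : Y ≅ Y') (c : Z ≅ Z')
    (h1 : f ≫ b.hom = a.hom ≫ f') (h2 : g ≫ c.hom = b.hom ≫ g')
    (h3 : h ≫ a.hom⟦(1 : ℤ)⟧' = c.hom ≫ h') : Triangle.mk f' g' h' ∈ distTriang T :=
  isomorphic_distinguished _ hd _
    (Triangle.isoMk (Triangle.mk f g h) (Triangle.mk f' g' h') a b c h1 h2 h3).symm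

/-- `S^{2(p^0-1)} ≅ 𝟙` -/
noncomputable def e0 (T : Type u) [Category.{v} T] [Preadditive T] [HasZeroObject T]
    [HasShift T ℤ] [∀ n : ℤ, (shiftFunctor T n).Additive] [Pretriangulated T]
    [MonoidalCategory T] [SymmetricCategory T] [TensorTriangulated T] (p : ℕ) :
    Sv T p 0 ≅ 𝟙_ T :=
  (stdEven T).castIso _ 0 (by norm_num) ≪≫ (stdEven T).zero.symm

theorem vel_zero (p : ℕ) : D.vel p 0 = (p : ℤ) • ((e0 T p).hom ≫ η[D.R]) := by
  apply I.MUData.of_injective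
  have h0 := D.vel_spec p 0
  rw [vv_zero] at h0
  rw [← h0]
  have h1 : HRing.of (stdEven T) D.R ((p ^ 0 : ℤ) - 1) ((e0 T p).hom ≫ η[D.R]) = 1 := by
    rw [e0, Iso.trans_hom, Category.assoc]
    exact (of_cast (E := stdEven T) _ _).trans of_one
  have h2 : HRing.of (stdEven T) D.R ((p ^ 0 : ℤ) - 1) ((p : ℤ) • ((e0 T p).hom ≫ η[D.R])) =
      (p : ℤ) • HRing.of (stdEven T) D.R ((p ^ 0 : ℤ) - 1) ((e0 T p).hom ≫ η[D.R]) :=
    (DirectSum.of (fun n : ℤ => (stdEven T).Gr D.R n) _).map_zsmul _ _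
  rw [h2, h1]
  simp

theorem GenK.one {p : ℕ} {C : T} {iC : 𝟙_ T ⟶ C}
    {δ : C ⟶ (𝟙_ T)⟦(1 : ℤ)⟧} (hC : Triangle.mk ((p : ℤ) • 𝟙 (𝟙_ T)) iC δ ∈ distTriang T) :
    GenK D p 1 iC := by
  intro K _ u _ hr
  have h0 := CycK.zero (v := vK D p u)
  let a : 𝟙_ T ≅ Sv T p 0 ⊗ 𝟙_ T := (e0 T p).symm ≪≫ (ρ_ _).symm
  have hΔ : Triangle.mk (a.inv ≫ ((p : ℤ) • 𝟙 (𝟙_ T))) iC (δ ≫ a.hom⟦(1 : ℤ)⟧') ∈ distTriang T :=
    dist_iso' hC a (Iso.refl _) (Iso.refl _) (by simp) (by simp) (by simp)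
  have h1 := h0.step (sphAct p) (hr 0 Nat.one_pos) ?_ hΔ
  · rwa [Category.id_comp] at h1
  · have h2 : (vK D p u 0) = (p : ℤ) • ((e0 T p).hom ≫ η[K]) := by
      rw [vK, vel_zero, Preadditive.zsmul_comp, Category.assoc, IsMonHom.one_hom]
    rw [h2]
    simp [a, hcls, unitors_inv_equal]

end Vale.Agent.P257.H702
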