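import Vale.Agent.P257.H702.PTyp
import Vale.Agent.P257.H80.HasVOf
import Vale.Agent.P257.H604.SThaz

/-!
# P257 (helper702): the Brown-Peterson spectrum of the statement layer, final form

* `exists_isBrownPeterson` : the Brown-Peterson spectrum exists;
* `hasV_of_isST` : `HasV S p n` from a Smith-Toda complex in the sense of the library.
-/

open CategoryTheory MonoidalCategory OnePoint Topology Limits Pretriangulated Matrix MonObj

set_option linter.unusedSectionVars false

noncomputable section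

namespace Vale.Agent.P257.H702

open Vale.Agent.P251 Vale.Agent.P251.G Vale.Agent.P251.G.LC Vale.Agent.P251.I Vale.Agent.P251.T
  Vale.Agent.P251.M Vale.Agent.P251.St Vale.Agent.P251.F Vale.Agent.P257.H314 Vale.Agent.P217
open Vale.Agent.P251.M.EvenSpheres

variable {T : SHCat} {S : Susp T} {p : ℕ} [hp : Fact p.Prime]

theorem ptypOut : H80.PTypOut S p := fun _ _ _ h => exists_hom h

theorem ptypIn : H80.PTypIn S p := fun _ _ _ hl h hlaw => by
  obtain ⟨φ, hφ, -⟩ := exists_isPTyp hl h hlaw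
  exact ⟨φ, hφ⟩

theorem cycOut (D : I.MUData T.C) : H80.CycOut S p D := fun _ _ _ _ _ hlaw hΦ _ _ _ H =>
  H604.isSmithToda_haz hlaw hΦ H

/-- **The Brown-Peterson spectrum exists.** -/
theorem exists_isBrownPeterson (S : Susp T) (p : ℕ) [Fact p.Prime] :
    ∃ (B : RingSp T) (o : St.Oriented S B)
      (φ : ∀ n : ℕ, P257.St.VPoly p n →+ SHCat.Hom (S.obj (St.Cn n)) B.obj),
      P257.St.IsBrownPeterson p o φ := by
  obtain ⟨D, hD, ⟨U⟩, -⟩ := H80.exists_muAll S.toSpaceFunctor (M.lineIso S.toSpaceFunctor)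
  exact H80.exists_isBrownPeterson_of ptypOut hD U ptypIn

/-- **`V(n)` exists**, from a Smith-Toda complex in the sense of the library. -/
theorem hasV_of_isST {n : ℕ} (h2 : p ≠ 2) {D : I.MUData T.C}
    (hD : I.MUUniv (M.lineIso S.toSpaceFunctor) D)
    (U : MUFam (M.lineIso S.toSpaceFunctor) D) {C : T.C} {iC : 𝟙_ T.C ⟶ C} {X : T.C}
    {i : 𝟙_ T.C ⟶ X} (H : H314.IsST D p iC (n + 1) i) : P257.St.HasV S p n :=
  H80.hasV_of_isST h2 ptypOut ptypIn (cycOut D) hD U H

end Vale.Agent.P257.H702
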