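import Vale.Agent.P251.S.TensorShift
import Vale.Agent.P251.M.Even
import Mathlib.CategoryTheory.Monoidal.Mon

/-!
# P257 (helper702): the homology of a Smith-Toda tower

`K` a commutative monoid, `W k` a tower of cofibres of maps `f k : S k ⊗ W k ⟶ W k`, whose
restriction to the bottom cell is `v k` in `K`-homology. If the `v k` are a regular sequence on the
homotopy of `K`, then `K_* W n = K_* / (v 0, …, v (n-1))`, generated by the unit.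
-/

open CategoryTheory MonoidalCategory Limits Pretriangulated MonObj

set_option linter.unusedSectionVars false

universe v u

namespace Vale.Agent.P257.H702

open Vale.Agent.P251.T Vale.Agent.P251.S Vale.Agent.P251.M

variable {T : Type u} [Category.{v} T] [Preadditive T] [HasZeroObject T] [HasShift T ℤ]
  [∀ n : ℤ, (shiftFunctor T n).Additive] [Pretriangulated T]
  [MonoidalCategory T] [SymmetricCategory T] [TensorTriangulated T]

/-- spheres -/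
def IsSph (A : T) : Prop := ∃ j : ℤ, Nonempty (A ≅ (𝟙_ T)⟦j⟧)

/-- the class `a · ι` in `K`-homology -/
def hcls {K : T} {A W : T} (ι : 𝟙_ T ⟶ W) (a : A ⟶ K) : A ⟶ K ⊗ W := a ≫ (ρ_ K).inv ≫ K ◁ ι

/-- the product `a · v` -/
def pr {K : T} [MonObj K] {A S : T} (a : A ⟶ K) (v : S ⟶ K) : A ⊗ S ⟶ K := (a ⊗ₘ v) ≫ μ[K]

/-- membership in the ideal generated by `v 0, …, v (n-1)` -/
def InI {K : T} [MonObj K] {S : ℕ → T} (v : ∀ i, S i ⟶ K) (n : ℕ) {A : T} (a : A ⟶ K) : Prop :=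
  ∃ b : ∀ i, A ⟶ K ⊗ S i, a = ∑ i ∈ Finset.range n, b i ≫ K ◁ v i ≫ μ[K]

theorem hcls_comp {K : T} {A B W : T} (ι : 𝟙_ T ⟶ W) (g : B ⟶ A) (a : A ⟶ K) :
    hcls ι (g ≫ a) = g ≫ hcls ι a := by simp [hcls]

theorem hcls_add {K : T} {A W : T} (ι : 𝟙_ T ⟶ W) (a b : A ⟶ K) :
    hcls ι (a + b) = hcls ι a + hcls ι b := by simp [hcls]

theorem hcls_sub {K : T} {A W : T} (ι : 𝟙_ T ⟶ W) (a b : A ⟶ K) :
    hcls ι (a - b) = hcls ι a - hcls ι b := by simp [hcls]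

theorem hcls_zero {K : T} {A W : T} (ι : 𝟙_ T ⟶ W) : hcls ι (0 : A ⟶ K) = 0 := by simp [hcls]

section

variable {K : T} [MonObj K] {S : ℕ → T} (v : ∀ i, S i ⟶ K)

theorem InI.add {n : ℕ} {A : T} {a a' : A ⟶ K} (h : InI v n a) (h' : InI v n a') :
    InI v n (a + a') := by
  obtain ⟨b, rfl⟩ := h
  obtain ⟨b', rfl⟩ := h'
  refine ⟨fun i => b i + b' i, ?_⟩
  simp [Preadditive.add_comp, Finset.sum_add_distrib]

theorem InI.comp {n : ℕ} {A B : T} {a : A ⟶ K} (h : InI v n a) (g : B ⟶ A) : InI v n (g ≫ a) := by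
  obtain ⟨b, rfl⟩ := h
  refine ⟨fun i => g ≫ b i, ?_⟩
  simp [Preadditive.comp_sum]

theorem inI_succ {n : ℕ} {A : T} (a : A ⟶ K) :
    InI v (n + 1) a ↔ ∃ b : A ⟶ K ⊗ S n, InI v n (a - b ≫ K ◁ v n ≫ μ[K]) := by
  constructor
  · rintro ⟨b, rfl⟩
    exact ⟨b n, b, by rw [Finset.sum_range_succ, add_sub_cancel_right]⟩
  · rintro ⟨b, c, hc⟩
    classical
    refine ⟨Function.update c n b, ?_⟩
    rw [Finset.sum_range_succ, Function.update_self, Finset.sum_congr rfl (g := fun i =>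
      c i ≫ K ◁ v i ≫ μ[K]), ← hc, sub_add_cancel]
    intro i hi
    rw [Function.update_of_ne (by have := Finset.mem_range.1 hi; omega)]

theorem inI_zero {A : T} (a : A ⟶ K) : InI v 0 a ↔ a = 0 := by
  constructor
  · rintro ⟨b, rfl⟩
    simp
  · rintro rfl
    exact ⟨fun _ => 0, by simp⟩

end

/-- `K ◁ t`, if `t` is `v` in `K`-homology -/
theorem whiskerLeft_of_hur {K : T} [MonObj K] {S W : T} (ι : 𝟙_ T ⟶ W) (v : S ⟶ K) (t : S ⟶ W)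
    (h : t ≫ (λ_ W).inv ≫ η[K] ▷ W = hcls ι v) :
    K ◁ t = K ◁ v ≫ μ[K] ≫ (ρ_ K).inv ≫ K ◁ ι := by
  have h1 : K ◁ ((λ_ W).inv ≫ η[K] ▷ W) ≫ (α_ K K W).inv ≫ μ[K] ▷ W = 𝟙 (K ⊗ W) := by
    rw [MonoidalCategory.whiskerLeft_comp, Category.assoc, associator_inv_naturality_middle_assoc,
      ← comp_whiskerRight, MonObj.mul_one]
    simp
  calc K ◁ t = K ◁ t ≫ (K ◁ ((λ_ W).inv ≫ η[K] ▷ W) ≫ (α_ K K W).inv ≫ μ[K] ▷ W) := by
        rw [h1, Category.comp_id]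
    _ = K ◁ (hcls ι v) ≫ (α_ K K W).inv ≫ μ[K] ▷ W := by
        rw [← h, ← MonoidalCategory.whiskerLeft_comp_assoc]
    _ = K ◁ v ≫ μ[K] ≫ (ρ_ K).inv ≫ K ◁ ι := by
        unfold hcls
        simp only [MonoidalCategory.whiskerLeft_comp, Category.assoc]
        rw [associator_inv_naturality_right_assoc, whisker_exchange,
          rightUnitor_inv_naturality_assoc]
        simp

/-- `(K ⊗ W) ⊗ S ⟶ K ⊗ (S ⊗ W)` -/
def shuf (K W S : T) : (K ⊗ W) ⊗ S ≅ K ⊗ (S ⊗ W) := α_ K W S ≪≫ whiskerLeftIso K (β_ W S)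

theorem hcls_shuf {K : T} {A S W : T} (ι : 𝟙_ T ⟶ W) (a : A ⟶ K) :
    (hcls ι a) ▷ S ≫ (shuf K W S).hom = a ▷ S ≫ K ◁ ((ρ_ S).inv ≫ S ◁ ι) := by
  have h1 : ι ▷ S ≫ (β_ W S).hom = (β_ (𝟙_ T) S).hom ≫ S ◁ ι :=
    BraidedCategory.braiding_naturality_left ι S
  unfold hcls shuf
  simp only [comp_whiskerRight, Category.assoc, Iso.trans_hom, whiskerLeftIso_hom,
    MonoidalCategory.whiskerLeft_comp]
  rw [associator_naturality_middle_assoc, ← MonoidalCategory.whiskerLeft_comp, h1,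
    MonoidalCategory.whiskerLeft_comp]
  congr 1
  rw [← Category.assoc, ← Category.assoc]
  congr 1
  simp [braiding_tensorUnit_left]

/-- multiplication by `f` on a class `a · ι` -/
theorem hcls_shuf_comp {K : T} [MonObj K] {A S W : T} (ι : 𝟙_ T ⟶ W) (a : A ⟶ K) (v : S ⟶ K)
    (f : S ⊗ W ⟶ W)
    (h : ((ρ_ S).inv ≫ S ◁ ι ≫ f) ≫ (λ_ W).inv ≫ η[K] ▷ W = hcls ι v) :
    (hcls ι a) ▷ S ≫ (shuf K W S).hom ≫ K ◁ f = hcls ι (pr a v) := by
  rw [← Category.assoc, hcls_shuf, Category.assoc, ← MonoidalCategory.whiskerLeft_comp,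
    Category.assoc, whiskerLeft_of_hur ι v _ h]
  simp [pr, hcls, tensorHom_def]

/-- the spheres `S k` act on the spheres -/
structure SphAct (S : ℕ → T) : Prop where
  inv (k : ℕ) : IsInv (S k)
  desus (k : ℕ) (A : T) : IsSph A → ∃ A' : T, IsSph A' ∧ Nonempty (A ≅ A' ⊗ S k)

/-- regularity of the sequence `v 0, …, v (n-1)` on the homotopy of `K` -/
def Reg {K : T} [MonObj K] {S : ℕ → T} (v : ∀ i, S i ⟶ K) (n : ℕ) : Prop :=
  ∀ k < n, ∀ A : T, IsSph A → ∀ a : A ⟶ K, InI v k (pr a (v k)) → InI v k a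

section main

variable {K : T} [MonObj K] {S : ℕ → T} {v : ∀ i, S i ⟶ K}

/-- every class in `K_* (S ⊗ W)` comes from `K_* W` -/
theorem exists_desus {S₀ : T} [IsInv S₀] {A A' W : T} (θ : A ≅ A' ⊗ S₀) (z : A ⟶ K ⊗ (S₀ ⊗ W)) :
    ∃ z' : A' ⟶ K ⊗ W, z = θ.hom ≫ z' ▷ S₀ ≫ (shuf K W S₀).hom := by
  obtain ⟨z', hz⟩ := whiskerLeft_surj S₀ ((β_ S₀ A').hom ≫ θ.inv ≫ z ≫ (shuf K W S₀).inv ≫
    (β_ (K ⊗ W) S₀).hom)
  refine ⟨z', ?_⟩
  have h1 : z' ▷ S₀ = (β_ A' S₀).hom ≫ S₀ ◁ z' ≫ (β_ S₀ (K ⊗ W)).hom := by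
    rw [BraidedCategory.braiding_naturality_right, SymmetricCategory.symmetry_assoc]
  rw [h1, hz]
  simp only [Category.assoc, SymmetricCategory.symmetry_assoc, Iso.inv_hom_id, Category.comp_id,
    Iso.hom_inv_id_assoc]

theorem IsSph.iso {A B : T} (h : IsSph A) (e : A ≅ B) : IsSph B := by
  obtain ⟨j, ⟨i⟩⟩ := h
  exact ⟨j, ⟨e.symm ≪≫ i⟩⟩

theorem IsSph.shift {A : T} (h : IsSph A) (k : ℤ) : IsSph (A⟦k⟧) := by
  obtain ⟨j, ⟨i⟩⟩ := h
  exact ⟨j + k, ⟨(shiftFunctor T k).mapIso i ≪≫ ((shiftFunctorAdd T j k).app _).symm⟩⟩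

theorem hcls_iso {A W : T} (ι : 𝟙_ T ⟶ W) [IsIso ι] (y : A ⟶ K ⊗ W) :
    ∃ a : A ⟶ K, y = hcls ι a :=
  ⟨y ≫ K ◁ inv ι ≫ (ρ_ K).hom, by
    simp only [hcls, Category.assoc, Iso.hom_inv_id_assoc]
    rw [← MonoidalCategory.whiskerLeft_comp, IsIso.inv_hom_id]
    simp⟩

theorem bd_zero {Δ : Triangle T} (hΔ : Δ ∈ distTriang T) {A : T}
    (h : ∀ z : A⟦(-1 : ℤ)⟧ ⟶ Δ.obj₁, z ≫ Δ.mor₁ = 0 → z = 0) (y : A ⟶ Δ.obj₃) :
    y ≫ Δ.mor₃ = 0 := by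
  let c : (A⟦(-1 : ℤ)⟧)⟦(1 : ℤ)⟧ ≅ A := shiftNegShift A (1 : ℤ)
  obtain ⟨ζ, hζ⟩ := (shiftFunctor T (1 : ℤ)).map_surjective (c.hom ≫ y ≫ Δ.mor₃)
  have h1 : ζ ≫ Δ.mor₁ = 0 := by
    apply (shiftFunctor T (1 : ℤ)).map_injective
    rw [Functor.map_comp, hζ, Functor.map_zero, Category.assoc, Category.assoc,
      comp_distTriang_mor_zero₃₁ _ hΔ, comp_zero, comp_zero]
  rw [h ζ h1, Functor.map_zero] at hζ
  rw [← cancel_epi c.hom, ← hζ, comp_zero]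

/-- `K_* V = K_* / (v 0, …, v (h-1))`, generated by the class of `i : 𝟙 ⟶ V` -/
def CycK {K : T} [MonObj K] {S : ℕ → T} (v : ∀ i, S i ⟶ K) (h : ℕ) {V : T} (i : 𝟙_ T ⟶ V) : Prop :=
  (∀ A : T, IsSph A → ∀ y : A ⟶ K ⊗ V, ∃ a : A ⟶ K, y = hcls i a) ∧
    ∀ A : T, IsSph A → ∀ a : A ⟶ K, hcls i a = 0 ↔ InI v h a

theorem CycK.zero : CycK v 0 (𝟙 (𝟙_ T)) := by
  refine ⟨fun A _ y => hcls_iso _ y, fun A _ a => ?_⟩
  rw [inI_zero]
  simp only [hcls, MonoidalCategory.whiskerLeft_id, Category.comp_id]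
  constructor
  · intro h
    rw [← cancel_mono (ρ_ K).inv, h, zero_comp]
  · rintro rfl
    exact zero_comp

/-- **The step**: the cofibre of a map `f : S h ⊗ V ⟶ V` which is `v h` on the bottom cell. -/
theorem CycK.step {k : ℕ} {V : T} {i : 𝟙_ T ⟶ V} (H : CycK v k i) (hS : SphAct S)
    (hv : ∀ A : T, IsSph A → ∀ a : A ⟶ K, InI v k (pr a (v k)) → InI v k a)
    {f : S k ⊗ V ⟶ V}
    (hhur : ((ρ_ (S k)).inv ≫ S k ◁ i ≫ f) ≫ (λ_ V).inv ≫ η[K] ▷ V = hcls i (v k))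
    {V' : T} {j : V ⟶ V'} {δ : V' ⟶ (S k ⊗ V)⟦(1 : ℤ)⟧}
    (hΔ : Triangle.mk f j δ ∈ distTriang T) : CycK v (k + 1) (i ≫ j) := by
  obtain ⟨ih1, ih2⟩ := H
  have := hS.inv k
  have hD := (tensorLeft K).map_distinguished _ hΔ
  -- multiplication by `f`
  have mulf : ∀ {A A' : T} (θ : A ≅ A' ⊗ S k) (a : A' ⟶ K),
      (θ.hom ≫ (hcls i a) ▷ S k ≫ (shuf K V (S k)).hom) ≫ K ◁ f =
        hcls i (θ.hom ≫ pr a (v k)) := by
    intro A A' θ a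
    rw [hcls_comp, ← hcls_shuf_comp i a (v k) f hhur]
    simp only [Category.assoc]
  -- injectivity of `f`
  have injf : ∀ A : T, IsSph A → ∀ z : A ⟶ K ⊗ (S k ⊗ V), z ≫ K ◁ f = 0 → z = 0 := by
    intro A hA z hz
    obtain ⟨A', hA', ⟨θ⟩⟩ := hS.desus k A hA
    obtain ⟨z', hz'⟩ := exists_desus θ z
    obtain ⟨a, rfl⟩ := ih1 A' hA' z'
    rw [hz', mulf, ih2 A hA] at hz
    have h1 : InI v k (pr a (v k)) := by
      have := hz.comp v θ.inv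
      rwa [Iso.inv_hom_id_assoc] at this
    have h2 := hv A' hA' a h1
    rw [← ih2 A' hA'] at h2
    rw [hz', h2]
    simp
  have hg : ∀ {A : T} (a : A ⟶ K), hcls i a ≫ K ◁ j = hcls (i ≫ j) a := by
    intro A a
    simp [hcls]
  constructor
  · intro A hA y
    have h1 : y ≫ ((tensorLeft K).mapTriangle.obj (Triangle.mk f j δ)).mor₃ = 0 :=
      bd_zero hD (fun z hz => injf _ (hA.shift (-1)) z hz) y
    obtain ⟨y₀, hy₀⟩ := Triangle.coyoneda_exact₃ _ hD y h1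
    obtain ⟨a, ha⟩ := ih1 A hA y₀
    refine ⟨a, ?_⟩
    rw [← hg, ← ha]
    exact hy₀
  · intro A hA a
    rw [← hg, inI_succ]
    constructor
    · intro h
      obtain ⟨z, hz⟩ := Triangle.coyoneda_exact₂ _ hD (hcls i a) h
      obtain ⟨A', hA', ⟨θ⟩⟩ := hS.desus k A hA
      obtain ⟨z', hz'⟩ := exists_desus θ z
      obtain ⟨a', rfl⟩ := ih1 A' hA' z'
      refine ⟨θ.hom ≫ a' ▷ S k, ?_⟩
      rw [← ih2 A hA, hcls_sub, sub_eq_zero]
      have hz2 : hcls i a = z ≫ K ◁ f := hz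
      rw [hz2, hz']
      refine (mulf θ a').trans ?_
      congr 1
      simp [pr, tensorHom_def]
    · rintro ⟨b, hb⟩
      rw [← ih2 A hA, hcls_sub, sub_eq_zero] at hb
      obtain ⟨A', hA', ⟨θ⟩⟩ := hS.desus k A hA
      obtain ⟨a', ha'⟩ : ∃ a' : A' ⟶ K, b = θ.hom ≫ a' ▷ S k := by
        obtain ⟨a', ha'⟩ := whiskerLeft_surj (S k) ((β_ (S k) A').hom ≫ θ.inv ≫ b ≫
          (β_ K (S k)).hom)
        refine ⟨a', ?_⟩
        have h1 : a' ▷ S k = (β_ A' (S k)).hom ≫ S k ◁ a' ≫ (β_ (S k) K).hom := by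
          rw [BraidedCategory.braiding_naturality_right, SymmetricCategory.symmetry_assoc]
        rw [h1, ha']
        simp only [Category.assoc, SymmetricCategory.symmetry_assoc,
          Iso.hom_inv_id_assoc, SymmetricCategory.symmetry, Category.comp_id]
      have h1 : b ≫ K ◁ v k ≫ μ[K] = θ.hom ≫ pr a' (v k) := by
        rw [ha']
        simp [pr, tensorHom_def]
      have h2 : K ◁ f ≫ K ◁ j = 0 := comp_distTriang_mor_zero₁₂ _ hD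
      rw [hb, h1, ← mulf, Category.assoc, h2, comp_zero]

end main

end Vale.Agent.P257.H702
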