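import Vale.Agent.P251.Q.PSeries

/-!
# P257 (helper702): the coefficients of the formal group law from products of projective spaces

* `sumB f` : the direct sum of line bundles `f a`; `eu_sumB : eu (sumB f) = ∏ a, lc (f a)`;
* `lawCoeff_of_sum`, `sum_of_lawCoeff` : the Euler class of `L ⊗ L'` on `ℂP^N × ℂP^N` is
  `∑ a k i • (Euler class of i copies of L and k + 1 - i copies of L')` if and only if the `a k i`
  are the coefficients of the formal group law.
-/

open CategoryTheory MonoidalCategory OnePoint Matrix Topology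
open Vale.Agent.P251.G Vale.Agent.P251.G.LC

universe v

set_option linter.unusedSectionVars false
set_option linter.style.haveILetI false

noncomputable section

namespace Vale.Agent.P257.H702

open Vale.Agent.P251.Q Vale.Agent.P251 MultTheory Vale.Agent.P217 Vale.Agent.P251.F

section bundle

variable {X : LC} {A : Type} [Fintype A]

/-- the direct sum of line bundles -/
def sumB {r : ℕ} (f : Fin r → C(X, Q.CP A)) : Bun X (Fin r × A) where
  P x := Matrix.of fun i j => if i.1 = j.1 then Gr.P (f i.1 x : Gr 1 A) i.2 j.2 else 0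
  cont := by
    refine continuous_matrix fun i j => ?_
    simp only [Matrix.of_apply]
    split_ifs
    · exact (Gr.continuous_P.comp (f i.1).continuous).matrix_elem _ _
    · exact continuous_const
  idem x := by
    ext i j
    rw [Matrix.mul_apply, Fintype.sum_prod_type]
    simp only [Matrix.of_apply]
    rw [Finset.sum_eq_single i.1]
    · by_cases h : i.1 = j.1
      · simp only [if_true, if_pos h]
        have h2 := congrFun (congrFun (Gr.isProj (f i.1 x : Gr 1 A)).idem i.2) j.2
        rw [Matrix.mul_apply] at h2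
        exact h2
      · simp only [if_neg h, mul_zero, Finset.sum_const_zero]
    · intro k _ hk
      refine Finset.sum_eq_zero fun a _ => ?_
      rw [if_neg fun h => hk h.symm, zero_mul]
    · intro h
      exact absurd (Finset.mem_univ _) h
  herm x := by
    ext i j
    rw [Matrix.conjTranspose_apply]
    simp only [Matrix.of_apply]
    by_cases h : i.1 = j.1
    · rw [if_pos h, if_pos h.symm, ← h]
      have h2 := congrFun (congrFun (Gr.isProj (f i.1 x : Gr 1 A)).herm i.2) j.2
      rw [Matrix.conjTranspose_apply] at h2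
      exact h2
    · rw [if_neg h, if_neg fun h' => h h'.symm, star_zero]

theorem sumB_P {r : ℕ} (f : Fin r → C(X, Q.CP A)) (x : X) (i j : Fin r × A) :
    (sumB f).P x i j = if i.1 = j.1 then Gr.P (f i.1 x : Gr 1 A) i.2 j.2 else 0 := rfl

theorem isRank_sumB {r : ℕ} (f : Fin r → C(X, Q.CP A)) : (sumB f).IsRank r := by
  intro x
  rw [Matrix.trace, Fintype.sum_prod_type]
  have h : ∀ k : Fin r, ∑ a : A, ((sumB f).P x).diag (k, a) = 1 := by
    intro k
    have h2 := (Gr.isProj (f k x : Gr 1 A)).trace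
    rw [Matrix.trace, Nat.cast_one] at h2
    refine Eq.trans (Finset.sum_congr rfl fun a _ => ?_) h2
    rw [Matrix.diag_apply, Matrix.diag_apply, sumB_P, if_pos rfl]
  rw [Finset.sum_congr rfl fun k _ => h k]
  simp

/-- a line bundle as a bundle -/
def lineB (f : C(X, Q.CP A)) : Bun X A := (taut 1 A).pullback (Y := X) f

theorem isRank_lineB (f : C(X, Q.CP A)) : (lineB f).IsRank 1 := (taut_isRank 1 A).pullback f

theorem sumB_succ_P [DecidableEq A] {r : ℕ} (f : Fin (r + 1) → C(X, Q.CP A)) (x : X) :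
    (sumB f).P x = injMat (multEquiv r A) *
      ((sumB fun i => f i.castSucc).sum (lineB (f (Fin.last r)))).P x *
        (injMat (multEquiv r A))ᴴ := by
  rw [injMat_equiv_conj]
  ext i j
  obtain ⟨i, rfl⟩ := (multEquiv r A).surjective i
  obtain ⟨j, rfl⟩ := (multEquiv r A).surjective j
  rw [Matrix.submatrix_apply, Equiv.symm_apply_apply, Equiv.symm_apply_apply, sumB_P]
  rcases i with ⟨i, a⟩ | a <;> rcases j with ⟨j, b⟩ | b
  · rw [Bun.sum_P, Matrix.fromBlocks_apply₁₁, sumB_P]
    by_cases h : i = j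
    · exact (if_pos (congrArg Fin.castSucc h)).trans (if_pos h).symm
    · exact (if_neg fun h' => h (Fin.castSucc_injective r h')).trans (if_neg h).symm
  · rw [Bun.sum_P, Matrix.fromBlocks_apply₁₂]
    exact if_neg (Fin.castSucc_lt_last i).ne
  · rw [Bun.sum_P, Matrix.fromBlocks_apply₂₁]
    exact if_neg (Fin.castSucc_lt_last j).ne'
  · rw [Bun.sum_P, Matrix.fromBlocks_apply₂₂]
    exact if_pos rfl

theorem sumB_one_P [DecidableEq A] (f : Fin 1 → C(X, Q.CP A)) (x : X) : (sumB f).P x =
    injMat (Equiv.uniqueProd A (Fin 1)).symm * (lineB (f 0)).P x *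
      (injMat (Equiv.uniqueProd A (Fin 1)).symm)ᴴ := by
  rw [injMat_equiv_conj]
  ext i j
  rw [Matrix.submatrix_apply, sumB_P, if_pos (Subsingleton.elim _ _)]
  have h : i.1 = 0 := Subsingleton.elim _ _
  rw [h]
  rfl

variable {E : MultTheory.{v}} (o : Orientation E) [E.GoodGr] [CompactSpace X] [E.Good X]

theorem eu_lineB (f : C(X, Q.CP A)) : o.eu (lineB f) (isRank_lineB f) = o.lc f := by
  have h := o.map_eu (X := X) (Y := Q.CP A) f (taut 1 A) (taut_isRank 1 A)
  rw [eu_taut_one] at h
  exact h.symm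

theorem eu_sumB : ∀ {r : ℕ} (f : Fin (r + 1) → C(X, Q.CP A)),
    o.eu (sumB f) (isRank_sumB f) = ∏ a, o.lc (f a)
  | 0, f => by
    classical
    have hu := injMat_isom (Equiv.uniqueProd A (Fin 1)).symm.injective
    rw [Fin.prod_univ_one, ← eu_lineB]
    exact o.eu_isom (X := X) (injMat (Equiv.uniqueProd A (Fin 1)).symm) hu (lineB (f 0))
      (isRank_lineB (f 0)) (sumB f) (isRank_sumB f) (fun x => sumB_one_P f x)
  | r + 1, f => by
    classical
    have hs : ((sumB fun i : Fin (r + 1) => f i.castSucc).sum (lineB (f (Fin.last (r + 1))))).IsRank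
        (r + 1 + 1) := isRank_sum (isRank_sumB _) (isRank_lineB _) rfl
    have h1 : o.eu (sumB f) (isRank_sumB f) =
        o.eu ((sumB fun i : Fin (r + 1) => f i.castSucc).sum (lineB (f (Fin.last (r + 1))))) hs :=
      o.eu_isom (injMat (multEquiv (r + 1) A)) (injMat_isom (Equiv.injective _)) _ hs (sumB f)
        (isRank_sumB f) (sumB_succ_P f)
    have h2 := o.eu_sum (X := X) (sumB fun i : Fin (r + 1) => f i.castSucc) (isRank_sumB _)
      (lineB (f (Fin.last (r + 1)))) (isRank_lineB _) hs rfl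
    have h3 := eu_sumB fun i : Fin (r + 1) => f i.castSucc
    rw [h1, h2, h3, eu_lineB]
    exact (Fin.prod_univ_castSucc fun a => o.lc (f a)).symm

/-- The pull back of the Thom class along the zero section of a sum of line bundles. -/
theorem map_sumB {r n : ℕ} (hn : n = r + 1) (f : Fin n → C(X, Q.CP A))
    (e : X ⟶ LC.of (Th n (Fin n × A)))
    (he : IsPairMap (sumB f).P (fun _ => 0) e) :
    E.map e (o.tau n (Fin n × A)) = ∏ a, o.lc (f a) := by
  subst hn
  rw [← eu_sumB o f, eq_zero_of_isPairMap (sumB f) (isRank_sumB f) e he, MultTheory.map_comp]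
  rfl

/-- The pull back of the Thom class along the zero section of a line bundle. -/
theorem map_line (f : C(X, Q.CP A)) (t : X ⟶ LC.of (Th 1 A))
    (ht : IsPairMap (fun x => Gr.P (f x : Gr 1 A)) (fun _ => 0) t) :
    E.map t (o.tau 1 A) = o.lc f := by
  have h := eq_zero_of_isPairMap (lineB f) (isRank_lineB f) t ht
  rw [h, MultTheory.map_comp]
  rfl

end bundle

/-! ### Reindexing -/

theorem sum_total {M : Type*} [AddCommMonoid M] (N : ℕ) (F : ℕ → ℕ → M)
    (h : ∀ i j, N < i ∨ N < j → F i j = 0) :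
    ∑ i ∈ Finset.range (N + 1), ∑ j ∈ Finset.range (N + 1), F i j =
      F 0 0 + ∑ k ∈ Finset.range (2 * N), ∑ i ∈ Finset.range (k + 2), F i (k + 1 - i) := by
  have h1 : ∑ i ∈ Finset.range (N + 1), ∑ j ∈ Finset.range (N + 1), F i j =
      ∑ q ∈ Finset.range (N + 1) ×ˢ Finset.range (N + 1), F q.1 q.2 :=
    (Finset.sum_product (Finset.range (N + 1)) (Finset.range (N + 1))
      (fun q : ℕ × ℕ => F q.1 q.2)).symm
  have h2 : ∑ q ∈ Finset.range (N + 1) ×ˢ Finset.range (N + 1), F q.1 q.2 =
      ∑ d ∈ Finset.range (2 * N + 1), ∑ q ∈ Finset.HasAntidiagonal.antidiagonal d, F q.1 q.2 := by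
    rw [← Finset.sum_fiberwise_of_maps_to (g := fun q : ℕ × ℕ => q.1 + q.2)
      (t := Finset.range (2 * N + 1))]
    · refine Finset.sum_congr rfl fun d _ => ?_
      refine Finset.sum_subset ?_ ?_
      · intro q hq
        rw [Finset.mem_filter] at hq
        exact Finset.HasAntidiagonal.mem_antidiagonal.2 hq.2
      · intro q hq hq'
        apply h
        by_contra hc
        push Not at hc
        apply hq'
        rw [Finset.mem_filter, Finset.mem_product, Finset.mem_range, Finset.mem_range]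
        exact ⟨⟨by omega, by omega⟩, Finset.HasAntidiagonal.mem_antidiagonal.1 hq⟩
    · intro q hq
      rw [Finset.mem_product, Finset.mem_range, Finset.mem_range] at hq
      rw [Finset.mem_range]
      omega
  rw [h1, h2, Finset.sum_range_succ', add_comm]
  congr 1
  · simp
  · refine Finset.sum_congr rfl fun k _ => ?_
    exact Finset.Nat.sum_antidiagonal_eq_sum_range_succ F (k + 1)

/-! ### The product of two projective spaces -/

section two

variable {E : MultTheory.{v}} (o : Orientation E)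

/-- the product of two projective spaces -/
abbrev CP2 (N : ℕ) : LC := powObj (Q.CP (Fin (N + 1))) (Fin 2)

/-- `i` copies of `L` and `r - i` copies of `L'` -/
def pickL (N r i : ℕ) (a : Fin r) : C(CP2 N, Q.CP (Fin (N + 1))) :=
  if (a : ℕ) < i then evL (N + 1) (0 : Fin 2) else evL (N + 1) (1 : Fin 2)

variable [E.GoodGr]

theorem prod_pickL (N : ℕ) {r i : ℕ} (hi : i ≤ r) :
    haveI := good_gr_one o (Fin (N + 1))
    ∏ a, o.lc (pickL N r i a) = o.lc (evL (N + 1) (0 : Fin 2)) ^ i *
      o.lc (evL (N + 1) (1 : Fin 2)) ^ (r - i) := by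
  obtain ⟨j, rfl⟩ := Nat.exists_eq_add_of_le hi
  rw [Fin.prod_univ_add]
  congr 1
  · rw [Finset.prod_congr rfl (g := fun _ => o.lc (evL (N + 1) (0 : Fin 2)))]
    · simp
    · intro a _
      rw [pickL, if_pos (by simp)]
  · rw [Finset.prod_congr rfl (g := fun _ => o.lc (evL (N + 1) (1 : Fin 2)))]
    · simp
    · intro a _
      rw [pickL, if_neg (by simp)]

theorem lc_evL_zero (N : ℕ) (s : Fin 2) {i : ℕ} (hi : N < i) :
    haveI := good_gr_one o (Fin (N + 1))
    o.lc (evL (N + 1) s) ^ i = 0 := by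
  have := good_gr_one o (Fin (N + 1))
  exact lc_pow_eq_zero o (evL (N + 1) s) (by simpa using hi)

theorem sum_pickL (N : ℕ) (b : ℕ → ℕ → E.A) :
    haveI := good_gr_one o (Fin (N + 1))
    ∑ k ∈ Finset.range (2 * N), ∑ i ∈ Finset.range (k + 2),
        b i (k + 1 - i) • ∏ a, o.lc (pickL N (1 + k) i a) =
      ∑ k ∈ Finset.range (2 * N), ∑ i ∈ Finset.range (k + 2),
        b i (k + 1 - i) • (o.lc (evL (N + 1) (0 : Fin 2)) ^ i *
          o.lc (evL (N + 1) (1 : Fin 2)) ^ (k + 1 - i)) := by
  have := good_gr_one o (Fin (N + 1))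
  refine Finset.sum_congr rfl fun k _ => Finset.sum_congr rfl fun i hi => ?_
  have h := Finset.mem_range.1 hi
  rw [prod_pickL o N (r := 1 + k) (i := i) (by omega), Nat.add_comm 1 k]

/-- The Euler class of `L ⊗ L'`, where the terms are the Euler classes of sums of copies of `L`
and `L'`. -/
theorem lc_tens_pickL (N : ℕ) :
    haveI := good_gr_one o (Fin (N + 1))
    o.lc (tens (evL (N + 1) (0 : Fin 2)) (evL (N + 1) (1 : Fin 2))) =
      ∑ k ∈ Finset.range (2 * N), ∑ i ∈ Finset.range (k + 2),
        o.lawCoeff i (k + 1 - i) • ∏ a, o.lc (pickL N (1 + k) i a) := by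
  have := good_gr_one o (Fin (N + 1))
  rw [sum_pickL o N o.lawCoeff, lc_tens_val₂ o (evL (N + 1) (0 : Fin 2)) (evL (N + 1) (1 : Fin 2))
    (n := N + 1) (by simp) (by simp)]
  refine Eq.trans (sum_total N (fun i j => o.lawCoeff i j • (o.lc (evL (N + 1) (0 : Fin 2)) ^ i *
          o.lc (evL (N + 1) (1 : Fin 2)) ^ j)) ?_) ?_
  · rintro i j (hi | hj)
    · rw [lc_evL_zero o N 0 hi, zero_mul, smul_zero]
    · rw [lc_evL_zero o N 1 hj, mul_zero, smul_zero]
  · rw [lawCoeff_zero_right, if_neg (by omega), zero_smul, zero_add]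

/-- **Uniqueness of the coefficients.** -/
theorem lawCoeff_of_sum (N : ℕ) (a : ℕ → ℕ → E.A)
    (h : haveI := good_gr_one o (Fin (N + 1))
      o.lc (tens (evL (N + 1) (0 : Fin 2)) (evL (N + 1) (1 : Fin 2))) =
      ∑ k ∈ Finset.range (2 * N), ∑ i ∈ Finset.range (k + 2),
        a k i • ∏ b, o.lc (pickL N (1 + k) i b)) (k i : ℕ) (hi : i ≤ k + 1) (hi' : i ≤ N)
    (hk : k + 1 - i ≤ N) : o.lawCoeff i (k + 1 - i) = a k i := by
  have := good_gr_one o (Fin (N + 1))
  let b : ℕ → ℕ → E.A := fun i j => if i + j = 0 then 0 else a (i + j - 1) i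
  have h1 : o.lc (tens (evL (N + 1) (0 : Fin 2)) (evL (N + 1) (1 : Fin 2))) =
      val₂ (N + 1) b (o.lc (evL (N + 1) (0 : Fin 2))) (o.lc (evL (N + 1) (1 : Fin 2))) := by
    rw [h]
    have h2 : ∑ k ∈ Finset.range (2 * N), ∑ i ∈ Finset.range (k + 2),
        a k i • ∏ b, o.lc (pickL N (1 + k) i b) =
        ∑ k ∈ Finset.range (2 * N), ∑ i ∈ Finset.range (k + 2),
          b i (k + 1 - i) • ∏ b, o.lc (pickL N (1 + k) i b) := by
      refine Finset.sum_congr rfl fun k _ => Finset.sum_congr rfl fun i hi => ?_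
      have h := Finset.mem_range.1 hi
      have h3 : i + (k + 1 - i) = k + 1 := by omega
      have h4 : b i (k + 1 - i) = a k i := by
        simp only [b]
        rw [if_neg (by omega), h3, Nat.add_sub_cancel]
      rw [h4]
    rw [h2, sum_pickL o N b]
    refine Eq.symm (Eq.trans (sum_total N (fun i j => b i j •
      (o.lc (evL (N + 1) (0 : Fin 2)) ^ i * o.lc (evL (N + 1) (1 : Fin 2)) ^ j)) ?_) ?_)
    · rintro i j (hi | hj)
      · rw [lc_evL_zero o N 0 hi, zero_mul, smul_zero]
      · rw [lc_evL_zero o N 1 hj, mul_zero, smul_zero]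
    · have h5 : b 0 0 = 0 := if_pos rfl
      rw [h5, zero_smul, zero_add]
  rw [lc_tens_val₂ o (evL (N + 1) (0 : Fin 2)) (evL (N + 1) (1 : Fin 2))
    (n := N + 1) (by simp) (by simp), val₂_eq_sum (N + 1) _ fun s : Fin 2 =>
      o.lc (evL (N + 1) s), val₂_eq_sum (N + 1) _ fun s : Fin 2 => o.lc (evL (N + 1) s)] at h1
  have h2 := (freeOn_lc o (N + 1) (Fin 2)).bijective_smul.1
    (a₁ := fun g => o.lawCoeff (g 0) (g 1)) (a₂ := fun g => b (g 0) (g 1)) h1
  have h3 : o.lawCoeff i (k + 1 - i) = b i (k + 1 - i) :=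
    congrFun h2 ![⟨i, by omega⟩, ⟨k + 1 - i, by omega⟩]
  rw [h3]
  have h4 : i + (k + 1 - i) = k + 1 := by omega
  simp only [b]
  rw [if_neg (by omega), h4, Nat.add_sub_cancel]

end two

end Vale.Agent.P257.H702
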