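import Vale.Agent.P257.H702.Cl
import Vale.Agent.P257.H702.QLaw
import Vale.Agent.P251.M.ChainT

/-!
# P257 (helper702): converse of `coeff_series`

`isPSeries_iff` : `IsPSeries p o c` if and only if the `c k` are the coefficients of the `p`-series
of the formal group law of the theory of `R`; `exists_isPSeries`, `IsPSeries.unique`.
-/

open CategoryTheory MonoidalCategory OnePoint Topology Limits Pretriangulated Matrix MonObj

set_option linter.unusedSectionVars false

noncomputable section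

namespace Vale.Agent.P257.H702

open Vale.Agent.P251 Vale.Agent.P251.G Vale.Agent.P251.G.LC Vale.Agent.P251.I Vale.Agent.P251.T
  Vale.Agent.P251.M Vale.Agent.P251.St Vale.Agent.P217 Vale.Agent.P251.F

/-! ### The multiplicative theory -/

section Q

open Vale.Agent.P251.Q MultTheory

universe v

variable {E : MultTheory.{v}} (o : Orientation E)

theorem sum_of_multSeries (m N : ℕ)
    (t : Q.CP (Fin (N + 1)) ⟶ LC.of (G.Th 1 (Fin m → Fin (N + 1))))
    (ht : IsPairMap (X := Q.CP (Fin (N + 1))) (fun x : Gr 1 (Fin (N + 1)) => tpow m x.P)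
      (fun _ => 0) t)
    (e : ∀ k : ℕ, Q.CP (Fin (N + 1)) ⟶ LC.of (G.Th (1 + k) (Fin (1 + k) × Fin (N + 1))))
    (he : ∀ k, IsPairMap (X := Q.CP (Fin (N + 1)))
      (fun x i j => if i.1 = j.1 then Gr.P (x : Gr 1 (Fin (N + 1))) i.2 j.2 else 0)
      (fun _ => 0) (e k)) :
    E.map t (o.tau 1 (Fin m → Fin (N + 1))) =
        ∑ k ∈ Finset.range N, PowerSeries.coeff (k + 1) (multSeries o.law.toFG m) •
          E.map (e k) (o.tau (1 + k) (Fin (1 + k) × Fin (N + 1))) := by
  have := o.goodGr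
  have : E.Good (Q.CP (Fin (N + 1))) := ⟨MultTheory.GoodGr.gr 1 _⟩
  have h1 : E.map t (o.tau 1 (Fin m → Fin (N + 1))) =
      Q.nev1 (o.z (Fin (N + 1))) (multSeries o.law.toFG m) := by
    rw [map_tensorPower o m t ht, lc_tpow, lc_id]
  rw [h1, Q.nev1_eq_sum (z_pow_eq_zero o (N + 1) (Fin (N + 1)) (by simp)), Finset.sum_range_succ']
  have h2 : PowerSeries.coeff 0 (multSeries o.law.toFG m) = 0 := by
    rw [PowerSeries.coeff_zero_eq_constantCoeff]
    exact constantCoeff_multSeries _ m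
  rw [h2, zero_smul, add_zero]
  refine Finset.sum_congr rfl fun k _ => ?_
  rw [map_multiple' o k (1 + k) (Nat.add_comm 1 k) (e k) (he k)]

end Q

variable {T : SHCat} {S : Susp T} {R : RingSp T} {o : St.Oriented S R} {p : ℕ}
  {c : ∀ k : ℕ, SHCat.Hom (S.obj (St.Cn k)) R.obj}
variable {Ev : EvenSpheres T.C} {ε : Z.SphId S.toSpaceFunctor Ev}
    {s : S.toSpaceFunctor.S.obj CCF ⟶ (RSys R.obj Ev).obj 0 1}
    {W : ThomFam (RSys R.obj Ev) S.toSpaceFunctor s}
    {hF : CofTriangles S.toSpaceFunctor} {hs : (RSys R.obj Ev).IsSusp s}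

/-- **The converse of `coeff_series`.** -/
theorem isPSeries_of_coeff (hW : Z.IsFam ε (zOriented o) W)
    (h : ∀ k, PowerSeries.coeff (k + 1) (multSeries (W.orientation hF hs).law.toFG p) =
      coS ε hF hs (c k)) : P257.St.IsPSeries p o c := by
  intro N t e ht he
  have hX : LC.FC (toLC (St.CP (Fin (N + 1)))) := (fc_iff _).mp (fc_cp (Fin (N + 1)))
  have ht' : Z.IsTensorPower p ((cpIso (Fin (N + 1))).inv ≫ toHom t ≫
        (thIso 1 (Fin p → Fin (N + 1))).hom) :=
      isPair_conj' (X := St.CP (Fin (N + 1))) (X' := LC.of (Gr 1 (Fin (N + 1))))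
        (cpHomeo (Fin (N + 1)))
        (P := fun (x : Gr 1 (Fin (N + 1))) (i j : Fin p → Fin (N + 1)) =>
          ∏ k, x.P (i k) (j k)) (v := fun _ => 0) ht
  have he' : ∀ k, Z.IsMultiple (1 + k) ((cpIso (Fin (N + 1))).inv ≫ toHom (e k) ≫
        (thIso (1 + k) (Fin (1 + k) × Fin (N + 1))).hom) := fun k =>
      isPair_conj' (X := St.CP (Fin (N + 1))) (X' := LC.of (Gr 1 (Fin (N + 1))))
        (cpHomeo (Fin (N + 1)))
        (P := fun (x : Gr 1 (Fin (N + 1))) (i j : Fin (1 + k) × Fin (N + 1)) =>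
          if i.1 = j.1 then x.P i.2 j.2 else 0) (v := fun _ => 0) (he k)
  have hG : LC.FC (LC.of (Gr 1 (Fin (N + 1)))) := Z.Cells.gr 1 (Fin (N + 1))
  have i1 : (theory (RSys R.obj Ev) S.toSpaceFunctor hF s hs).Good
    (toLC (St.CP (Fin (N + 1)))) := ⟨Q.MultTheory.good_of_FC _ hX⟩
  have i2 : (theory (RSys R.obj Ev) S.toSpaceFunctor hF s hs).Good
    (LC.of (Gr 1 (Fin (N + 1)))) := ⟨Q.MultTheory.good_of_FC _ hG⟩
  have h1 := sum_of_multSeries (W.orientation hF hs) p N _ ht' _ he'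
  -- pull back to the space of the statement layer
  have h2 := congrArg ((theory (RSys R.obj Ev) S.toSpaceFunctor hF s hs).map
    (cpIso (Fin (N + 1))).hom) h1
  rw [← Q.MultTheory.map_comp, Iso.hom_inv_id_assoc, map_sum] at h2
  have h3 : (theory (RSys R.obj Ev) S.toSpaceFunctor hF s hs).map (toHom t ≫
      (thIso 1 (Fin p → Fin (N + 1))).hom) ((W.orientation hF hs).tau 1 (Fin p → Fin (N + 1))) =
      ∑ k ∈ Finset.range N, coS ε hF hs (c k) •
        (theory (RSys R.obj Ev) S.toSpaceFunctor hF s hs).map (toHom (e k) ≫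
          (thIso (1 + k) (Fin (1 + k) × Fin (N + 1))).hom)
            ((W.orientation hF hs).tau (1 + k) (Fin (1 + k) × Fin (N + 1))) := by
    refine h2.trans (Finset.sum_congr rfl fun k _ => ?_)
    rw [Q.MultTheory.map_smul, ← Q.MultTheory.map_comp, Iso.hom_inv_id_assoc, h k]
  choose w hw using fun k => exists_isScale (R := R) ε hX (c k)
    (SHCat.comp (S.map (e k)) (o.θ (1 + k) (Fin (1 + k) × Fin (N + 1))))
  refine ⟨w, fun k _ => hw k, ?_⟩
  apply clS_injective (R := R) (hF := hF) (hs := hs) ε hX 1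
  rw [map_sum, clS_θ hW hX, h3]
  refine Finset.sum_congr rfl fun k _ => ?_
  rw [(isScale_iff hX _ _ _).mp (hw k), clS_θ hW hX]

/-- **The `p`-series.** -/
theorem isPSeries_iff (hW : Z.IsFam ε (zOriented o) W) : P257.St.IsPSeries p o c ↔
    ∀ k, PowerSeries.coeff (k + 1) (multSeries (W.orientation hF hs).law.toFG p) =
      coS ε hF hs (c k) :=
  ⟨fun h k => coeff_series h hW k, isPSeries_of_coeff hW⟩

end Vale.Agent.P257.H702
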