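import Vale.Agent.P257.H702.LawDef
import Vale.Agent.P257.H702.SeriesConv

/-!
# P257 (helper702): the formal group law of an oriented ring spectrum of the statement layer

* `isLaw_iff` : `IsLaw o a` if and only if the `a k i` are the coefficients of the formal group law
  of the theory of `R`;
* `exists_coS`, `coS_injective` : the homogeneous coefficients of the theory.
-/

open CategoryTheory MonoidalCategory OnePoint Topology Limits Pretriangulated Matrix MonObj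

set_option linter.unusedSectionVars false

noncomputable section

namespace Vale.Agent.P257.H702

open Vale.Agent.P251 Vale.Agent.P251.G Vale.Agent.P251.G.LC Vale.Agent.P251.I Vale.Agent.P251.T
  Vale.Agent.P251.M Vale.Agent.P251.St Vale.Agent.P217 Vale.Agent.P251.F

variable {N : ℕ} {T : SHCat} {S : Susp T} {R : RingSp T} {o : St.Oriented S R} {p : ℕ}
  {a : ∀ k : ℕ, ℕ → SHCat.Hom (S.obj (St.Cn k)) R.obj}
variable {Ev : EvenSpheres T.C} {ε : Z.SphId S.toSpaceFunctor Ev}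
    {s : S.toSpaceFunctor.S.obj CCF ⟶ (RSys R.obj Ev).obj 0 1}
    {W : ThomFam (RSys R.obj Ev) S.toSpaceFunctor s}
    {hF : CofTriangles S.toSpaceFunctor} {hs : (RSys R.obj Ev).IsSusp s}

/-! ### The coefficients of the theory -/

theorem coS_injective (k : ℕ) : Function.Injective
    (coS ε hF hs : SHCat.Hom (S.obj (St.Cn k)) R.obj → _) := by
  intro c c' h
  have h1 := congrArg (coeffHom hF hs) h
  rw [coeffHom_coefOf, coeffHom_coefOf] at h1
  have h2 := DirectSum.of_injective (β := Ev.Gr R.obj) _ h1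
  exact (cancel_epi (ε.iso k).inv).mp h2

theorem exists_coS (k : ℕ) {x : (theory (RSys R.obj Ev) S.toSpaceFunctor hF s hs).A}
    (hx : x ∈ (theory (RSys R.obj Ev) S.toSpaceFunctor hF s hs).degA (-(k : ℤ))) :
    ∃ c : SHCat.Hom (S.obj (St.Cn k)) R.obj, x = coS ε hF hs c := by
  obtain ⟨y, hy⟩ := coeffHom_deg hF hs hx
  have hk : (k : ℤ) = - -(k : ℤ) := (neg_neg _).symm
  let z : Z.SC S.toSpaceFunctor k ⟶ R.obj :=
    (ε.iso k).hom ≫ (Ev.castIso (k : ℤ) (- -(k : ℤ)) hk).hom ≫ y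
  refine ⟨z, ?_⟩
  apply (coeffHom_bijective hF hs).1
  have h1 : (ε.iso k).inv ≫ z = (Ev.castIso (k : ℤ) (- -(k : ℤ)) hk).hom ≫ y :=
    Iso.inv_hom_id_assoc _ _
  refine hy.trans (Eq.trans ?_ (coeffHom_coefOf ((ε.iso k).inv ≫ z)).symm)
  rw [h1, of_cast]

/-! ### The product of two projective spaces -/

/-- the homeomorphism -/
def cp2Homeo (N : ℕ) : ((St.CP (Fin (N + 1))).prod (St.CP (Fin (N + 1)))).carrier ≃ₜ
    (Fin 2 → Gr 1 (Fin (N + 1))) :=
  ((cpHomeo (Fin (N + 1))).prodCongr (cpHomeo (Fin (N + 1)))).trans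
    (Homeomorph.finTwoArrow (X := Gr 1 (Fin (N + 1)))).symm

/-- the isomorphism -/
def cp2Iso (N : ℕ) : toLC ((St.CP (Fin (N + 1))).prod (St.CP (Fin (N + 1)))) ≅ CP2 N :=
  ofHomeo (X := toLC ((St.CP (Fin (N + 1))).prod (St.CP (Fin (N + 1))))) (Y := CP2 N) (cp2Homeo N)

theorem fc_cp2 (N : ℕ) :
    LC.FC (toLC ((St.CP (Fin (N + 1))).prod (St.CP (Fin (N + 1))))) :=
  St.fc_tensor (X := toLC (St.CP (Fin (N + 1)))) (Y := toLC (St.CP (Fin (N + 1))))
    ((fc_iff _).mp (fc_cp _)) ((fc_iff _).mp (fc_cp _))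

theorem fc_cp2' (N : ℕ) : LC.FC (CP2 N) := (fc_cp2 N).of_iso (cp2Iso N)

/-- the zero section of `L ⊗ L'` -/
def tMap (N : ℕ) : CP2 N ⟶ LC.of (G.Th 1 (Fin (N + 1) × Fin (N + 1))) :=
  Q.cmap (Q.tens (Q.evL (N + 1) (0 : Fin 2)) (Q.evL (N + 1) (1 : Fin 2))) ≫ Gr.zeroHom

/-- the projection onto `L ⊗ L'` -/
def tP (N : ℕ) (x : Fin 2 → Gr 1 (Fin (N + 1))) :
    Matrix (Fin (N + 1) × Fin (N + 1)) (Fin (N + 1) × Fin (N + 1)) ℂ :=
  fun i j => (x 0).P i.1 j.1 * (x 1).P i.2 j.2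

theorem isPair_tMap (N : ℕ) : Z.IsPair (X := CP2 N) (tP N) (fun _ => 0) (tMap N) := fun x =>
  ⟨Gr.zero (Q.tens (Q.evL (N + 1) (0 : Fin 2)) (Q.evL (N + 1) (1 : Fin 2)) x :
    Gr 1 (Fin (N + 1) × Fin (N + 1))), rfl, rfl, rfl⟩

/-- the zero section of a sum of copies of `L` and `L'` -/
def eMap (N k i : ℕ) : CP2 N ⟶ LC.of (G.Th (1 + k) (Fin (1 + k) × Fin (N + 1))) :=
  Q.cmap (Y := LC.of (Gr (1 + k) (Fin (1 + k) × Fin (N + 1))))
    ((sumB (pickL N (1 + k) i)).toGr (isRank_sumB _)) ≫ Gr.zeroHom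

theorem pickL_P (N r i : ℕ) (b : Fin r) (x : Fin 2 → Gr 1 (Fin (N + 1)))
    (c d : Fin (N + 1)) : Gr.P (pickL N r i b x : Gr 1 (Fin (N + 1))) c d =
      if (b : ℕ) < i then (x 0).P c d else (x 1).P c d := by
  unfold pickL
  split_ifs <;> rfl

/-- the projection onto `i` copies of `L` and `k + 1 - i` copies of `L'` -/
def eP (N k i : ℕ) (x : Fin 2 → Gr 1 (Fin (N + 1))) :
    Matrix (Fin (1 + k) × Fin (N + 1)) (Fin (1 + k) × Fin (N + 1)) ℂ :=
  fun b c => if b.1 = c.1 then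
    (if (b.1 : ℕ) < i then (x 0).P b.2 c.2 else (x 1).P b.2 c.2) else 0

theorem sumB_pickL_P (N k i : ℕ) (x : Fin 2 → Gr 1 (Fin (N + 1))) :
    (sumB (pickL N (1 + k) i)).P x = eP N k i x := by
  ext b c
  rw [sumB_P, eP]
  by_cases h1 : b.1 = c.1
  · rw [if_pos h1, if_pos h1]
    exact pickL_P N (1 + k) i b.1 x b.2 c.2
  · rw [if_neg h1, if_neg h1]

theorem isPair_eMap (N k i : ℕ) : Z.IsPair (X := CP2 N) (eP N k i) (fun _ => 0) (eMap N k i) := by
  intro x
  refine ⟨Gr.zero ((sumB (pickL N (1 + k) i)).toGr (isRank_sumB _) x :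
    Gr (1 + k) (Fin (1 + k) × Fin (N + 1))), rfl, ?_, rfl⟩
  exact sumB_pickL_P N k i x

/-! ### The two forms of the law -/

section Q

open Vale.Agent.P251.Q MultTheory

universe v

variable {E : MultTheory.{v}} (o : Orientation E)

theorem map_tZero [E.GoodGr] [E.Good (CP2 N)]
    (t : CP2 N ⟶ LC.of (G.Th 1 (Fin (N + 1) × Fin (N + 1))))
    (ht : IsPairMap (X := CP2 N) (tP N) (fun _ => 0) t) :
    E.map t (o.tau 1 (Fin (N + 1) × Fin (N + 1))) =
      o.lc (tens (evL (N + 1) (0 : Fin 2)) (evL (N + 1) (1 : Fin 2))) :=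
  map_line o (tens (evL (N + 1) (0 : Fin 2)) (evL (N + 1) (1 : Fin 2))) t ht

theorem map_eZero [E.GoodGr] [E.Good (CP2 N)] (k i : ℕ)
    (e : CP2 N ⟶ LC.of (G.Th (1 + k) (Fin (1 + k) × Fin (N + 1))))
    (he : IsPairMap (X := CP2 N) (eP N k i) (fun _ => 0) e) :
    E.map e (o.tau (1 + k) (Fin (1 + k) × Fin (N + 1))) =
      ∏ b, o.lc (pickL N (1 + k) i b) := by
  refine map_sumB o (Nat.add_comm 1 k) (pickL N (1 + k) i) e ?_
  intro x
  obtain ⟨y, h1, h2, h3⟩ := he x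
  exact ⟨y, h1, h2.trans (sumB_pickL_P N k i x).symm, h3⟩

end Q

section main

variable (hW : Z.IsFam ε (zOriented o) W)

include hW

/-- **The law in the theory gives the law in the statement layer.** -/
theorem isLaw_of_coeff
    (h : ∀ k i, i < k + 2 →
      (W.orientation hF hs).lawCoeff i (k + 1 - i) = coS ε hF hs (a k i)) :
    P257.St.IsLaw o a := by
  intro N t e ht he
  have hX := fc_cp2 N
  have i1 : (theory (RSys R.obj Ev) S.toSpaceFunctor hF s hs).Good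
    (toLC ((St.CP (Fin (N + 1))).prod (St.CP (Fin (N + 1))))) :=
      ⟨Q.MultTheory.good_of_FC _ hX⟩
  have i2 : (theory (RSys R.obj Ev) S.toSpaceFunctor hF s hs).Good (CP2 N) :=
      ⟨Q.MultTheory.good_of_FC _ (fc_cp2' N)⟩
  have i3 := (W.orientation hF hs).goodGr
  have ht' : Z.IsPair (X := CP2 N) (tP N) (fun _ => 0) ((cp2Iso N).inv ≫ toHom t ≫
        (thIso 1 (Fin (N + 1) × Fin (N + 1))).hom) :=
      isPair_conj' (X := (St.CP (Fin (N + 1))).prod (St.CP (Fin (N + 1)))) (X' := CP2 N)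
        (cp2Homeo N) (P := tP N) (v := fun _ => 0) ht
  have he' : ∀ k i, Z.IsPair (X := CP2 N) (eP N k i) (fun _ => 0) ((cp2Iso N).inv ≫
      toHom (e k i) ≫ (thIso (1 + k) (Fin (1 + k) × Fin (N + 1))).hom) := fun k i =>
      isPair_conj' (X := (St.CP (Fin (N + 1))).prod (St.CP (Fin (N + 1)))) (X' := CP2 N)
        (cp2Homeo N) (P := eP N k i) (v := fun _ => 0) (he k i)
  have h1 : (theory (RSys R.obj Ev) S.toSpaceFunctor hF s hs).map ((cp2Iso N).inv ≫ toHom t ≫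
      (thIso 1 (Fin (N + 1) × Fin (N + 1))).hom)
        ((W.orientation hF hs).tau 1 (Fin (N + 1) × Fin (N + 1))) =
      ∑ k ∈ Finset.range (2 * N), ∑ i ∈ Finset.range (k + 2), coS ε hF hs (a k i) •
        (theory (RSys R.obj Ev) S.toSpaceFunctor hF s hs).map ((cp2Iso N).inv ≫ toHom (e k i) ≫
          (thIso (1 + k) (Fin (1 + k) × Fin (N + 1))).hom)
            ((W.orientation hF hs).tau (1 + k) (Fin (1 + k) × Fin (N + 1))) := by
    rw [map_tZero _ _ ht', lc_tens_pickL]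
    refine Finset.sum_congr rfl fun k _ => Finset.sum_congr rfl fun i hi => ?_
    rw [map_eZero _ k i _ (he' k i), h k i (Finset.mem_range.1 hi)]
  have h2 := congrArg ((theory (RSys R.obj Ev) S.toSpaceFunctor hF s hs).map
    (cp2Iso N).hom) h1
  rw [← Q.MultTheory.map_comp, Iso.hom_inv_id_assoc, map_sum] at h2
  choose w hw using fun k i => exists_isScale (R := R) ε hX (a k i)
    (SHCat.comp (S.map (e k i)) (o.θ (1 + k) (Fin (1 + k) × Fin (N + 1))))
  refine ⟨w, fun k _ i _ => hw k i, ?_⟩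
  apply clS_injective (R := R) (hF := hF) (hs := hs) ε hX 1
  rw [map_sum, clS_θ hW hX, h2]
  refine Finset.sum_congr rfl fun k _ => ?_
  rw [map_sum, map_sum]
  refine Finset.sum_congr rfl fun i _ => ?_
  rw [(isScale_iff hX _ _ _).mp (hw k i), clS_θ hW hX, Q.MultTheory.map_smul,
    ← Q.MultTheory.map_comp, Iso.hom_inv_id_assoc]

/-- **The law in the statement layer gives the law in the theory.** -/
theorem coeff_of_isLaw (h : P257.St.IsLaw o a) (k i : ℕ) (hi : i < k + 2) :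
    (W.orientation hF hs).lawCoeff i (k + 1 - i) = coS ε hF hs (a k i) := by
  obtain ⟨N, hN⟩ : ∃ N, N = k + 1 := ⟨_, rfl⟩
  have hX := fc_cp2 N
  have i1 : (theory (RSys R.obj Ev) S.toSpaceFunctor hF s hs).Good
    (toLC ((St.CP (Fin (N + 1))).prod (St.CP (Fin (N + 1))))) :=
      ⟨Q.MultTheory.good_of_FC _ hX⟩
  have i2 : (theory (RSys R.obj Ev) S.toSpaceFunctor hF s hs).Good (CP2 N) :=
      ⟨Q.MultTheory.good_of_FC _ (fc_cp2' N)⟩
  have i3 := (W.orientation hF hs).goodGr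
  have ht' := isPair_conj (X := (St.CP (Fin (N + 1))).prod (St.CP (Fin (N + 1)))) (X' := CP2 N)
    (cp2Homeo N) (isPair_tMap N)
  have he' := fun k i => isPair_conj (X := (St.CP (Fin (N + 1))).prod (St.CP (Fin (N + 1))))
    (X' := CP2 N) (cp2Homeo N) (isPair_eMap N k i)
  obtain ⟨w, hw, hsum⟩ := h N _ _ ht' he'
  have h1 := congrArg (clS (R := R) ε hF hs hX 1) hsum
  rw [map_sum, clS_θ hW hX] at h1
  have h2 : (theory (RSys R.obj Ev) S.toSpaceFunctor hF s hs).map (cp2Iso N).hom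
      ((theory (RSys R.obj Ev) S.toSpaceFunctor hF s hs).map (tMap N)
        ((W.orientation hF hs).tau 1 (Fin (N + 1) × Fin (N + 1)))) =
      (theory (RSys R.obj Ev) S.toSpaceFunctor hF s hs).map (cp2Iso N).hom
        (∑ k ∈ Finset.range (2 * N), ∑ i ∈ Finset.range (k + 2), coS ε hF hs (a k i) •
          (theory (RSys R.obj Ev) S.toSpaceFunctor hF s hs).map (eMap N k i)
            ((W.orientation hF hs).tau (1 + k) (Fin (1 + k) × Fin (N + 1)))) := by
    rw [← Q.MultTheory.map_comp, map_sum]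
    have e1 : toHom (ofHom (Y := St.Th 1 (Fin (N + 1) × Fin (N + 1))) ((ofHomeo
        (X := toLC ((St.CP (Fin (N + 1))).prod (St.CP (Fin (N + 1))))) (Y := CP2 N)
        (cp2Homeo N)).hom ≫ tMap N ≫ (thIso 1 (Fin (N + 1) × Fin (N + 1))).inv)) ≫
          (thIso 1 (Fin (N + 1) × Fin (N + 1))).hom = (cp2Iso N).hom ≫ tMap N := by
      rw [toHom_ofHom, Category.assoc, Category.assoc, Iso.inv_hom_id, Category.comp_id]
      rfl
    rw [e1] at h1
    refine h1.trans (Finset.sum_congr rfl fun k hk => ?_)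
    rw [map_sum, map_sum]
    refine Finset.sum_congr rfl fun i hi => ?_
    have e2 : toHom (ofHom (Y := St.Th (1 + k) (Fin (1 + k) × Fin (N + 1))) ((ofHomeo
        (X := toLC ((St.CP (Fin (N + 1))).prod (St.CP (Fin (N + 1))))) (Y := CP2 N)
        (cp2Homeo N)).hom ≫ eMap N k i ≫ (thIso (1 + k) (Fin (1 + k) × Fin (N + 1))).inv)) ≫
          (thIso (1 + k) (Fin (1 + k) × Fin (N + 1))).hom = (cp2Iso N).hom ≫ eMap N k i := by
      rw [toHom_ofHom, Category.assoc, Category.assoc, Iso.inv_hom_id, Category.comp_id]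
      rfl
    rw [(isScale_iff hX _ _ _).mp (hw k (Finset.mem_range.1 hk) i (Finset.mem_range.1 hi)),
      clS_θ hW hX, e2, Q.MultTheory.map_smul, Q.MultTheory.map_comp]
  have h3 := (Q.map_iso_bijective (cp2Iso N)).1 h2
  have h4 : (W.orientation hF hs).lc (Q.tens (Q.evL (N + 1) (0 : Fin 2))
      (Q.evL (N + 1) (1 : Fin 2))) =
      ∑ k ∈ Finset.range (2 * N), ∑ i ∈ Finset.range (k + 2),
        coS ε hF hs (a k i) • ∏ b, (W.orientation hF hs).lc (pickL N (1 + k) i b) := by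
    rw [← map_tZero _ _ (isPair_tMap N), h3]
    refine Finset.sum_congr rfl fun k _ => Finset.sum_congr rfl fun i _ => ?_
    rw [map_eZero _ k i _ (isPair_eMap N k i)]
  exact lawCoeff_of_sum (W.orientation hF hs) N (fun k i => coS ε hF hs (a k i)) h4 k i
    (by omega) (by omega) (by omega)

/-- **The formal group law.** -/
theorem isLaw_iff : P257.St.IsLaw o a ↔ ∀ k i, i < k + 2 →
    (W.orientation hF hs).lawCoeff i (k + 1 - i) = coS ε hF hs (a k i) :=
  ⟨fun h k i hi => coeff_of_isLaw hW h k i hi, isLaw_of_coeff hW⟩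

end main

end Vale.Agent.P257.H702
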