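import Vale.Agent.P257.H702.Statement

/-!
# P257, statement layer: the formal group law of a complex orientation

`IsLaw o a` : the formal group law of the orientation `o` is `∑ a k i x ^ i y ^ (k + 1 - i)`.
-/

open CategoryTheory MonoidalCategory OnePoint

noncomputable section

namespace Vale.Agent.P257.St

open Vale.Agent.P251.St Vale.Agent.P251.St.SHCat

variable {T : SHCat} {S : Susp T} {R : RingSp T}

/-- The formal group law of the orientation `o` is `F(x, y) = ∑ a k i x ^ i y ^ (k + 1 - i)`, where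
`a k i ∈ π_{2k} R` for `k ≥ 0` and `0 ≤ i ≤ k + 1`. On the product of two copies of the projective
space of `ℂ^(N + 1)`, where `x ^ (N + 1) = 0 = y ^ (N + 1)`: `t` is the zero section of the tensor
product `L ⊗ L'` of the two tautological line bundles, so that the pull back of the Thom class
along `t` is `F(x, y)`, and `e k i` is the zero section of the sum of `i` copies of `L` and
`k + 1 - i` copies of `L'`, so that the pull back of the Thom class along `e k i` is
`x ^ i y ^ (k + 1 - i)`. -/
def IsLaw (o : Oriented S R) (a : ∀ k : ℕ, ℕ → Hom (S.obj (Cn k)) R.obj) : Prop :=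
  ∀ (N : ℕ)
    (t : Map ((CP (Fin (N + 1))).prod (CP (Fin (N + 1)))) (Th 1 (Fin (N + 1) × Fin (N + 1))))
    (e : ∀ k : ℕ, ℕ → Map ((CP (Fin (N + 1))).prod (CP (Fin (N + 1))))
      (Th (1 + k) (Fin (1 + k) × Fin (N + 1)))),
    IsPair (fun (x : CPSet (Fin (N + 1)) × CPSet (Fin (N + 1))) i j =>
      x.1.1 i.1 j.1 * x.2.1 i.2 j.2) (fun _ => 0) t →
    (∀ k i, IsPair (fun (x : CPSet (Fin (N + 1)) × CPSet (Fin (N + 1))) b c =>
      if b.1 = c.1 then (if (b.1 : ℕ) < i then x.1.1 b.2 c.2 else x.2.1 b.2 c.2) else 0)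
        (fun _ => 0) (e k i)) →
    ∃ w : ℕ → ℕ → Coh S R 1 ((CP (Fin (N + 1))).prod (CP (Fin (N + 1)))),
      (∀ k < 2 * N, ∀ i < k + 2,
        IsScale (a k i) (comp (S.map (e k i)) (o.θ (1 + k) _)) (w k i)) ∧
      comp (S.map t) (o.θ 1 _) =
        ∑ k ∈ Finset.range (2 * N), ∑ i ∈ Finset.range (k + 2), w k i

end Vale.Agent.P257.St
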