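import Vale.Agent.P257.H702.Series
import Vale.Agent.P257.H702.GenK
import Vale.Agent.P251.I.M2
import Vale.Agent.P251.M.LineIso

/-!
# P257 (helper702): oriented ring spectra of the statement layer as monoids under `MU`
-/

open CategoryTheory MonoidalCategory OnePoint Topology Limits Pretriangulated Matrix MonObj

set_option linter.unusedSectionVars false

noncomputable section

namespace Vale.Agent.P257.H702

open Vale.Agent.P251 Vale.Agent.P251.G Vale.Agent.P251.G.LC Vale.Agent.P251.I Vale.Agent.P251.T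
  Vale.Agent.P251.M Vale.Agent.P251.St Vale.Agent.P217 Vale.Agent.P251.F
open Vale.Agent.P251.M.EvenSpheres

theorem castIso_symm {C : Type*} [Category C] [MonoidalCategory C] [SymmetricCategory C]
    (E : EvenSpheres C) {m n : ℤ} (h : m = n) (h' : n = m) :
    (E.castIso m n h).inv = (E.castIso n m h').hom := by
  subst h
  simp

variable {T : SHCat} (S : Susp T)

/-- the identification of `Σ ℂ^n` with the standard even spheres -/
def eps : Z.SphId S.toSpaceFunctor (stdEven T.C) := Z.sphId (M.lineIso S.toSpaceFunctor)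

/-- the identification of `Σ ℂ^n` with the standard even spheres -/
def isoE (n : ℕ) : S.obj (St.Cn n) ≅ (stdEven T.C).S n := (eps S).iso n

/-- `Σ ℂ^(p^i-1) ≅ S^{2(p^i-1)}` -/
def spI {p : ℕ} (hp : 1 ≤ p) (i : ℕ) : S.obj (St.Cn (p ^ i - 1)) ≅ Sv T.C p i :=
  isoE S (p ^ i - 1) ≪≫ (stdEven T.C).castIso _ _ (by
    rw [Nat.cast_sub (Nat.one_le_pow _ _ hp)]
    push_cast
    rfl)

variable {S}

theorem spI_inv {p : ℕ} (hp : 1 ≤ p) (i : ℕ) (h : (p ^ i : ℤ) - 1 = ((p ^ i - 1 : ℕ) : ℤ)) :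
    (spI S hp i).inv = ((stdEven T.C).castIso _ _ h).hom ≫ (isoE S (p ^ i - 1)).inv := by
  rw [← castIso_symm (stdEven T.C) h.symm h]
  rfl

theorem exists_under {D : I.MUData T.C} (hD : I.MUUniv (M.lineIso S.toSpaceFunctor) D)
    {R : RingSp T} {o : St.Oriented S R} {p : ℕ} (hp : 1 ≤ p)
    {c : ∀ k : ℕ, SHCat.Hom (S.obj (St.Cn k)) R.obj} (h : P257.St.IsPSeries p o c) :
    ∃ (u : D.R ⟶ R.obj) (_ : IsMonHom u), ∀ i, vK D p u i = (spI S hp i).inv ≫ c (p ^ i - 1) := by
  obtain ⟨u, hu, hlaw⟩ := hD.univ R.obj (Z.famK (M.lineIso S.toSpaceFunctor) (zOriented o))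
  refine ⟨u, hu, fun i => ?_⟩
  have h1 : vv p i (D.law.map (HRing.map (E := stdEven T.C) u)) =
      HRing.of (stdEven T.C) R.obj ((p ^ i : ℤ) - 1) (vK D p u i) := by
    rw [vv_map, D.vel_spec, HRing.map_of]
    rfl
  have hpi : 1 ≤ p ^ i := Nat.one_le_pow _ _ hp
  have h2 := coeff_series h (Z.isFam_famK (M.lineIso S.toSpaceFunctor) (zOriented o))
    (hF := cofTriangles S.toSpaceFunctor)
    (hs := isSusp_lineCls (M.lineIso S.toSpaceFunctor) (SeqMonoid.const R.obj)) (p ^ i - 1)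
  rw [Nat.sub_add_cancel hpi] at h2
  rw [hlaw, vv_map, vv, h2, coefK, coeffHom_coefOf] at h1
  have h3 := (of_cast (E := stdEven T.C) (R := R.obj) (m := (p ^ i : ℤ) - 1)
    (n := ((p ^ i - 1 : ℕ) : ℤ)) (by rw [Nat.cast_sub hpi]; push_cast; rfl)
    ((((Z.sphId (M.lineIso S.toSpaceFunctor)).iso (p ^ i - 1)).inv ≫ c (p ^ i - 1)))).symm
  have h4 := DirectSum.of_injective (β := (stdEven T.C).Gr R.obj) _ (h1.symm.trans h3)
  refine h4.trans ?_
  refine Eq.trans ?_ (congrArg (fun f => f ≫ c (p ^ i - 1)) (spI_inv (S := S) hp i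
    (by rw [Nat.cast_sub hpi]; push_cast; rfl)).symm)
  exact (Category.assoc _ _ _).symm

end Vale.Agent.P257.H702
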