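import Vale.Agent.P257.H702.LawConv
import Vale.Agent.P257.H702.Under
import Vale.Agent.P251.X.OrConv
import Vale.Agent.P251.M.BGlueD

/-!
# P257 (helper702): the formal group law over the homotopy ring

* `lawS o : Law (HRing (stdEven T.C) R.obj)` : the law of an orientation `o` of the statement layer;
* `isPSeries_iff_lawS`, `isLaw_iff_lawS` : the predicates of the statement layer;
* `exists_isPSeries`, `exists_isLaw`;
* `MU_univ_fam` : `MU` with its multiplicative family of Thom classes;
* `exists_oriented` : a monoid map `u : MU ⟶ R` defines an orientation with law `u_* F_MU`.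
-/

open CategoryTheory MonoidalCategory OnePoint Topology Limits Pretriangulated Matrix MonObj

set_option linter.unusedSectionVars false

noncomputable section

namespace Vale.Agent.P257.H702

open Vale.Agent.P251 Vale.Agent.P251.G Vale.Agent.P251.G.LC Vale.Agent.P251.I Vale.Agent.P251.T
  Vale.Agent.P251.M Vale.Agent.P251.St Vale.Agent.P217 Vale.Agent.P251.F

section lib

universe v u

variable {T : Type u} [Category.{v} T] [Preadditive T] [HasZeroObject T]
    [HasShift T ℤ] [∀ n : ℤ, (shiftFunctor T n).Additive] [Pretriangulated T]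
    [MonoidalCategory T] [SymmetricCategory T] [TensorTriangulated T]
  {F : SpaceFunctor T} {E : EvenSpheres T} {e : F.S.obj CCF ≅ E.L}
  {K K' : T} [MonObj K] [IsCommMonObj K] [MonObj K'] [IsCommMonObj K']

/-- the law of a family of Thom classes, over the homotopy ring -/
def lawW (W : ThomFam (RSys K E) F (lineCls e (SeqMonoid.const K))) : Law (HRing E K) :=
  (W.orientation (cofTriangles F) (isSusp_lineCls e (SeqMonoid.const K))).law.map (coefK e K)

/-- the push forward of a family of Thom classes -/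
def pushW (W : ThomFam (RSys K E) F (lineCls e (SeqMonoid.const K))) (u : K ⟶ K') [IsMonHom u] :
    ThomFam (RSys K' E) F (lineCls e (SeqMonoid.const K')) :=
  W.push ((SeqMonoid.Hom.const u).msys E) (lineCls_msys e (SeqMonoid.Hom.const u))

theorem lawW_pushW (W : ThomFam (RSys K E) F (lineCls e (SeqMonoid.const K))) (u : K ⟶ K')
    [IsMonHom u] : lawW (pushW W u) = (lawW W).map (HRing.map (E := E) u) := by
  have h1 : (thKHom e u).push
      (W.orientation (cofTriangles F) (isSusp_lineCls e (SeqMonoid.const K))) =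
      (pushW W u).orientation (cofTriangles F) (isSusp_lineCls e (SeqMonoid.const K')) :=
    W.push_orientation ((SeqMonoid.Hom.const u).msys E) (cofTriangles F)
      (isSusp_lineCls e (SeqMonoid.const K)) (isSusp_lineCls e (SeqMonoid.const K'))
      (lineCls_msys e (SeqMonoid.Hom.const u))
  unfold lawW
  rw [← h1, law_push, Law.map_map, Law.map_map]
  congr 1
  ext1 a
  exact coefK_mapA e u a

theorem isFam_unique {ε : Z.SphId F E} {o : Z.Oriented F K} {s : F.S.obj CCF ⟶ (RSys K E).obj 0 1}
    {W W' : ThomFam (RSys K E) F s} (h : Z.IsFam ε o W) (h' : Z.IsFam ε o W') : W = W' :=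
  ThomFam.ext_w fun n N => (hq_bijective (R := K) (S := E) n _).1 ((h n N).trans (h' n N).symm)

end lib

section mu

universe v u

variable {T : Type u} [Category.{v} T] [Preadditive T] [HasZeroObject T]
    [HasShift T ℤ] [∀ n : ℤ, (shiftFunctor T n).Additive] [Pretriangulated T] [IsTriangulated T]
    [MonoidalCategory T] [SymmetricCategory T] [TensorTriangulated T] [MonoidalClosed T]
    [HasCoproducts.{0} T] [HasProducts.{0} T] [StableCat T]

/-- `MU` with its family of Thom classes. -/
theorem MU_univ_fam (F : SpaceFunctor T) (e : F.S.obj CCF ≅ (stdEven T).L) :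
    ∃ D : MUData T, MUUniv e D ∧
      ∃ W : ThomFam (RSys D.R (stdEven T)) F (lineCls e (SeqMonoid.const D.R)),
        lawW W = D.law := by
  obtain ⟨M⟩ := nonempty_MUMon F (stdEven T) e
  obtain ⟨b⟩ := M.nonempty_muBasis
  refine ⟨M.data b, M.muUniv b, M.fam, ?_⟩
  rw [M.data_law b, M.ori_eq, M.orient_eq]
  rfl

end mu

variable {T : SHCat} {S : Susp T} {R : RingSp T} {p : ℕ}

/-- The formal group law of an orientation of the statement layer, over the homotopy ring. -/
def lawS (o : St.Oriented S R) : Law (HRing (stdEven T.C) R.obj) :=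
  lawW (Z.famK (M.lineIso S.toSpaceFunctor) (zOriented o))

theorem lawS_eq_of_isFam (o : St.Oriented S R)
    {W : ThomFam (RSys R.obj (stdEven T.C)) S.toSpaceFunctor
      (lineCls (M.lineIso S.toSpaceFunctor) (SeqMonoid.const R.obj))}
    (h : Z.IsFam (Z.sphId (M.lineIso S.toSpaceFunctor)) (zOriented o) W) : lawS o = lawW W := by
  rw [isFam_unique h (Z.isFam_famK (M.lineIso S.toSpaceFunctor) (zOriented o))]
  rfl

/-- **The `p`-series.** -/
theorem isPSeries_iff_lawS {o : St.Oriented S R}
    {c : ∀ k : ℕ, SHCat.Hom (S.obj (St.Cn k)) R.obj} : P257.St.IsPSeries p o c ↔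
    ∀ k : ℕ, PowerSeries.coeff (k + 1) (multSeries (lawS o).toFG p) =
      HRing.of (stdEven T.C) R.obj (k : ℤ) ((isoE S k).inv ≫ c k) := by
  rw [isPSeries_iff (Z.isFam_famK (M.lineIso S.toSpaceFunctor) (zOriented o))
    (hF := cofTriangles S.toSpaceFunctor)
    (hs := isSusp_lineCls (M.lineIso S.toSpaceFunctor) (SeqMonoid.const R.obj))]
  refine forall_congr' fun k => ?_
  rw [← (coefK_bijective (M.lineIso S.toSpaceFunctor) R.obj).1.eq_iff]
  have h1 : coefK (M.lineIso S.toSpaceFunctor) R.obj (coS (Z.sphId (M.lineIso S.toSpaceFunctor))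
      (cofTriangles S.toSpaceFunctor)
      (isSusp_lineCls (M.lineIso S.toSpaceFunctor) (SeqMonoid.const R.obj)) (c k)) =
      HRing.of (stdEven T.C) R.obj (k : ℤ) ((isoE S k).inv ≫ c k) := coeffHom_coefOf _
  rw [h1, lawS, lawW, Law.map_toFG, ← map_multSeries, PowerSeries.coeff_map]

/-- **The formal group law.** -/
theorem isLaw_iff_lawS {o : St.Oriented S R}
    {a : ∀ k : ℕ, ℕ → SHCat.Hom (S.obj (St.Cn k)) R.obj} : P257.St.IsLaw o a ↔
    ∀ k i : ℕ, i < k + 2 → MvPowerSeries.coeff
      (Finsupp.single (0 : Fin 2) i + Finsupp.single (1 : Fin 2) (k + 1 - i)) (lawS o).ps =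
      HRing.of (stdEven T.C) R.obj (k : ℤ) ((isoE S k).inv ≫ a k i) := by
  rw [isLaw_iff (Z.isFam_famK (M.lineIso S.toSpaceFunctor) (zOriented o))
    (hF := cofTriangles S.toSpaceFunctor)
    (hs := isSusp_lineCls (M.lineIso S.toSpaceFunctor) (SeqMonoid.const R.obj))]
  refine forall_congr' fun k => forall_congr' fun i => forall_congr' fun hi => ?_
  rw [← (coefK_bijective (M.lineIso S.toSpaceFunctor) R.obj).1.eq_iff]
  have h1 : coefK (M.lineIso S.toSpaceFunctor) R.obj (coS (Z.sphId (M.lineIso S.toSpaceFunctor))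
      (cofTriangles S.toSpaceFunctor)
      (isSusp_lineCls (M.lineIso S.toSpaceFunctor) (SeqMonoid.const R.obj)) (a k i)) =
      HRing.of (stdEven T.C) R.obj (k : ℤ) ((isoE S k).inv ≫ a k i) := coeffHom_coefOf _
  rw [h1, lawS, lawW, Law.map_ps, MvPowerSeries.coeff_map, Q.coeff_law]

theorem exists_isPSeries (p : ℕ) (o : St.Oriented S R) :
    ∃ c : ∀ k : ℕ, SHCat.Hom (S.obj (St.Cn k)) R.obj, P257.St.IsPSeries p o c := by
  set W := Z.famK (M.lineIso S.toSpaceFunctor) (zOriented o) with hW
  set or := W.orientation (cofTriangles S.toSpaceFunctor)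
    (isSusp_lineCls (M.lineIso S.toSpaceFunctor) (SeqMonoid.const R.obj)) with hor
  have h := fun k : ℕ => exists_coS (R := R) (ε := Z.sphId (M.lineIso S.toSpaceFunctor)) k
    (x := PowerSeries.coeff (k + 1) (multSeries or.law.toFG p)) (by
      have h2 := Q.coeff_multSeries_mem (Q.isMulGr_degA _) (Q.homPS_law or) p (k + 1)
      have h3 : (1 : ℤ) - ((k + 1 : ℕ) : ℤ) = -(k : ℤ) := by push_cast; ring
      rw [h3] at h2
      exact h2)
  choose c hc using h
  exact ⟨c, isPSeries_of_coeff (Z.isFam_famK _ (zOriented o)) hc⟩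

theorem exists_isLaw (o : St.Oriented S R) :
    ∃ a : ∀ k : ℕ, ℕ → SHCat.Hom (S.obj (St.Cn k)) R.obj, P257.St.IsLaw o a := by
  set W := Z.famK (M.lineIso S.toSpaceFunctor) (zOriented o) with hW
  set or := W.orientation (cofTriangles S.toSpaceFunctor)
    (isSusp_lineCls (M.lineIso S.toSpaceFunctor) (SeqMonoid.const R.obj)) with hor
  have h := fun k i : ℕ => fun hi : i < k + 2 =>
    exists_coS (R := R) (ε := Z.sphId (M.lineIso S.toSpaceFunctor)) k
    (x := or.lawCoeff i (k + 1 - i)) (by
      have h2 := Q.lawCoeff_deg or i (k + 1 - i)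
      have h3 : (1 : ℤ) - (i : ℤ) - ((k + 1 - i : ℕ) : ℤ) = -(k : ℤ) := by omega
      rw [h3] at h2
      exact h2)
  choose a ha using h
  refine ⟨fun k i => if hi : i < k + 2 then a k i hi else 0, isLaw_of_coeff
    (hF := cofTriangles S.toSpaceFunctor)
    (hs := isSusp_lineCls (M.lineIso S.toSpaceFunctor) (SeqMonoid.const R.obj))
    (Z.isFam_famK (M.lineIso S.toSpaceFunctor) (zOriented o)) fun k i hi => ?_⟩
  simp only [dif_pos hi]
  exact ha k i hi

/-- the `p`-series is unique -/
theorem isPSeries_unique {o : St.Oriented S R}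
    {c c' : ∀ k : ℕ, SHCat.Hom (S.obj (St.Cn k)) R.obj} (h : P257.St.IsPSeries p o c)
    (h' : P257.St.IsPSeries p o c') : c = c' := by
  funext k
  have h1 := (isPSeries_iff_lawS.mp h k).symm.trans (isPSeries_iff_lawS.mp h' k)
  have h2 := DirectSum.of_injective (β := (stdEven T.C).Gr R.obj) _ h1
  exact (cancel_epi (isoE S k).inv).mp h2

/-! ### Orientations from families of Thom classes -/

theorem zθ_sOriented (o : Z.Oriented S.toSpaceFunctor R.obj) (n : ℕ) (A : Type) [Fintype A] :
    zθ (sOriented o) n A = o.θ n A := by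
  have hA := Z.Cells.th n A
  have hA' := (fc_iff _).mp (fc_th n A)
  have h1 : S.mapL (thIso n A).inv ≫ S.mapL (thIso n A).hom ≫ rθ o n A = rθ o n A := by
    rw [← Category.assoc, S.mapL_inv_hom hA' hA, Category.id_comp]
  exact h1

theorem isFam_sOriented {ε : Z.SphId S.toSpaceFunctor (stdEven T.C)}
    {o : Z.Oriented S.toSpaceFunctor R.obj}
    {s : S.toSpaceFunctor.S.obj CCF ⟶ (RSys R.obj (stdEven T.C)).obj 0 1}
    {W : ThomFam (RSys R.obj (stdEven T.C)) S.toSpaceFunctor s} (h : Z.IsFam ε o W) :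
    Z.IsFam ε (zOriented (sOriented o)) W := fun n N => by
  refine (h n N).trans ?_
  exact congrArg (fun x => x ≫ R.obj ◁ (ε.iso n).hom) (zθ_sOriented o n (Fin N)).symm

/-- The orientation of a family of Thom classes, and its law. -/
theorem exists_oriented_of_fam (W : ThomFam (RSys R.obj (stdEven T.C)) S.toSpaceFunctor
      (lineCls (M.lineIso S.toSpaceFunctor) (SeqMonoid.const R.obj))) :
    ∃ o : St.Oriented S R, lawS o = lawW W :=
  ⟨sOriented (X.oriOf (M.lineIso S.toSpaceFunctor) W),
    lawS_eq_of_isFam _ (isFam_sOriented (X.isFam_oriOf _ W))⟩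

/-- **A monoid map from `MU` defines an orientation.** -/
theorem exists_oriented {K : T.C} [MonObj K] [IsCommMonObj K]
    (W : ThomFam (RSys K (stdEven T.C)) S.toSpaceFunctor
      (lineCls (M.lineIso S.toSpaceFunctor) (SeqMonoid.const K)))
    (u : K ⟶ R.obj) [IsMonHom u] :
    ∃ o : St.Oriented S R, lawS o = (lawW W).map (HRing.map (E := stdEven T.C) u) := by
  obtain ⟨o, ho⟩ := exists_oriented_of_fam (pushW W u)
  exact ⟨o, ho.trans (lawW_pushW W u)⟩

/-- **An orientation defines a monoid map from `MU`.** -/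
theorem exists_classify {D : I.MUData T.C} (hD : I.MUUniv (M.lineIso S.toSpaceFunctor) D)
    (o : St.Oriented S R) : ∃ (u : D.R ⟶ R.obj) (_ : IsMonHom u),
      D.law.map (HRing.map (E := stdEven T.C) u) = lawS o :=
  hD.univ R.obj (Z.famK (M.lineIso S.toSpaceFunctor) (zOriented o))

end Vale.Agent.P257.H702
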