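import Vale.Agent.P257.H702.LawS

/-!
# P257 (helper702): orientations and monoid maps from `MU`

* `MUFam D e` : the family of Thom classes of `MU` and its universal property (with uniqueness);
  `exists_muFam`;
* `famS o` : the family of Thom classes of an orientation `o` of the statement layer;
* `orMap_iff` : a ring map carries `o` to `o'` if and only if it carries `famS o` to `famS o'`;
* `MUFam.exists_map`, `MUFam.orMap_iff` : the corresponding monoid maps from `MU`.
-/

open CategoryTheory MonoidalCategory OnePoint Topology Limits Pretriangulated Matrix MonObj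

set_option linter.unusedSectionVars false

noncomputable section

namespace Vale.Agent.P257.H702

open Vale.Agent.P251 Vale.Agent.P251.G Vale.Agent.P251.G.LC Vale.Agent.P251.I Vale.Agent.P251.T
  Vale.Agent.P251.M Vale.Agent.P251.St Vale.Agent.P217 Vale.Agent.P251.F

section lib

universe v u

variable {T : Type u} [Category.{v} T] [Preadditive T] [HasZeroObject T]
    [HasShift T ℤ] [∀ n : ℤ, (shiftFunctor T n).Additive] [Pretriangulated T]
    [MonoidalCategory T] [SymmetricCategory T] [TensorTriangulated T]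
  {F : SpaceFunctor T} {E : EvenSpheres T} {e : F.S.obj CCF ≅ E.L}
  {K K' K'' : T} [MonObj K] [IsCommMonObj K] [MonObj K'] [IsCommMonObj K']
  [MonObj K''] [IsCommMonObj K'']

theorem hq_pushW (W : ThomFam (RSys K E) F (lineCls e (SeqMonoid.const K))) (u : K ⟶ K')
    [IsMonHom u] (n N : ℕ) : hq K' E n _ ((pushW W u).w n N) =
      hq K E n _ (W.w n N) ≫ (u ▷ E.S n) := hq_hmap u _

theorem pushW_comp (W : ThomFam (RSys K E) F (lineCls e (SeqMonoid.const K))) (u : K ⟶ K')
    [IsMonHom u] (v : K' ⟶ K'') [IsMonHom v] : pushW W (u ≫ v) = pushW (pushW W u) v :=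
  ThomFam.ext_w fun n N => (hq_bijective (R := K'') (S := E) n _).1 (by
    rw [hq_pushW, hq_pushW, hq_pushW, Category.assoc, comp_whiskerRight])

theorem pushW_id (W : ThomFam (RSys K E) F (lineCls e (SeqMonoid.const K))) :
    pushW W (𝟙 K) = W :=
  ThomFam.ext_w fun n N => (hq_bijective (R := K) (S := E) n _).1 (by
    rw [hq_pushW, id_whiskerRight, Category.comp_id])

end lib

section mu

universe v u

variable {T : Type u} [Category.{v} T] [Preadditive T] [HasZeroObject T]
    [HasShift T ℤ] [∀ n : ℤ, (shiftFunctor T n).Additive] [Pretriangulated T] [IsTriangulated T]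
    [MonoidalCategory T] [SymmetricCategory T] [TensorTriangulated T] [MonoidalClosed T]
    [HasCoproducts.{0} T] [HasProducts.{0} T] [StableCat T]

/-- **Uniqueness** in the universal property of `MU`. -/
theorem univ_unique {F : SpaceFunctor T} {E : EvenSpheres T} {e : F.S.obj CCF ≅ E.L}
    (M : MUMon F E e) {K : T} [MonObj K] [IsCommMonObj K] (u u' : M.R ⟶ K) [IsMonHom u]
    [IsMonHom u'] (h : pushW M.fam u = pushW M.fam u') : u = u' := by
  refine tel_ext (seqMU F E e) M.tel (limOne_MU_const F E e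
    ((pushW M.fam u).orientation (cofTriangles F) (isSusp_lineCls e (SeqMonoid.const K)))) ?_
  intro a
  have h1 := congrArg (fun W => hq K E a _ (W.w a (a + a))) h
  simp only [hq_pushW] at h1
  rw [M.hq_fam (le_refl a) (le_refl (a + a)), Category.assoc, Category.assoc] at h1
  have h2 := isIso_thomθ F E e a
  have h3 := (cancel_epi (thomθ F E e (n := a) (N := a + a) (a := a) le_rfl le_rfl)).mp h1
  rw [← comp_whiskerRight, ← comp_whiskerRight] at h3
  exact (whiskerRight_bijective (E.S a) _ _).1 h3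

/-- The family of Thom classes of `MU`, and its universal property. -/
structure MUFam {F : SpaceFunctor T} (e : F.S.obj CCF ≅ (stdEven T).L) (D : MUData T) where
  /-- the Thom classes -/
  W : ThomFam (RSys D.R (stdEven T)) F (lineCls e (SeqMonoid.const D.R))
  law : lawW W = D.law
  exists_map : ∀ (K : T) [MonObj K] [IsCommMonObj K]
    (W' : ThomFam (RSys K (stdEven T)) F (lineCls e (SeqMonoid.const K))),
    ∃ (u : D.R ⟶ K) (_ : IsMonHom u), pushW W u = W'
  unique : ∀ (K : T) [MonObj K] [IsCommMonObj K] (u u' : D.R ⟶ K) [IsMonHom u] [IsMonHom u'],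
    pushW W u = pushW W u' → u = u'

/-- **`MU`**, with its family of Thom classes. -/
theorem exists_muFam (F : SpaceFunctor T) (e : F.S.obj CCF ≅ (stdEven T).L) :
    ∃ D : MUData T, MUUniv e D ∧ Nonempty (MUFam e D) := by
  obtain ⟨M⟩ := nonempty_MUMon F (stdEven T) e
  obtain ⟨b⟩ := M.nonempty_muBasis
  refine ⟨M.data b, M.muUniv b, ⟨⟨M.fam, ?_, ?_, ?_⟩⟩⟩
  · rw [M.data_law b, M.ori_eq, M.orient_eq]
    rfl
  · intro K _ _ W'
    obtain ⟨u, hu, _, h⟩ := M.exists_univ_of_cls W' (clsOfFam e W') (fun _ _ => rfl)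
    exact ⟨u, hu, h⟩
  · intro K _ _ u u' hu hu' h
    exact @univ_unique T _ _ _ _ _ _ _ _ _ _ _ _ _ _ F (stdEven T) e M K _ _ u u' hu hu' h

end mu

variable {T : SHCat} {S : Susp T} {R R' : RingSp T} {p : ℕ}

/-- the family of Thom classes of an orientation -/
abbrev famS (o : St.Oriented S R) : ThomFam (RSys R.obj (stdEven T.C)) S.toSpaceFunctor
      (lineCls (M.lineIso S.toSpaceFunctor) (SeqMonoid.const R.obj)) :=
  Z.famK (M.lineIso S.toSpaceFunctor) (zOriented o)

/-- the Thom classes of all index sets are determined by the ones of `Fin N` -/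
theorem exists_thMap (n : ℕ) (A : Type) [Fintype A] : ∃ f : St.Map (St.Th n A)
    (St.Th n (Fin (Fintype.card A))), ∀ (R : RingSp T) (o : St.Oriented S R),
      SHCat.comp (S.map f) (o.θ n (Fin (Fintype.card A))) = o.θ n A := by
  classical
  let g := Fintype.equivFin A
  have hu : (injMat g)ᴴ * injMat g = 1 := injMat_isom g.injective
  let f' : LC.of (G.Th n A) ⟶ LC.of (G.Th n (Fin (Fintype.card A))) := Th.map (injMat g) hu
  have hf' : Z.IsPair (X := LC.of (G.Th n A)) (fun x => injMat g * x.P * (injMat g)ᴴ)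
      (fun x => injMat g *ᵥ x.v) f' := Q.isIsomMap_map (n := n) (injMat g) hu
  refine ⟨_, fun R o => o.isom (injMat g) _ hu
    (isPair_conj (X := St.Th n A) (X' := LC.of (G.Th n A)) (thHomeo n A)
      (P := fun x : G.Th n A => injMat g * x.P * (injMat g)ᴴ)
      (v := fun x : G.Th n A => injMat g *ᵥ x.v) hf')⟩

/-- **Ring maps and orientations.** -/
theorem orMap_iff {o : St.Oriented S R} {o' : St.Oriented S R'} (f : R.obj ⟶ R'.obj)
    [IsMonHom f] : (∀ (n : ℕ) (A : Type) [Fintype A],
      SHCat.comp (o.θ n A) (SHCat.tenHom f (SHCat.ident (S.obj (St.Cn n)))) = o'.θ n A) ↔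
    pushW (famS o) f = famS o' := by
  have key : ∀ n N : ℕ, SHCat.comp (o.θ n (Fin N))
      (SHCat.tenHom f (SHCat.ident (S.obj (St.Cn n)))) = o'.θ n (Fin N) ↔
      hq R'.obj (stdEven T.C) n _ ((pushW (famS o) f).w n N) =
        hq R'.obj (stdEven T.C) n _ ((famS o').w n N) := by
    intro n N
    set ε := Z.sphId (E := stdEven T.C) (M.lineIso S.toSpaceFunctor) with hε
    have h1 : hq R.obj (stdEven T.C) n _ ((famS o).w n N) =
        zθ o n (Fin N) ≫ R.obj ◁ (ε.iso n).hom := Z.isFam_famK _ (zOriented o) n N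
    have h2 : hq R'.obj (stdEven T.C) n _ ((famS o').w n N) =
        zθ o' n (Fin N) ≫ R'.obj ◁ (ε.iso n).hom := Z.isFam_famK _ (zOriented o') n N
    rw [hq_pushW, h1, h2, Category.assoc, whisker_exchange, ← Category.assoc, cancel_mono]
    have hA := Z.Cells.th n (Fin N)
    have hA' := (fc_iff _).mp (fc_th n (Fin N))
    constructor
    · intro h
      have h3 : (S.mapL (thIso n (Fin N)).inv ≫ o.θ n (Fin N)) ≫ (f ▷ S.obj (St.Cn n)) =
          S.mapL (thIso n (Fin N)).inv ≫ o'.θ n (Fin N) := by
        rw [Category.assoc, ← h]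
        congr 1
        rw [← MonoidalCategory.tensorHom_id]
      exact h3
    · intro h
      have h3 : (S.mapL (thIso n (Fin N)).inv ≫ o.θ n (Fin N)) ≫ (f ▷ S.obj (St.Cn n)) =
          S.mapL (thIso n (Fin N)).inv ≫ o'.θ n (Fin N) := h
      have h4 := congrArg (fun z => S.mapL (thIso n (Fin N)).hom ≫ z) h3
      simp only [← Category.assoc] at h4
      rw [S.mapL_hom_inv hA' hA] at h4
      have h5 : o.θ n (Fin N) ≫ (f ▷ S.obj (St.Cn n)) = o'.θ n (Fin N) := by
        refine Eq.trans ?_ (h4.trans (Category.id_comp _))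
        exact congrArg (fun z => z ≫ (f ▷ S.obj (St.Cn n))) (Category.id_comp _).symm
      refine Eq.trans ?_ h5
      change o.θ n (Fin N) ≫ (f ⊗ₘ 𝟙 (S.obj (St.Cn n))) = _
      rw [MonoidalCategory.tensorHom_id]
  constructor
  · intro h
    exact ThomFam.ext_w fun n N => (hq_bijective (R := R'.obj) (S := stdEven T.C) n _).1
      ((key n N).mp (h n (Fin N)))
  · intro h n A _
    obtain ⟨g, hg⟩ := exists_thMap (S := S) n A
    have h1 := (key n (Fintype.card A)).mpr (congrArg (fun W => hq R'.obj (stdEven T.C) n _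
      (W.w n (Fintype.card A))) h)
    rw [← hg R o, ← hg R' o', ← h1]
    exact Category.assoc _ _ _

section mufam

variable {D : I.MUData T.C} (U : MUFam (M.lineIso S.toSpaceFunctor) D)

/-- an orientation is the same as a monoid map from `MU` -/
theorem MUFam.exists_mapS (o : St.Oriented S R) : ∃ (u : D.R ⟶ R.obj) (_ : IsMonHom u),
    pushW U.W u = famS o := U.exists_map R.obj (famS o)

theorem MUFam.lawS_eq {o : St.Oriented S R} {u : D.R ⟶ R.obj} [IsMonHom u]
    (h : pushW U.W u = famS o) : lawS o = D.law.map (HRing.map (E := stdEven T.C) u) := by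
  rw [← U.law, ← lawW_pushW, h]
  rfl

/-- a monoid map from `MU` defines an orientation -/
theorem MUFam.exists_orient (u : D.R ⟶ R.obj) [IsMonHom u] :
    ∃ o : St.Oriented S R, pushW U.W u = famS o :=
  ⟨sOriented (X.oriOf (M.lineIso S.toSpaceFunctor) (pushW U.W u)),
    isFam_unique (isFam_sOriented (X.isFam_oriOf _ (pushW U.W u))) (Z.isFam_famK _ _)⟩

theorem MUFam.orMap_iff {o : St.Oriented S R} {o' : St.Oriented S R'} {u : D.R ⟶ R.obj}
    [IsMonHom u] (h : pushW U.W u = famS o) {u' : D.R ⟶ R'.obj} [IsMonHom u']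
    (h' : pushW U.W u' = famS o') (f : R.obj ⟶ R'.obj) [IsMonHom f] :
    (∀ (n : ℕ) (A : Type) [Fintype A],
      SHCat.comp (o.θ n A) (SHCat.tenHom f (SHCat.ident (S.obj (St.Cn n)))) = o'.θ n A) ↔
      u ≫ f = u' := by
  rw [H702.orMap_iff, ← h, ← h', ← pushW_comp]
  exact ⟨fun h => U.unique R'.obj _ _ h, fun h => by subst h; rfl⟩

end mufam

end Vale.Agent.P257.H702
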