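import Vale.Agent.P257.H702.OrMap
import Vale.Agent.P257.H702.BPRing
import Vale.Agent.P257.H80.HazIff
import Vale.Agent.P257.H80.HazWt
import Vale.Agent.P257.H80.MUSer

/-!
# P257 (helper702): `p`-typical orientations of the statement layer as ring maps

* `exists_hom` : `IsPTyp p o φ` gives the ring map `Φ : ℤ[v_1, v_2, …] ⟶ π_{2*} R` with
  `lawS o = Φ_* haz`;
* `exists_isPTyp` : the converse.
-/

open CategoryTheory MonoidalCategory OnePoint Topology Limits Pretriangulated Matrix MonObj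

set_option linter.unusedSectionVars false

noncomputable section

namespace Vale.Agent.P257.H702

open Vale.Agent.P251 Vale.Agent.P251.G Vale.Agent.P251.G.LC Vale.Agent.P251.I Vale.Agent.P251.T
  Vale.Agent.P251.M Vale.Agent.P251.St Vale.Agent.P251.F Vale.Agent.P257.H314 Vale.Agent.P217
open Vale.Agent.P251.M.EvenSpheres

variable {T : SHCat} {S : Susp T} {R : RingSp T} {p : ℕ} [hp : Fact p.Prime]
  {o : St.Oriented S R} {φ : ∀ n : ℕ, P257.St.VPoly p n →+ SHCat.Hom (S.obj (St.Cn n)) R.obj}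

theorem degree_pair (k i : ℕ) (hi : i < k + 2) :
    (Finsupp.single (0 : Fin 2) i + Finsupp.single (1 : Fin 2) (k + 1 - i)).degree = k + 1 := by
  rw [Finsupp.degree_eq_sum, Fin.sum_univ_two]
  simp
  omega

theorem pair_of_degree {d : Fin 2 →₀ ℕ} {k : ℕ} (hd : d.degree = k + 1) :
    d 0 < k + 2 ∧ d = Finsupp.single (0 : Fin 2) (d 0) + Finsupp.single (1 : Fin 2) (k + 1 - d 0) := by
  have h1 : d 0 + d 1 = k + 1 := by
    rw [← hd, Finsupp.degree_eq_sum, Fin.sum_univ_two]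
  refine ⟨by omega, ?_⟩
  ext j
  fin_cases j
  · simp
  · simp
    omega

theorem law_ext {A : Type*} [CommRing A] {F G : Law A}
    (h : ∀ k i : ℕ, i < k + 2 → MvPowerSeries.coeff
      (Finsupp.single (0 : Fin 2) i + Finsupp.single (1 : Fin 2) (k + 1 - i)) F.ps =
      MvPowerSeries.coeff
      (Finsupp.single (0 : Fin 2) i + Finsupp.single (1 : Fin 2) (k + 1 - i)) G.ps) : F = G := by
  apply Law.ext_ps
  ext d
  rcases hd : d.degree with _ | k
  · have h0 : d = 0 := (Finsupp.degree_eq_zero_iff d).1 hd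
    rw [h0]
    exact F.toFG.zero_constantCoeff.trans G.toFG.zero_constantCoeff.symm
  · obtain ⟨h1, h2⟩ := pair_of_degree hd
    rw [h2]
    exact h k _ h1

/-- **T1.** -/
theorem exists_hom (h : P257.St.IsPTyp p o φ) :
    ∃ Φ : MvPolynomial ℕ ℤ →+* HRing (stdEven T.C) R.obj,
      (∀ n (x : P257.St.VPoly p n),
        Φ x = HRing.of (stdEven T.C) R.obj n ((isoE S n).inv ≫ φ n x)) ∧
      lawS o = (H80.haz p).map Φ := by
  let f : ∀ n, VP p n →+ HRing (stdEven T.C) R.obj := fun n => (cls S R n).comp (φ n)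
  let ψ₀ : (DirectSum ℕ fun n => VP p n) →+* HRing (stdEven T.C) R.obj :=
    DirectSum.toSemiring (A := fun n => VP p n) f
      (cls_one fun j hj => h.one 1 j rfl hj)
      (fun {i j} a b => cls_mul (h.mul i j a b _ rfl))
  have hof : ∀ (n : ℕ) (x : VP p n), ψ₀ (DirectSum.of (fun n => VP p n) n x) =
      HRing.of (stdEven T.C) R.obj n ((isoE S n).inv ≫ φ n x) := fun n x =>
    DirectSum.toSemiring_of (A := fun n => VP p n) f _ _ n x
  let dec := DirectSum.decomposeRingEquiv (VP p)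
  have hΦ : ∀ n (x : P257.St.VPoly p n), (ψ₀.comp dec.toRingHom) x =
      HRing.of (stdEven T.C) R.obj n ((isoE S n).inv ≫ φ n x) := by
    intro n x
    have h3 : dec (x : MvPolynomial ℕ ℤ) = DirectSum.of (fun n => VP p n) n x :=
      DirectSum.decompose_of_mem (VP p) x.2
    have h4 : (ψ₀.comp dec.toRingHom) (x : MvPolynomial ℕ ℤ) = ψ₀ (dec x) := rfl
    rw [h4, h3, hof]
  refine ⟨ψ₀.comp dec.toRingHom, hΦ, ?_⟩
  obtain ⟨F, a, hF, ha, hFa⟩ := h.law
  rw [H80.isHaz_iff] at hF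
  rw [isLaw_iff_lawS] at ha
  apply law_ext
  intro k i hi
  obtain ⟨x, hx, hax⟩ := hFa k i hi
  rw [ha k i hi, Law.map_ps, MvPowerSeries.coeff_map, ← hF, ← hx, hΦ, hax]

/-! ### The converse -/

theorem isProd_of_cls {n m : ℕ} {x : SHCat.Hom (S.obj (St.Cn n)) R.obj}
    {y : SHCat.Hom (S.obj (St.Cn m)) R.obj} {z : SHCat.Hom (S.obj (St.Cn (n + m))) R.obj}
    (h : cls S R (n + m) z = cls S R n x * cls S R m y) : P257.St.IsProd x y z := by
  have hk : (n : ℤ) + (m : ℤ) = ((n + m : ℕ) : ℤ) := by push_cast; rfl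
  rw [cls_apply, cls_apply, cls_apply, of_mul_of hk] at h
  have h1 := H80.of_injective h
  intro g hg
  have hg' : toHom g = (Z.appIso n m).hom := toHom_append g hg
  have h2 := (eps S).add n m (Z.appIso n m) (Z.isAppend_appIso n m) hk
  have key : ∀ {A B C A' B' C' K : T.C} (a : A ≅ A') (b : B ≅ B') (c : C ≅ C')
      (s : A ⊗ B ≅ C) (mu : A' ⊗ B' ≅ C') (_ : s.hom ≫ c.hom = (a.hom ⊗ₘ b.hom) ≫ mu.hom)
      (x : A ⟶ K) (y : B ⟶ K) (z : C ⟶ K) (m : K ⊗ K ⟶ K)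
      (_ : c.inv ≫ z = (mu.inv ≫ ((a.inv ≫ x) ⊗ₘ (b.inv ≫ y))) ≫ m),
      s.hom ≫ z = (x ⊗ₘ y) ≫ m := by
    intro A B C A' B' C' K a b c s mu hs x y z m hz
    have e1 : z = c.hom ≫ (mu.inv ≫ ((a.inv ≫ x) ⊗ₘ (b.inv ≫ y))) ≫ m := by
      rw [← hz, Iso.hom_inv_id_assoc]
    rw [e1, ← Category.assoc, hs]
    simp only [Category.assoc, Iso.hom_inv_id_assoc]
    rw [tensorHom_comp_tensorHom_assoc]
    simp
  have h3 := key (isoE S n) (isoE S m) (isoE S (n + m))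
    (Z.SCadd S.toSpaceFunctor (Z.appIso n m)) ((stdEven T.C).mu n m (n + m : ℕ) hk) h2 x y z _ h1
  refine Eq.trans ?_ h3
  have h4 : S.map g = S.mapL (Z.appIso n m).hom := by
    rw [← hg']
    rfl
  change S.mul (St.Cn n) (St.Cn m) ≫ S.map g ≫ z =
    (S.mul (St.Cn n) (St.Cn m) ≫ S.mapL (Z.appIso n m).hom) ≫ z
  rw [h4, Category.assoc]

theorem one_of_cls {x : SHCat.Hom (S.obj (St.Cn 0)) R.obj} (h : cls S R 0 x = 1)
    (j : St.Map Pn (St.Cn 0))
    (hj : j.toFun (Space.pt (X := Pn) ()) = Space.pt (X := St.Cn 0) 0) :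
    SHCat.comp S.unit (SHCat.comp (S.map j) x) = R.unit := by
  have hj' : toHom j = Z.unitIso.hom := by
    apply LC.hom_ext
    rintro ⟨⟩
    exact hj
  have h2 : Z.unitT S.toSpaceFunctor ≫ (isoE S 0).hom = (stdEven T.C).z :=
    Z.sph_zero (M.lineIso S.toSpaceFunctor)
  have h1 : (isoE S 0).inv ≫ x = (stdEven T.C).zero.inv ≫ η[R.obj] := by
    apply H80.of_injective (n := 0) (T := T.C)
    exact h.trans of_one.symm
  have key : ∀ {A B K : T.C} (t : 𝟙_ T.C ⟶ A) (a : A ≅ B) (z : 𝟙_ T.C ≅ B) (_ : t ≫ a.hom = z.hom)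
      (x : A ⟶ K) (y : 𝟙_ T.C ⟶ K) (_ : a.inv ≫ x = z.inv ≫ y), t ≫ x = y := by
    intro A B K t a z h x y hx
    have e1 : x = a.hom ≫ z.inv ≫ y := by rw [← hx, Iso.hom_inv_id_assoc]
    rw [e1, reassoc_of% h, Iso.hom_inv_id_assoc]
  have h3 := key (Z.unitT S.toSpaceFunctor) (isoE S 0) (stdEven T.C).zero h2 x η[R.obj] h1
  refine Eq.trans ?_ h3
  have h4 : S.map j = S.mapL Z.unitIso.hom := by
    rw [← hj']
    rfl
  change S.unit ≫ S.map j ≫ x = (S.unit ≫ S.mapL Z.unitIso.hom) ≫ x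
  rw [h4, Category.assoc]

theorem isHomog_of_vPoly {Φ : MvPolynomial ℕ ℤ →+* HRing (stdEven T.C) R.obj}
    (hΦ : ∀ i, H80.IsHomog R.obj ((p ^ (i + 1) - 1 : ℕ) : ℤ) (Φ (MvPolynomial.X i))) (n : ℕ)
    (x : MvPolynomial ℕ ℤ) (hx : x ∈ VP p n) : H80.IsHomog R.obj (n : ℤ) (Φ x) := by
  have hx' : x.IsWeightedHomogeneous (fun i : ℕ => p ^ (i + 1) - 1) n := hx
  have key : ∀ e ∈ x.support,
      H80.IsHomog R.obj (n : ℤ) (Φ (MvPolynomial.monomial e (x.coeff e))) := by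
    intro e he
    have h1 := hx' (MvPolynomial.mem_support_iff.1 he)
    have h2 : Φ (MvPolynomial.C (x.coeff e)) = ((x.coeff e : ℤ) : HRing (stdEven T.C) R.obj) :=
      eq_intCast (Φ.comp MvPolynomial.C) (x.coeff e)
    have h3 : H80.IsHomog R.obj (n : ℤ)
        (Φ (e.prod fun i k => (MvPolynomial.X i : MvPolynomial ℕ ℤ) ^ k)) := by
      rw [Finsupp.prod, map_prod]
      have h4 := H80.IsHomog.prod e.support (fun i => (e i : ℤ) * ((p ^ (i + 1) - 1 : ℕ) : ℤ))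
        (fun i => Φ (MvPolynomial.X i ^ e i)) (fun i _ => by
          rw [map_pow]
          exact (hΦ i).pow (e i))
      have h5 : ∑ i ∈ e.support, (e i : ℤ) * ((p ^ (i + 1) - 1 : ℕ) : ℤ) = (n : ℤ) := by
        rw [← h1, Finsupp.weight_apply, Finsupp.sum]
        push_cast
        rfl
      rw [h5] at h4
      exact h4
    rw [MvPolynomial.monomial_eq, map_mul, h2, ← zsmul_eq_mul]
    obtain ⟨b, hb⟩ := h3
    refine ⟨x.coeff e • b, ?_⟩
    rw [hb]
    exact (map_zsmul (DirectSum.of ((stdEven T.C).Gr R.obj) (n : ℤ)) _ _).symm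
  rw [x.as_sum, map_sum]
  choose! a ha using key
  refine ⟨∑ e ∈ x.support, a e, ?_⟩
  rw [Finset.sum_congr rfl ha]
  exact (map_sum (DirectSum.of ((stdEven T.C).Gr R.obj) (n : ℤ)) _ _).symm

/-- **T2.** -/
theorem exists_isPTyp (hl : P257.St.PLocal p R.obj)
    {Φ : MvPolynomial ℕ ℤ →+* HRing (stdEven T.C) R.obj}
    (hΦ : ∀ i, H80.IsHomog R.obj ((p ^ (i + 1) - 1 : ℕ) : ℤ) (Φ (MvPolynomial.X i)))
    (hlaw : lawS o = (H80.haz p).map Φ) :
    ∃ φ : ∀ n : ℕ, P257.St.VPoly p n →+ SHCat.Hom (S.obj (St.Cn n)) R.obj,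
      P257.St.IsPTyp p o φ ∧ ∀ n (x : P257.St.VPoly p n),
        Φ x = HRing.of (stdEven T.C) R.obj n ((isoE S n).inv ≫ φ n x) := by
  have h1 : ∀ (n : ℕ) (x : P257.St.VPoly p n), ∃ a : SHCat.Hom (S.obj (St.Cn n)) R.obj,
      cls S R n a = Φ x := by
    intro n x
    obtain ⟨a, ha⟩ := isHomog_of_vPoly hΦ n x x.2
    refine ⟨(isoE S n).hom ≫ a, ?_⟩
    rw [cls_apply, Iso.inv_hom_id_assoc, ha]
  have hinj : ∀ n : ℕ, Function.Injective (cls S R n) := by
    intro n a b hab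
    rw [cls_apply, cls_apply] at hab
    have h2 := H80.of_injective hab
    rwa [cancel_epi] at h2
  choose f hf using h1
  let φ : ∀ n : ℕ, P257.St.VPoly p n →+ SHCat.Hom (S.obj (St.Cn n)) R.obj := fun n =>
    { toFun := f n
      map_zero' := hinj n (by rw [hf, map_zero]; exact map_zero Φ)
      map_add' := fun x y => hinj n (by
        rw [hf, map_add, hf, hf]
        exact map_add Φ _ _) }
  have hφ : ∀ (n : ℕ) (x : P257.St.VPoly p n), cls S R n (φ n x) = Φ x := hf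
  refine ⟨φ, ⟨hl, ?_, ?_, ?_⟩, fun n x => (hφ n x).symm⟩
  · intro a j ha hj
    exact one_of_cls (by rw [hφ, ha, map_one]) j hj
  · intro n m x y z hz
    exact isProd_of_cls (by rw [hφ, hφ, hφ, hz, map_mul])
  · have hmem : ∀ (k i : ℕ), i < k + 2 → MvPowerSeries.coeff (Finsupp.single (0 : Fin 2) i +
        Finsupp.single (1 : Fin 2) (k + 1 - i)) (H80.haz p).ps ∈ VP p k := fun k i hi =>
      H80.haz_homog p (degree_pair k i hi)
    refine ⟨(H80.haz p).ps, fun k i => if hi : i < k + 2 then φ k ⟨_, hmem k i hi⟩ else 0,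
      H80.isHaz_haz p, ?_, ?_⟩
    · rw [isLaw_iff_lawS]
      intro k i hi
      rw [dif_pos hi, hlaw, Law.map_ps, MvPowerSeries.coeff_map]
      exact (hφ k ⟨_, hmem k i hi⟩).symm
    · intro k i hi
      exact ⟨⟨_, hmem k i hi⟩, rfl, dif_pos hi⟩

end Vale.Agent.P257.H702
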