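import Vale.Agent.P251.Q.PSeries

/-!
# P257 (helper702): the coefficients of the `m`-series from the projective spaces

`coeff_multSeries_of_sum` : if the Euler class of the `m`-th tensor power of the tautological line
bundle on `ℂP^N` is `∑ k < N, a k • (Euler class of k + 1 copies of the tautological bundle)`, then
`a k` is the coefficient of `x ^ (k + 1)` in the `m`-series, for `k < N`.
-/

open CategoryTheory MonoidalCategory OnePoint Matrix Topology
open Vale.Agent.P251.G Vale.Agent.P251.G.LC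

universe v

set_option linter.unusedSectionVars false

noncomputable section

namespace Vale.Agent.P257.H702

open Vale.Agent.P251.Q Vale.Agent.P251 MultTheory Vale.Agent.P217 Vale.Agent.P251.F

variable {E : MultTheory.{v}} (o : Orientation E)

theorem map_multiple' {A : Type} [Fintype A] [E.GoodGr] (k n : ℕ) (h : n = k + 1)
    (e : Q.CP A ⟶ LC.of (Th n (Fin n × A)))
    (he : IsPairMap (X := Q.CP A)
      (fun x i j => if i.1 = j.1 then Gr.P (x : Gr 1 A) i.2 j.2 else 0) (fun _ => 0) e) :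
    E.map e (o.tau n (Fin n × A)) = o.z A ^ (k + 1) := by
  subst h
  exact map_multiple o k e he

theorem coeff_of_nev1_sum (N : ℕ) [E.Good (Q.CP (Fin (N + 1)))] (f : PowerSeries E.A)
    (a : ℕ → E.A) (h : nev1 (o.z (Fin (N + 1))) f =
      ∑ k ∈ Finset.range N, a k • o.z (Fin (N + 1)) ^ (k + 1)) :
    PowerSeries.coeff 0 f = 0 ∧ ∀ k < N, PowerSeries.coeff (k + 1) f = a k := by
  rw [nev1_eq_sum (z_pow_eq_zero o (N + 1) (Fin (N + 1)) (by simp)), Finset.sum_range] at h
  let g : ℕ → E.A := fun k => match k with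
    | 0 => 0
    | k + 1 => a k
  have h3 : ∑ k ∈ Finset.range N, a k • o.z (Fin (N + 1)) ^ (k + 1) =
      ∑ k : Fin (N + 1), g k • o.z (Fin (N + 1)) ^ (k : ℕ) := by
    rw [← Finset.sum_range (fun k => g k • o.z (Fin (N + 1)) ^ k), Finset.sum_range_succ']
    simp [g]
  have h4 := (freeOn_z o (N + 1) (Fin (N + 1)) (Fintype.card_fin _)).bijective_smul.1
    (a₁ := fun k : Fin (N + 1) => PowerSeries.coeff (k : ℕ) f)
    (a₂ := fun k : Fin (N + 1) => g k) (h.trans h3)
  constructor
  · exact congrFun h4 (⟨0, by omega⟩ : Fin (N + 1))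
  · intro k hk
    exact congrFun h4 (⟨k + 1, by omega⟩ : Fin (N + 1))

/-- **The coefficients of the `m`-series.** -/
theorem coeff_multSeries_of_sum (m N : ℕ) (a : ℕ → E.A)
    (t : Q.CP (Fin (N + 1)) ⟶ LC.of (Th 1 (Fin m → Fin (N + 1))))
    (ht : IsPairMap (X := Q.CP (Fin (N + 1))) (fun x : Gr 1 (Fin (N + 1)) => tpow m x.P)
      (fun _ => 0) t)
    (e : ∀ k : ℕ, Q.CP (Fin (N + 1)) ⟶ LC.of (Th (1 + k) (Fin (1 + k) × Fin (N + 1))))
    (he : ∀ k, IsPairMap (X := Q.CP (Fin (N + 1)))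
      (fun x i j => if i.1 = j.1 then Gr.P (x : Gr 1 (Fin (N + 1))) i.2 j.2 else 0)
      (fun _ => 0) (e k))
    (h : haveI := o.goodGr
      E.map t (o.tau 1 (Fin m → Fin (N + 1))) =
        ∑ k ∈ Finset.range N, a k • E.map (e k) (o.tau (1 + k) (Fin (1 + k) × Fin (N + 1)))) :
    ∀ k < N, PowerSeries.coeff (k + 1) (multSeries o.law.toFG m) = a k := by
  haveI := o.goodGr
  haveI : E.Good (Q.CP (Fin (N + 1))) := ⟨MultTheory.GoodGr.gr 1 _⟩
  refine (coeff_of_nev1_sum o N _ a ?_).2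
  have h1 : ∀ k ∈ Finset.range N, a k • o.z (Fin (N + 1)) ^ (k + 1) =
      a k • E.map (e k) (o.tau (1 + k) (Fin (1 + k) × Fin (N + 1))) := by
    intro k _
    rw [map_multiple' o k (1 + k) (Nat.add_comm 1 k) (e k) (he k)]
  rw [Finset.sum_congr rfl h1]
  exact (Eq.trans (by rw [map_tensorPower o m t ht, lc_tpow, lc_id]) h)

end Vale.Agent.P257.H702
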