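import Vale.Agent.P257.H702.RegAlg
import Vale.Agent.P257.H314.Cyc
import Vale.Agent.P251.S.RegMU

/-!
# P257 (helper702): `p, v_1, v_2, …` is a regular sequence on `π_* MU`, `p` odd
-/

open CategoryTheory MonoidalCategory Limits Pretriangulated MonObj

set_option linter.unusedSectionVars false

universe v u

namespace Vale.Agent.P257.H702

open Vale.Agent.P251 Vale.Agent.P251.T Vale.Agent.P251.S Vale.Agent.P251.M Vale.Agent.P251.F
  Vale.Agent.P257.H314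
open Vale.Agent.P251.M.EvenSpheres

section exact

variable {T : Type u} [Category.{v} T] [Preadditive T] [HasZeroObject T]
    [HasShift T ℤ] [∀ n : ℤ, (shiftFunctor T n).Additive] [Pretriangulated T]
    [MonoidalCategory T] [SymmetricCategory T] [TensorTriangulated T]
    {p : ℕ} {C : T} {i : 𝟙_ T ⟶ C} {δ : C ⟶ (𝟙_ T)⟦(1 : ℤ)⟧}

theorem whiskerLeft_p (X : T) :
    X ◁ ((p : ℤ) • 𝟙 (𝟙_ T)) = (p : ℤ) • 𝟙 (X ⊗ 𝟙_ T) := by
  have h3 : (tensorLeft X).map ((p : ℤ) • 𝟙 (𝟙_ T)) =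
      (p : ℤ) • (tensorLeft X).map (𝟙 (𝟙_ T)) := Functor.map_zsmul _
  refine h3.trans ?_
  rw [CategoryTheory.Functor.map_id]
  rfl

theorem exists_dist (hC : Triangle.mk ((p : ℤ) • 𝟙 (𝟙_ T)) i δ ∈ distTriang T) (X : T) :
    ∃ δ' : X ⊗ C ⟶ (X ⊗ 𝟙_ T)⟦(1 : ℤ)⟧,
      Triangle.mk ((p : ℤ) • 𝟙 (X ⊗ 𝟙_ T)) (X ◁ i) δ' ∈ distTriang T := by
  rw [← whiskerLeft_p]
  exact ⟨_, (tensorLeft X).map_distinguished _ hC⟩

/-- divisibility by `p` -/
theorem div_of_mod (hC : Triangle.mk ((p : ℤ) • 𝟙 (𝟙_ T)) i δ ∈ distTriang T) {A X : T}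
    (a : A ⟶ X) (h : a ≫ (ρ_ X).inv ≫ X ◁ i = 0) : ∃ b : A ⟶ X, a = (p : ℤ) • b := by
  obtain ⟨δ', hD⟩ := exists_dist hC X
  obtain ⟨g, hg⟩ : ∃ g : A ⟶ X ⊗ 𝟙_ T, a ≫ (ρ_ X).inv = g ≫ ((p : ℤ) • 𝟙 (X ⊗ 𝟙_ T)) :=
    Triangle.coyoneda_exact₂ _ hD (a ≫ (ρ_ X).inv) ((Category.assoc _ _ _).trans h)
  refine ⟨g ≫ (ρ_ X).hom, ?_⟩
  rw [← cancel_mono (ρ_ X).inv, hg]
  simp

/-- `p`-torsion -/
theorem tors_of_mod (hC : Triangle.mk ((p : ℤ) • 𝟙 (𝟙_ T)) i δ ∈ distTriang T) {A X : T}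
    (a : A ⟶ X) (h : (p : ℤ) • a = 0) (hA : ∀ g : A⟦(1 : ℤ)⟧ ⟶ X ⊗ C,
      ∃ g' : A⟦(1 : ℤ)⟧ ⟶ X, g = g' ≫ (ρ_ X).inv ≫ X ◁ i) : a = 0 := by
  obtain ⟨δ', hD⟩ := exists_dist hC X
  have h3 : (a ≫ (ρ_ X).inv) ≫ ((p : ℤ) • 𝟙 (X ⊗ 𝟙_ T)) = 0 := by
    rw [Preadditive.comp_zsmul, Category.comp_id, ← Preadditive.zsmul_comp, h, zero_comp]
  have h6 : (a ≫ (ρ_ X).inv)⟦(1 : ℤ)⟧' ≫ ((p : ℤ) • 𝟙 (X ⊗ 𝟙_ T))⟦(1 : ℤ)⟧' = 0 := by
    rw [← Functor.map_comp, h3, Functor.map_zero]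
  obtain ⟨g, hg⟩ : ∃ g : A⟦(1 : ℤ)⟧ ⟶ X ⊗ C, (a ≫ (ρ_ X).inv)⟦(1 : ℤ)⟧' = g ≫ δ' :=
    Triangle.coyoneda_exact₁ _ hD ((a ≫ (ρ_ X).inv)⟦(1 : ℤ)⟧') h6
  obtain ⟨g', hg'⟩ := hA g
  have h4 : (X ◁ i) ≫ δ' = 0 := comp_distTriang_mor_zero₂₃ _ hD
  rw [hg', Category.assoc, Category.assoc, h4, comp_zero, comp_zero] at hg
  have h5 : a ≫ (ρ_ X).inv = 0 := by
    apply (shiftFunctor T (1 : ℤ)).map_injective
    rw [hg, Functor.map_zero]
  rw [← cancel_mono (ρ_ X).inv, h5, zero_comp]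

end exact

section mu

variable {T : Type u} [Category.{v} T] [Preadditive T] [HasZeroObject T]
    [HasShift T ℤ] [∀ n : ℤ, (shiftFunctor T n).Additive] [Pretriangulated T]
    [MonoidalCategory T] [SymmetricCategory T] [TensorTriangulated T] [MonoidalClosed T]
    [HasCoproducts.{0} T] (D : I.MUData T)

/-- `Am R 1 ≅ R` -/
noncomputable def amI : Am D.R 1 ≅ D.R := λ_ D.R

/-- `Laz ⟶ π_* MU` -/
noncomputable def phiR : Cob Laz 0 →+* HRing (stdEven T) D.R :=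
  (HRing.map (I.amOne D.R)).comp (D.ev 0)

theorem phiR_of {w : ℤ} {z : Cob Laz 0} {a : (stdEven T).S w ⟶ Am D.R 1}
    (h : D.ev 0 z = HRing.of (stdEven T) (Am D.R 1) w a) :
    phiR D z = HRing.of (stdEven T) D.R w (a ≫ (amI D).hom) := by
  have h1 : phiR D z = HRing.map (I.amOne D.R) (D.ev 0 z) := rfl
  rw [h1, h, HRing.map_of]
  rfl

variable {p : ℕ} [Fact p.Prime] (hp : p ≠ 2) {C : T} {i : 𝟙_ T ⟶ C} {δ : C ⟶ (𝟙_ T)⟦(1 : ℤ)⟧}
    (hC : Triangle.mk ((p : ℤ) • 𝟙 (𝟙_ T)) i δ ∈ distTriang T)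

include hp hC

theorem mu_odd (k : ℤ) (f : (𝟙_ T)⟦2 * k + 1⟧ ⟶ D.R ⊗ C) : f = 0 := by
  have h1 := D.odd p hp 0 C i δ hC k (f ≫ (amI D).inv ▷ C)
  have h2 : f = (f ≫ (amI D).inv ▷ C) ≫ (amI D).hom ▷ C := by
    rw [Category.assoc, ← comp_whiskerRight, Iso.inv_hom_id]
    simp
  rw [h2, h1, zero_comp]

theorem mu_surj (w : ℤ) (f : (stdEven T).S w ⟶ D.R ⊗ C) :
    ∃ (z : Cob Laz 0) (a : (stdEven T).S w ⟶ D.R), Cob.IsWt w z ∧
      phiR D z = HRing.of (stdEven T) D.R w a ∧ f = a ≫ (ρ_ D.R).inv ≫ D.R ◁ i := by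
  obtain ⟨z, a, hz, ha, hf⟩ := D.surj p hp 0 C i δ hC w (f ≫ (amI D).inv ▷ C)
  refine ⟨z, a ≫ (amI D).hom, hz, phiR_of D ha, ?_⟩
  have h2 : f = (f ≫ (amI D).inv ▷ C) ≫ (amI D).hom ▷ C := by
    rw [Category.assoc, ← comp_whiskerRight, Iso.inv_hom_id]
    simp
  rw [h2, hf]
  simp only [Category.assoc]
  have h3 : (Am D.R 1 ◁ i) ≫ (amI D).hom ▷ C = (amI D).hom ▷ 𝟙_ T ≫ D.R ◁ i :=
    whisker_exchange _ _
  rw [h3, ← rightUnitor_inv_naturality_assoc]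

theorem mu_ker (w : ℤ) (z : Cob Laz 0) (hz : Cob.IsWt w z) (a : (stdEven T).S w ⟶ D.R)
    (ha : phiR D z = HRing.of (stdEven T) D.R w a) (h : a ≫ (ρ_ D.R).inv ≫ D.R ◁ i = 0) :
    ∃ y : Cob Laz 0, z = (p : ℤ) • y := by
  obtain ⟨a', ha'⟩ := D.ev_wt 0 w z hz
  have h1 : a' ≫ (amI D).hom = a := DirectSum.of_injective (β := (stdEven T).Gr D.R) w
    ((phiR_of D ha').symm.trans ha)
  obtain ⟨y, -, hy⟩ := D.ker p hp 0 C i δ hC w z hz a' ha' (by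
    have h3 : (Am D.R 1 ◁ i) ≫ (amI D).hom ▷ C = (amI D).hom ▷ 𝟙_ T ≫ D.R ◁ i :=
      whisker_exchange _ _
    have h4 : (a' ≫ (ρ_ (Am D.R 1)).inv ≫ (Am D.R 1 ◁ i)) ≫ (amI D).hom ▷ C = 0 := by
      simp only [Category.assoc]
      rw [h3, ← rightUnitor_inv_naturality_assoc, ← Category.assoc, h1, h]
    have h5 : IsIso ((amI D).hom ▷ C) := inferInstance
    rw [← cancel_mono ((amI D).hom ▷ C)]
    exact h4.trans zero_comp.symm)
  exact ⟨y, hy⟩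

/-- `p` is bijective on the odd homotopy of `MU`. -/
theorem mu_hodd (j : ℤ) (a : (𝟙_ T)⟦2 * j + 1⟧ ⟶ D.R) :
    ((p : ℤ) • a = 0 → a = 0) ∧ ∃ b : (𝟙_ T)⟦2 * j + 1⟧ ⟶ D.R, a = (p : ℤ) • b := by
  refine ⟨fun h => tors_of_mod hC a h fun g => ?_, div_of_mod hC a (mu_odd D hp hC j _)⟩
  let e : ((𝟙_ T)⟦2 * j + 1⟧)⟦(1 : ℤ)⟧ ≅ (stdEven T).S (j + 1) :=
    ((shiftFunctorAdd' T (2 * j + 1) 1 (2 * (j + 1)) (by ring)).app (𝟙_ T)).symm ≪≫
      (sI T (j + 1)).symm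
  obtain ⟨z, a', -, -, h1⟩ := mu_surj D hp hC (j + 1) (e.inv ≫ g)
  refine ⟨e.hom ≫ a', ?_⟩
  rw [Category.assoc, ← h1, Iso.hom_inv_id_assoc]

/-- `p` is injective on the even homotopy of `MU`. -/
theorem mu_even (n : ℤ) (a : (stdEven T).S n ⟶ D.R) (h : (p : ℤ) • a = 0) : a = 0 := by
  refine tors_of_mod hC a h fun g => ⟨0, ?_⟩
  let e : ((stdEven T).S n)⟦(1 : ℤ)⟧ ≅ (𝟙_ T)⟦2 * n + 1⟧ :=
    (shiftFunctor T (1 : ℤ)).mapIso (sI T n) ≪≫
      ((shiftFunctorAdd' T (2 * n) 1 (2 * n + 1) (by ring)).app (𝟙_ T)).symm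
  have h1 := mu_odd D hp hC n (e.inv ≫ g)
  rw [zero_comp, ← cancel_epi e.inv, h1, comp_zero]

/-- every class is a class of `Laz` modulo `p` -/
theorem mu_exists (n : ℤ) (a : (stdEven T).S n ⟶ D.R) :
    ∃ (z : Cob Laz 0) (b : (stdEven T).S n ⟶ D.R), Cob.IsWt n z ∧
      HRing.of (stdEven T) D.R n a = phiR D z + p * HRing.of (stdEven T) D.R n b := by
  obtain ⟨z, a', hz, h1, h2⟩ := mu_surj D hp hC n (a ≫ (ρ_ D.R).inv ≫ D.R ◁ i)
  obtain ⟨b, hb⟩ := div_of_mod hC (a - a') (by rw [Preadditive.sub_comp, h2, sub_self])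
  refine ⟨z, b, hz, ?_⟩
  have h3 : a = a' + (p : ℤ) • b := by rw [← hb]; abel
  rw [h1, h3]
  have h4 : HRing.of (stdEven T) D.R n (a' + (p : ℤ) • b) =
      HRing.of (stdEven T) D.R n a' + (p : ℤ) • HRing.of (stdEven T) D.R n b := by
    refine (map_add (DirectSum.of ((stdEven T).Gr D.R) n) _ _).trans ?_
    congr 1
    exact map_zsmul (DirectSum.of ((stdEven T).Gr D.R) n) _ _
  rw [h4, zsmul_eq_mul]
  push_cast
  rfl

/-- a class of `Laz` which is divisible by `p` in `π_* MU` is divisible by `p` -/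
theorem mu_div (n : ℤ) (z : Cob Laz 0) (hz : Cob.IsWt n z) (b : (stdEven T).S n ⟶ D.R)
    (h : phiR D z = p * HRing.of (stdEven T) D.R n b) : ∃ y : Cob Laz 0, z = (p : ℤ) • y := by
  have h1 : phiR D z = HRing.of (stdEven T) D.R n ((p : ℤ) • b) := by
    rw [h]
    have h4 : HRing.of (stdEven T) D.R n ((p : ℤ) • b) =
        (p : ℤ) • HRing.of (stdEven T) D.R n b :=
      map_zsmul (DirectSum.of ((stdEven T).Gr D.R) n) _ _
    rw [h4, zsmul_eq_mul]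
    push_cast
    rfl
  refine mu_ker D hp hC n z hz _ h1 ?_
  obtain ⟨δ', hD⟩ := exists_dist hC D.R
  have h2 : ((p : ℤ) • 𝟙 (D.R ⊗ 𝟙_ T)) ≫ D.R ◁ i = 0 := comp_distTriang_mor_zero₁₂ _ hD
  have h3 : ((p : ℤ) • b) ≫ (ρ_ D.R).inv ≫ D.R ◁ i =
      b ≫ (ρ_ D.R).inv ≫ ((p : ℤ) • 𝟙 (D.R ⊗ 𝟙_ T)) ≫ D.R ◁ i := by simp
  rw [h3, h2, comp_zero, comp_zero]

omit hC hp [Fact p.Prime] in
theorem phiR_v (k : ℕ) : phiR D (MvPolynomial.C (Laz.v p k)) =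
    HRing.of (stdEven T) D.R ((p ^ k : ℤ) - 1) (vK D p (𝟙 D.R) k) := by
  have h1 : vK D p (𝟙 D.R) k = D.vel p k := Category.comp_id _
  rw [h1, ← D.vel_spec, I.MUData.law, vv_map]
  have h2 : vv p k D.law1 = D.ev 0 (MvPolynomial.C (Laz.v p k)) := by
    unfold I.MUData.law1
    rw [vv_map]
    rfl
  rw [h2]
  rfl

omit hC hp [Fact p.Prime] in
theorem of_vK_zero' : HRing.of (stdEven T) D.R ((p ^ 0 : ℤ) - 1) (vK D p (𝟙 D.R) 0) =
    (p : HRing (stdEven T) D.R) := by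
  rw [← phiR_v, Laz.v, vv_zero, map_natCast, map_natCast]

/-- **Regularity of `p, v_1, v_2, …` on the even homotopy of `MU`.** -/
theorem mu_halg (k : ℕ) (n : ℤ) (a : (stdEven T).S n ⟶ D.R)
    (h : HRing.of (stdEven T) D.R n a *
        HRing.of (stdEven T) D.R ((p ^ k : ℤ) - 1) (vK D p (𝟙 D.R) k) ∈
      Ideal.span (Set.range fun i : Fin k =>
        HRing.of (stdEven T) D.R ((p ^ (i : ℕ) : ℤ) - 1) (vK D p (𝟙 D.R) i))) :
    HRing.of (stdEven T) D.R n a ∈ Ideal.span (Set.range fun i : Fin k =>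
        HRing.of (stdEven T) D.R ((p ^ (i : ℕ) : ℤ) - 1) (vK D p (𝟙 D.R) i)) := by
  have hz := of_vK_zero' D (p := p)
  rcases Nat.eq_zero_or_pos k with rfl | hk
  · have h0 : (Set.range fun i : Fin 0 =>
        HRing.of (stdEven T) D.R ((p ^ (i : ℕ) : ℤ) - 1) (vK D p (𝟙 D.R) i)) = ∅ :=
      Set.range_eq_empty _
    rw [h0, Ideal.span_empty, Ideal.mem_bot] at h ⊢
    rw [hz] at h
    have h1 : HRing.of (stdEven T) D.R n ((p : ℤ) • a) = 0 := by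
      have h4 : HRing.of (stdEven T) D.R n ((p : ℤ) • a) =
          (p : ℤ) • HRing.of (stdEven T) D.R n a :=
        map_zsmul (DirectSum.of ((stdEven T).Gr D.R) n) _ _
      rw [h4, zsmul_eq_mul, mul_comm]
      push_cast
      exact h
    have h2 : (p : ℤ) • a = 0 := DirectSum.of_injective (β := (stdEven T).Gr D.R) n
      (h1.trans (map_zero (DirectSum.of ((stdEven T).Gr D.R) n)).symm)
    rw [mu_even D hp hC n a h2]
    exact map_zero (DirectSum.of ((stdEven T).Gr D.R) n)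
  · have hmul : ∀ {m q : ℤ} (x : (stdEven T).S m ⟶ D.R) (y : (stdEven T).S q ⟶ D.R) {r : ℤ}
        (hr : m + q = r), HRing.of (stdEven T) D.R m x * HRing.of (stdEven T) D.R q y =
          HRing.of (stdEven T) D.R r (gmul hr x y) := fun x y r hr => of_mul_of hr x y
    rw [hmul _ _ rfl, ← inI_iff_mem_span (w := fun i => (p ^ i : ℤ) - 1)
      (v := vK D p (𝟙 D.R))] at h
    obtain ⟨b, hb⟩ := h
    choose b' hb' using fun i => exists_of_mul (vK D p (𝟙 D.R) i) (b i)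
    obtain ⟨z, b₀, hz₀, ha⟩ := mu_exists D hp hC n a
    choose z' c hz' hc using fun i => mu_exists D hp hC _ (b' i)
    have h1 : HRing.of (stdEven T) D.R n a *
        HRing.of (stdEven T) D.R ((p ^ k : ℤ) - 1) (vK D p (𝟙 D.R) k) =
        ∑ i ∈ Finset.range k, HRing.of (stdEven T) D.R _ (b' i) *
          HRing.of (stdEven T) D.R ((p ^ i : ℤ) - 1) (vK D p (𝟙 D.R) i) := by
      rw [hmul _ _ rfl, hb, of_sum]
      refine Finset.sum_congr rfl fun i _ => ?_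
      rw [hb']
      exact (hmul _ _ _).symm
    have h2 : phiR D (z * MvPolynomial.C (Laz.v p k) -
        ∑ i ∈ Finset.range k, z' i * MvPolynomial.C (Laz.v p i)) =
        p * HRing.of (stdEven T) D.R (n + ((p ^ k : ℤ) - 1))
          ((∑ i ∈ Finset.range k, gmul (by ring) (c i) (vK D p (𝟙 D.R) i)) -
            gmul rfl b₀ (vK D p (𝟙 D.R) k)) := by
      have h3 : HRing.of (stdEven T) D.R (n + ((p ^ k : ℤ) - 1))
          ((∑ i ∈ Finset.range k, gmul (by ring) (c i) (vK D p (𝟙 D.R) i)) -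
            gmul rfl b₀ (vK D p (𝟙 D.R) k)) =
          (∑ i ∈ Finset.range k, HRing.of (stdEven T) D.R _ (c i) *
            HRing.of (stdEven T) D.R ((p ^ i : ℤ) - 1) (vK D p (𝟙 D.R) i)) -
            HRing.of (stdEven T) D.R n b₀ *
              HRing.of (stdEven T) D.R ((p ^ k : ℤ) - 1) (vK D p (𝟙 D.R) k) := by
        refine (map_sub (DirectSum.of ((stdEven T).Gr D.R) _) _ _).trans ?_
        congr 1
        · refine (of_sum _ _).trans ?_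
          exact Finset.sum_congr rfl fun i _ => (hmul _ _ _).symm
        · exact (hmul _ _ rfl).symm
      rw [h3, map_sub, map_mul, map_sum, phiR_v]
      have h4 : ∀ i ∈ Finset.range k, phiR D (z' i * MvPolynomial.C (Laz.v p i)) =
          HRing.of (stdEven T) D.R _ (b' i) *
            HRing.of (stdEven T) D.R ((p ^ i : ℤ) - 1) (vK D p (𝟙 D.R) i) -
          p * (HRing.of (stdEven T) D.R _ (c i) *
            HRing.of (stdEven T) D.R ((p ^ i : ℤ) - 1) (vK D p (𝟙 D.R) i)) := by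
        intro i _
        rw [map_mul, phiR_v, hc i]
        ring
      rw [Finset.sum_congr rfl h4, Finset.sum_sub_distrib, ← h1, ha, ← Finset.mul_sum]
      ring
    have hwt : Cob.IsWt (n + ((p ^ k : ℤ) - 1)) (z * MvPolynomial.C (Laz.v p k) -
        ∑ i ∈ Finset.range k, z' i * MvPolynomial.C (Laz.v p i)) := by
      refine (Cob.wt Laz 0 _).sub_mem (hz₀.mul (vw p k 0).2) ((Cob.wt Laz 0 _).sum_mem
        fun i _ => ?_)
      have h5 := (hz' i).mul (vw p i 0).2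
      have h6 : n + ((p ^ k : ℤ) - 1) - ((p ^ i : ℤ) - 1) + ((p ^ i : ℤ) - 1) =
          n + ((p ^ k : ℤ) - 1) := by ring
      rw [h6] at h5
      exact h5
    obtain ⟨y, hy⟩ := mu_div D hp hC _ _ hwt _ h2
    -- `z` belongs to `I_k`
    have hmem : ∀ i < k, (MvPolynomial.C (Laz.v p i) : Cob Laz 0) ∈ H314.IC p k 0 := fun i hi =>
      Ideal.mem_map_of_mem _ (Ideal.subset_span ⟨i, hi, rfl⟩)
    have hpI : (p : Cob Laz 0) ∈ H314.IC p k 0 := by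
      have h7 := hmem 0 hk
      rwa [Laz.v, vv_zero, map_natCast] at h7
    have h8 : MvPolynomial.C (Laz.v p k) * z ∈ H314.IC p k 0 := by
      have h9 : MvPolynomial.C (Laz.v p k) * z = (p : ℤ) • y +
          ∑ i ∈ Finset.range k, z' i * MvPolynomial.C (Laz.v p i) := by
        rw [← hy]
        ring
      rw [h9]
      refine Ideal.add_mem _ ?_ (Ideal.sum_mem _ fun i hi =>
        Ideal.mul_mem_left _ _ (hmem i (Finset.mem_range.1 hi)))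
      rw [zsmul_eq_mul]
      push_cast
      exact Ideal.mul_mem_right _ _ hpI
    obtain ⟨r, hr⟩ := mem_map_C_I (mem_map_C_I_of_v_mul p le_rfl h8)
    have hV : ∀ i < k, HRing.of (stdEven T) D.R ((p ^ i : ℤ) - 1) (vK D p (𝟙 D.R) i) ∈
        Ideal.span (Set.range fun i : Fin k =>
          HRing.of (stdEven T) D.R ((p ^ (i : ℕ) : ℤ) - 1) (vK D p (𝟙 D.R) i)) :=
      fun i hi => Ideal.subset_span ⟨⟨i, hi⟩, rfl⟩
    rw [ha, hr, map_sum]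
    refine Ideal.add_mem _ (Ideal.sum_mem _ fun i hi => ?_) (Ideal.mul_mem_right _ _ ?_)
    · rw [map_mul, phiR_v]
      exact Ideal.mul_mem_right _ _ (hV i (Finset.mem_range.1 hi))
    · have h10 := hV 0 hk
      rwa [hz] at h10

/-- **`p, v_1, v_2, …` is a regular sequence on `π_* MU`**, `p` odd. -/
theorem reg_MU (h : ℕ) : Reg (vK D p (𝟙 D.R)) h := by
  refine reg_of_alg (p := p) (w := fun i => (p ^ i : ℤ) - 1) (v := vK D p (𝟙 D.R)) (e0 T p)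
    ?_ (fun j a => mu_hodd D hp hC j a) (fun k _ n a ha => mu_halg D hp hC k n a ha)
  rw [vK, vel_zero, Category.comp_id]

end mu

end Vale.Agent.P257.H702
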