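import Vale.Agent.P251.Z.OrFam

/-!
# P257 (helper702): multiplication by a homotopy class, in suspended form

`scale_act` : if `w : Y ⟶ K ⊗ S(ℂ^r)` satisfies the suspended form of `w = c u` (as in the
statement layer) then `w = u ≫ actBy c`.
-/

open CategoryTheory MonoidalCategory Limits Pretriangulated MonObj

set_option linter.unusedSectionVars false

universe v u

noncomputable section

namespace Vale.Agent.P257.H702

open Vale.Agent.P251.G Vale.Agent.P251.G.LC Vale.Agent.P251.I Vale.Agent.P251.T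
  Vale.Agent.P251.M Vale.Agent.P251.Z

section even

variable {T : Type u} [Category.{v} T] [MonoidalCategory T] [SymmetricCategory T]
variable (S : EvenSpheres T)

theorem mu_coh {k r l : ℤ} (h : k + r = l) (h' : r + k = l) :
    ((S.mu k r l h).inv ▷ S.S k) ≫ (α_ (S.S k) (S.S r) (S.S k)).hom ≫
      (S.S k ◁ (S.mu r k l h').hom) = (β_ (S.S l) (S.S k)).hom := by
  refine IsFr.unique (F := (S.fr l).tensor (S.fr k)) (G := (S.fr k).tensor (S.fr l)) (by omega)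
    ?_ (S.symFr l k)
  refine IsFr.comp (by omega) (by omega) (IsFr.whiskerRight (by omega)
    (IsFr.inv' (by omega) (S.isFr_mu k r l h))) ?_
  exact IsFr.comp (by omega) (by omega) (isFr_associator (S.fr k) (S.fr r) (S.fr k))
    (IsFr.whiskerLeft (by omega) (S.isFr_mu r k l h'))

/-- the suspended form of the multiplication by `c` -/
theorem susp_act {R : T} [MonObj R] {k r l : ℤ} (h : k + r = l) (h' : r + k = l)
    (c : S.S k ⟶ R) :
    (actBy S h c ▷ S.S k) ≫ (α_ R (S.S r) (S.S k)).hom ≫ (R ◁ (S.mu r k l h').hom) =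
      ((R ⊗ S.S l) ◁ c) ≫ (α_ R (S.S l) R).hom ≫ (R ◁ (β_ (S.S l) R).hom) ≫
        (α_ R R (S.S l)).inv ≫ (μ[R] ▷ S.S l) := by
  have h1 : (β_ (S.S l) (S.S k)).hom ≫ (c ▷ S.S l) = (S.S l ◁ c) ≫ (β_ (S.S l) R).hom :=
    (BraidedCategory.braiding_naturality_right (S.S l) c).symm
  have h2 : ((R ⊗ S.S l) ◁ c) ≫ (α_ R (S.S l) R).hom ≫ (R ◁ (β_ (S.S l) R).hom) =
      (α_ R (S.S l) (S.S k)).hom ≫ (R ◁ ((β_ (S.S l) (S.S k)).hom ≫ (c ▷ S.S l))) := by
    rw [h1, MonoidalCategory.whiskerLeft_comp]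
    simp
  rw [reassoc_of% h2, ← mu_coh S h h']
  unfold actBy
  simp only [comp_whiskerRight, MonoidalCategory.whiskerLeft_comp, Category.assoc]
  have h3 : (μ[R] ▷ S.S r) ▷ S.S k ≫ (α_ R (S.S r) (S.S k)).hom ≫ (R ◁ (S.mu r k l h').hom) =
      (α_ (R ⊗ R) (S.S r) (S.S k)).hom ≫ ((R ⊗ R) ◁ (S.mu r k l h').hom) ≫ μ[R] ▷ S.S l := by
    rw [associator_naturality_left_assoc, whisker_exchange]
  rw [h3]
  have h4 : (R ◁ (S.S k ◁ (S.mu r k l h').hom)) ≫ (R ◁ (c ▷ S.S l)) =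
      (R ◁ (c ▷ (S.S r ⊗ S.S k))) ≫ (R ◁ (R ◁ (S.mu r k l h').hom)) := by
    rw [← MonoidalCategory.whiskerLeft_comp, ← MonoidalCategory.whiskerLeft_comp, whisker_exchange]
  rw [reassoc_of% h4]
  monoidal

end even

variable {T : Type u} [Category.{v} T] [Preadditive T] [HasZeroObject T]
    [HasShift T ℤ] [∀ n : ℤ, (shiftFunctor T n).Additive] [Pretriangulated T]
    [MonoidalCategory T] [SymmetricCategory T] [TensorTriangulated T]
variable {F : SpaceFunctor T} {K : T} [MonObj K] {Ev : EvenSpheres T}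
variable (ε : SphId F Ev)

/-- **The suspended form of `w = c u` determines `w`.** -/
theorem scale_act {Y : T} {k r : ℕ} (g : Cn r ⊗ Cn k ≅ Cn (r + k)) (hg : IsAppend g)
    (h : (k : ℤ) + r = (r + k : ℕ)) (u : Y ⟶ K ⊗ SC F (r + k)) (w : Y ⟶ K ⊗ SC F r)
    (c : SC F k ⟶ K)
    (hs : (w ▷ SC F k) ≫ (α_ K (SC F r) (SC F k)).hom ≫ (K ◁ (SCadd F g).hom) =
      (u ⊗ₘ c) ≫ (α_ K (SC F (r + k)) K).hom ≫ (K ◁ (β_ (SC F (r + k)) K).hom) ≫
        (α_ K K (SC F (r + k))).inv ≫ (μ[K] ▷ SC F (r + k))) :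
    w ≫ K ◁ (ε.iso r).hom = (u ≫ K ◁ (ε.iso (r + k)).hom) ≫ actBy Ev h ((ε.iso k).inv ≫ c) := by
  have h' : (r : ℤ) + k = (r + k : ℕ) := by push_cast; rfl
  have := isInv_of_framed (Ev.fr (k : ℤ))
  -- it suffices to compare after the suspension by `Ev.S k`
  have key : ∀ f g : Y ⟶ K ⊗ Ev.S r, f ▷ Ev.S k = g ▷ Ev.S k → f = g := by
    intro f g hfg
    refine whiskerLeft_inj (Ev.S k) ?_
    have h1 : ∀ f : Y ⟶ K ⊗ Ev.S r, Ev.S k ◁ f = (β_ (Ev.S k) Y).hom ≫ f ▷ Ev.S k ≫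
        (β_ (K ⊗ Ev.S r) (Ev.S k)).hom := by
      intro f
      rw [BraidedCategory.braiding_naturality_left, SymmetricCategory.symmetry_assoc]
    rw [h1 f, h1 g, hfg]
  refine key _ _ ?_
  rw [← cancel_mono ((α_ K (Ev.S r) (Ev.S k)).hom ≫ (K ◁ (Ev.mu r k (r + k : ℕ) h').hom))]
  rw [comp_whiskerRight _ (actBy Ev h _), Category.assoc, susp_act Ev h h']
  rw [← cancel_epi (Y ◁ (ε.iso k).hom)]
  -- the left hand side
  have e1 : (Y ◁ (ε.iso k).hom) ≫ ((w ≫ K ◁ (ε.iso r).hom) ▷ Ev.S k) ≫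
      (α_ K (Ev.S r) (Ev.S k)).hom ≫ (K ◁ (Ev.mu r k (r + k : ℕ) h').hom) =
      ((w ▷ SC F k) ≫ (α_ K (SC F r) (SC F k)).hom ≫
        (K ◁ (SCadd F g).hom)) ≫ (K ◁ (ε.iso (r + k)).hom) := by
    have e2 : (SCadd F g).hom ≫ (ε.iso (r + k)).hom =
      ((ε.iso r).hom ⊗ₘ (ε.iso k).hom) ≫ (Ev.mu r k (r + k : ℕ) h').hom := ε.add r k g hg h'
    simp only [Category.assoc]
    rw [← MonoidalCategory.whiskerLeft_comp K (SCadd F g).hom, e2,
      MonoidalCategory.whiskerLeft_comp, comp_whiskerRight, Category.assoc,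
      whisker_exchange_assoc]
    congr 1
    simp [tensorHom_def']
  rw [e1, hs]
  simp only [comp_whiskerRight, MonoidalCategory.whiskerLeft_comp, Category.assoc]
  have e6 : (Y ◁ (ε.iso k).hom) ≫ (u ▷ Ev.S k) ≫ ((K ◁ (ε.iso (r + k)).hom) ▷ Ev.S k) ≫
      ((K ⊗ Ev.S (r + k : ℕ)) ◁ (ε.iso k).inv) ≫ ((K ⊗ Ev.S (r + k : ℕ)) ◁ c) =
      (u ⊗ₘ c) ≫ ((K ◁ (ε.iso (r + k)).hom) ▷ K) := by
    rw [← MonoidalCategory.whiskerLeft_comp, ← comp_whiskerRight_assoc, whisker_exchange_assoc,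
      ← MonoidalCategory.whiskerLeft_comp, Iso.hom_inv_id_assoc, tensorHom_def,
      comp_whiskerRight, Category.assoc, Category.assoc, whisker_exchange]
  rw [reassoc_of% e6, associator_naturality_middle_assoc,
    ← MonoidalCategory.whiskerLeft_comp_assoc, BraidedCategory.braiding_naturality_left,
    MonoidalCategory.whiskerLeft_comp_assoc, associator_inv_naturality_right_assoc,
    whisker_exchange]

end Vale.Agent.P257.H702
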