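import Vale.Agent.P257.H702.StatementP
import Vale.Agent.P257.H702.QSeries
import Vale.Agent.P257.H702.Scale
import Vale.Agent.P251.St.ToChrom

/-!
# P257 (helper702): the `p`-series of an oriented ring spectrum of the statement layer

`coeff_series` : if the orientation `o` satisfies `IsPSeries p o c` then `c k` is the coefficient of
`x ^ (k + 1)` in the `p`-series of the formal group law of the theory of `R`.
-/

open CategoryTheory MonoidalCategory OnePoint Topology Limits Pretriangulated Matrix MonObj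

set_option linter.unusedSectionVars false

noncomputable section

namespace Vale.Agent.P257.H702

open Vale.Agent.P251 Vale.Agent.P251.G Vale.Agent.P251.G.LC Vale.Agent.P251.I Vale.Agent.P251.T
  Vale.Agent.P251.M Vale.Agent.P251.St Vale.Agent.P217

variable {T : SHCat} {S : Susp T} {R : RingSp T} {o : St.Oriented S R} {p : ℕ}
  {c : ∀ k : ℕ, SHCat.Hom (S.obj (St.Cn k)) R.obj}

theorem tuel_sum {Ev : EvenSpheres T.C} {F : SpaceFunctor T.C} {K : T.C} [MonObj K]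
    [IsCommMonObj K] {hF : CofTriangles F} {s : F.S.obj CCF ⟶ (RSys K Ev).obj 0 1}
    {hs : (RSys K Ev).IsSusp s} {X : LC} (hX : FC X) (k : ℤ) {ι : Type} (I : Finset ι)
    (x : ι → (F.S.obj ⟨X, hX⟩ ⟶ K ⊗ Ev.S k)) :
    tuel hF hs hX k (∑ i ∈ I, x i) = ∑ i ∈ I, tuel hF hs hX k (x i) :=
  map_sum (uel K Ev F hX k) _ _

theorem sum_of_retract {C : Type*} [Category C] [Preadditive C] {A A' X : C} {a : A' ⟶ A}
    {b : A ⟶ A'} (h : a ≫ b = 𝟙 A') {x : A' ⟶ X} {I : Finset ℕ} {w : ℕ → (A ⟶ X)}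
    (hx : b ≫ x = ∑ k ∈ I, w k) : x = ∑ k ∈ I, a ≫ w k := by
  rw [← Preadditive.comp_sum, ← hx, ← Category.assoc, h, Category.id_comp]

theorem scale_of_retract {C : Type*} [Category C] [MonoidalCategory C] {A A' X Y Z U K : C}
    {a : A' ⟶ A} {b : A ⟶ A'} (h : a ≫ b = 𝟙 A') {w : A ⟶ X} {c : Y ⟶ K} {f : X ⊗ Y ⟶ U}
    {u : A' ⟶ Z} {u' : A ⟶ Z} (hu : u' = b ≫ u) {g : Z ⊗ K ⟶ U}
    (hx : (w ▷ Y) ≫ f = (u' ⊗ₘ c) ≫ g) : ((a ≫ w) ▷ Y) ≫ f = (u ⊗ₘ c) ≫ g := by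
  subst hu
  rw [comp_whiskerRight, Category.assoc, hx, ← tensorHom_id, tensorHom_comp_tensorHom_assoc,
    ← Category.assoc, h, Category.id_comp, Category.id_comp]

/-- **The `p`-series.** -/
theorem coeff_series (h : P257.St.IsPSeries p o c) {Ev : EvenSpheres T.C}
    {ε : Z.SphId S.toSpaceFunctor Ev}
    {s : S.toSpaceFunctor.S.obj CCF ⟶ (RSys R.obj Ev).obj 0 1}
    {W : ThomFam (RSys R.obj Ev) S.toSpaceFunctor s}
    (hW : Z.IsFam ε (zOriented o) W) {hF : CofTriangles S.toSpaceFunctor}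
    {hs : (RSys R.obj Ev).IsSusp s} (k : ℕ) :
    PowerSeries.coeff (k + 1) (multSeries (W.orientation hF hs).law.toFG p) =
      coefOf hF hs ((ε.iso k).inv ≫ c k) := by
  set N : ℕ := k + 1 with hN
  have ht := Z.isTensorPower_map p (Fin (N + 1))
  have he := fun k : ℕ => Z.isMultiple_map (1 + k) (Fin (N + 1))
  set t := Z.tensorPowerMap p (Fin (N + 1)) with htdef
  set e := fun k : ℕ => Z.multipleMap (1 + k) (Fin (N + 1)) with hedef
  refine coeff_multSeries_of_sum (W.orientation hF hs) p N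
    (fun k => coefOf hF hs ((ε.iso k).inv ≫ c k)) t ht e he ?_ k (Nat.lt_succ_self k)
  -- the statement layer
  have hG := Z.Cells.gr 1 (Fin (N + 1))
  have hG' := (fc_iff _).mp (fc_cp (Fin (N + 1)))
  have hT := Z.Cells.th 1 (Fin p → Fin (N + 1))
  have hT' := (fc_iff _).mp (fc_th 1 (Fin p → Fin (N + 1)))
  have he' : ∀ k, St.IsPair (X := St.CP (Fin (N + 1)))
      (fun (x : CPSet (Fin (N + 1))) i j => if i.1 = j.1 then x.1 i.2 j.2 else 0) (fun _ => 0)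
      (ofHom (X := St.CP (Fin (N + 1))) (Y := St.Th (1 + k) (Fin (1 + k) × Fin (N + 1)))
        ((cpIso (Fin (N + 1))).hom ≫ e k ≫ (thIso (1 + k) (Fin (1 + k) × Fin (N + 1))).inv)) :=
    fun k => isPair_conj (X := St.CP (Fin (N + 1))) (X' := LC.of (Gr 1 (Fin (N + 1))))
      (cpHomeo (Fin (N + 1)))
      (P := fun (x : Gr 1 (Fin (N + 1))) (i j : Fin (1 + k) × Fin (N + 1)) =>
        if i.1 = j.1 then x.P i.2 j.2 else 0) (v := fun _ => 0) (he k)
  have ht' : St.IsPair (X := St.CP (Fin (N + 1)))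
      (fun (x : CPSet (Fin (N + 1))) i j => ∏ k, x.1 (i k) (j k)) (fun _ => 0)
      (ofHom (X := St.CP (Fin (N + 1))) (Y := St.Th 1 (Fin p → Fin (N + 1)))
        ((cpIso (Fin (N + 1))).hom ≫ t ≫ (thIso 1 (Fin p → Fin (N + 1))).inv)) :=
    isPair_conj (X := St.CP (Fin (N + 1))) (X' := LC.of (Gr 1 (Fin (N + 1))))
      (cpHomeo (Fin (N + 1)))
      (P := fun (x : Gr 1 (Fin (N + 1))) (i j : Fin p → Fin (N + 1)) =>
        ∏ k, x.P (i k) (j k)) (v := fun _ => 0) ht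
  obtain ⟨w, hw, hsum⟩ := h N _ _ ht' he'
  have h4 : S.mapL (cpIso (Fin (N + 1))).inv ≫ S.mapL (cpIso (Fin (N + 1))).hom = 𝟙 _ :=
    S.mapL_inv_hom hG' hG _
  have ea : S.mapL ((cpIso (Fin (N + 1))).hom ≫ t ≫ (thIso 1 (Fin p → Fin (N + 1))).inv) ≫
      o.θ 1 _ = S.mapL (cpIso (Fin (N + 1))).hom ≫ S.mapL t ≫ zθ o 1 _ := by
    rw [S.mapL_comp hG' hG hT', S.mapL_comp hG hT hT', Category.assoc, Category.assoc]
    rfl
  have eb : ∀ k, S.mapL ((cpIso (Fin (N + 1))).hom ≫ e k ≫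
      (thIso (1 + k) (Fin (1 + k) × Fin (N + 1))).inv) ≫ o.θ (1 + k) _ =
        S.mapL (cpIso (Fin (N + 1))).hom ≫ S.mapL (e k) ≫ zθ o (1 + k) _ := by
    intro k
    have hE := Z.Cells.th (1 + k) (Fin (1 + k) × Fin (N + 1))
    have hE' := (fc_iff _).mp (fc_th (1 + k) (Fin (1 + k) × Fin (N + 1)))
    rw [S.mapL_comp hG' hG hE', S.mapL_comp hG hE hE', Category.assoc, Category.assoc]
    rfl
  let w' : ℕ → (S.obj (ofLC (LC.of (Gr 1 (Fin (N + 1))))) ⟶ R.obj ⊗ S.obj (St.Cn 1)) :=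
    fun k => S.mapL (cpIso (Fin (N + 1))).inv ≫ w k
  have hsum' : S.mapL t ≫ zθ o 1 _ = ∑ k ∈ Finset.range N, w' k :=
    sum_of_retract h4 (ea.symm.trans hsum)
  have hk1 : ∀ k : ℕ, (k : ℤ) + (1 : ℕ) = (1 + k : ℕ) := fun k => by push_cast; ring
  have hact : ∀ k < N, w' k ≫ R.obj ◁ (ε.iso 1).hom =
      ((S.mapL (e k) ≫ zθ o (1 + k) _) ≫ R.obj ◁ (ε.iso (1 + k)).hom) ≫
        actBy Ev (hk1 k) ((ε.iso k).inv ≫ c k) := by
    intro k hk
    have h6 := hw k hk (ofHom (X := (St.Cn 1).prod (St.Cn k)) (Y := St.Cn (1 + k))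
      (Z.appendIso 1 k).hom) (fun a b => Z.isAppend_appendIso 1 k a b)
    exact scale_act ε (F := S.toSpaceFunctor) (K := R.obj) (Z.appendIso 1 k)
      (Z.isAppend_appendIso 1 k) (hk1 k) (S.mapL (e k) ≫ zθ o (1 + k) _) (w' k)
      (c k) (scale_of_retract h4 (eb k) h6)
  have h8 : (theory (RSys R.obj Ev) S.toSpaceFunctor hF s hs).map t
      ((W.orientation hF hs).tau 1 (Fin p → Fin (N + 1))) =
      tuel hF hs hG 1 (∑ k ∈ Finset.range N, w' k ≫ R.obj ◁ (ε.iso 1).hom) := by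
    rw [hW.map_tau hG]
    refine congrArg (tuel hF hs hG 1) ?_
    refine (Category.assoc _ _ _).symm.trans ?_
    refine (congrArg (fun f => f ≫ R.obj ◁ (ε.iso 1).hom) hsum').trans ?_
    exact Preadditive.sum_comp _ _ _
  refine h8.trans ?_
  rw [tuel_sum]
  refine Finset.sum_congr rfl fun k hk => ?_
  rw [hW.map_tau hG]
  refine (congrArg (tuel hF hs hG 1) (hact k (Finset.mem_range.1 hk))).trans ?_
  refine (smul_tuel hG (hk1 k) ((ε.iso k).inv ≫ c k) _).symm.trans ?_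
  refine congrArg (fun f => coefOf hF hs ((ε.iso k).inv ≫ c k) • tuel hF hs hG (1 + k : ℕ) f) ?_
  exact Category.assoc _ _ _

end Vale.Agent.P257.H702
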