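import Vale.Agent.P251.St.Chrom
import Mathlib.RingTheory.MvPolynomial.WeightedHomogeneous

/-!
# P257, statement layer: Smith-Toda complexes

Definitions which enter the final statement (on top of the ones of `P251/St/Base.lean` and
`P251/St/Chrom.lean`: stable homotopy categories `T` with a suspension spectrum functor `S`,
commutative ring spectra `RingSp T`, complex orientations `Oriented S R`).

* `FinSp` : finite CW spectra; `PLocal`, `IsPLocalization`, `FinPLocal` : finite `p`-local spectra.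
* `IsSmithToda` : `R_* X ≅ R_* / (v_0, v_1, …, v_n)` as an `R_* R`-comodule.
-/

open CategoryTheory MonoidalCategory OnePoint

noncomputable section

namespace Vale.Agent.P257.St

open Vale.Agent.P251.St Vale.Agent.P251.St.SHCat

variable {T : SHCat}

/-- the morphism `A ⊗ f` -/
abbrev tenL (A : T.C) {B B' : T.C} (f : Hom B B') : Hom (ten A B) (ten A B') := A ◁ f

/-- the morphism `f ⊗ A` -/
abbrev tenR {B B' : T.C} (f : Hom B B') (A : T.C) : Hom (ten B A) (ten B' A) := f ▷ A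

/-- the associativity `A ⊗ (B ⊗ D) ⟶ (A ⊗ B) ⊗ D` -/
abbrev assocInv (A B D : T.C) : Hom (ten A (ten B D)) (ten (ten A B) D) := (α_ A B D).inv

/-- the left unit `A ⟶ 𝟙 ⊗ A` -/
abbrev leftInv (A : T.C) : Hom A (ten T.one A) := (λ_ A).inv

/-- the right unit `A ⟶ A ⊗ 𝟙` -/
abbrev rightInv (A : T.C) : Hom A (ten A T.one) := (ρ_ A).inv

/-! ### Finite `p`-local spectra -/

/-- Finite CW spectra: the objects which are obtained from `0` by attaching finitely many cells
(of arbitrary integer dimensions), `S^k ⟶ X ⟶ Y ⟶ S^{k+1}`. -/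
inductive FinSp : T.C → Prop
  | zero {X : T.C} : ident X = 0 → FinSp X
  | cell {X Y : T.C} {k : ℤ} {f : Hom (sphere T k) X} {g : Hom X Y}
      {h : Hom Y (sus (sphere T k))} : Dist f g h → FinSp X → FinSp Y

/-- `X` is `p`-local: the integers prime to `p` are invertible on `X`. -/
def PLocal (p : ℕ) (X : T.C) : Prop := ∀ m : ℤ, ¬ (p : ℤ) ∣ m → IsIso (zmul m (ident X))

/-- `l : X ⟶ Y` is the `p`-localization of `X`. -/
def IsPLocalization (p : ℕ) {X Y : T.C} (l : Hom X Y) : Prop :=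
  PLocal p Y ∧ ∀ Z : T.C, PLocal p Z → ∀ f : Hom X Z, ∃! g : Hom Y Z, comp l g = f

/-- A finite `p`-local spectrum: a retract of the `p`-localization of a finite CW spectrum. -/
def FinPLocal (p : ℕ) (X : T.C) : Prop :=
  ∃ (F Y : T.C) (l : Hom F Y) (i : Hom X Y) (r : Hom Y X),
    FinSp F ∧ IsPLocalization p l ∧ comp i r = ident X

/-! ### Products -/

variable {S : Susp T} {R : RingSp T}

/-- `g : (ℂ^r)⁺ ∧ (ℂ^k)⁺ → (ℂ^{r+k})⁺` is the standard homeomorphism. -/
def IsAppend {r k : ℕ} (g : Map ((Cn r).prod (Cn k)) (Cn (r + k))) : Prop :=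
  ∀ (a : Fin r → ℂ) (b : Fin k → ℂ),
    g.toFun (Space.pt (X := (Cn r).prod (Cn k)) (a, b)) =
      Space.pt (X := Cn (r + k)) (Fin.append a b)

/-- `w = c u` in `R^{2r}(Y)`, where `c ∈ π_{2k} R` and `u ∈ R^{2(r+k)}(Y)`. (Both sides are
compared after the suspension by `ℂ^k`.) -/
def IsScale {r k : ℕ} {Y : Space} (c : Hom (S.obj (Cn k)) R.obj) (u : Coh S R (r + k) Y)
    (w : Coh S R r Y) : Prop :=
  ∀ g : Map ((Cn r).prod (Cn k)) (Cn (r + k)), IsAppend g →
    comp (tenR w (S.obj (Cn k))) (comp (assoc R.obj (S.obj (Cn r)) (S.obj (Cn k)))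
        (tenL R.obj (comp (S.mul (Cn r) (Cn k)) (S.map g)))) =
      comp (tenHom u c) (comp (assoc R.obj (S.obj (Cn (r + k))) R.obj)
        (comp (tenL R.obj (symm (S.obj (Cn (r + k))) R.obj))
          (comp (assocInv R.obj R.obj (S.obj (Cn (r + k)))) (tenR R.mul (S.obj (Cn (r + k)))))))

/-! ### Homogeneous polynomials -/

/-- `z = x y` for `x ∈ π_{2n} R`, `y ∈ π_{2m} R`. -/
def IsProd {n m : ℕ} (x : Hom (S.obj (Cn n)) R.obj) (y : Hom (S.obj (Cn m)) R.obj)
    (z : Hom (S.obj (Cn (n + m))) R.obj) : Prop :=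
  ∀ g : Map ((Cn n).prod (Cn m)) (Cn (n + m)), IsAppend g →
    comp (S.mul (Cn n) (Cn m)) (comp (S.map g) z) = comp (tenHom x y) R.mul

/-- The polynomials in `ℤ[v_1, v_2, …]` which are homogeneous of degree `2 n`, where
`|v_i| = 2 (p^i - 1)`; the variable `X i` is `v_{i+1}`. -/
abbrev VPoly (p n : ℕ) : Type :=
  MvPolynomial.weightedHomogeneousSubmodule ℤ (fun i : ℕ => p ^ (i + 1) - 1) n

/-! ### Smith-Toda complexes -/

/-- The `R`-linear extension `R ⟶ R ⊗ X` of `g : 𝟙 ⟶ R ⊗ X`; the product of `a ∈ π_k R` with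
`g ∈ R_0 X` is `comp a (lin g)`. -/
def lin {X : T.C} (g : Hom T.one (ten R.obj X)) : Hom R.obj (ten R.obj X) :=
  comp (rightInv R.obj) (comp (tenL R.obj g) (comp (assocInv R.obj R.obj X) (tenR R.mul X)))

/-- `a ∈ π_k R` belongs to the ideal generated by `v_0, …, v_n`, where
`v_i ∈ π_{2(p^i - 1)} R`: it is a sum of products `b_i v_i`. -/
def InIdeal (p n : ℕ) (v : ∀ i : ℕ, Hom (S.obj (Cn (p ^ i - 1))) R.obj) {k : ℤ}
    (a : Hom (sphere T k) R.obj) : Prop :=
  ∃ b : ∀ i : ℕ, Hom (sphere T k) (ten R.obj (S.obj (Cn (p ^ i - 1)))),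
    a = ∑ i ∈ Finset.range (n + 1), comp (b i) (comp (tenHom (ident R.obj) (v i)) R.mul)

/-- `R_* X ≅ R_* / (v_0, v_1, …, v_n)` as an `R_* R`-comodule, with generator in degree `0`, where
`v_i ∈ π_{2(p^i - 1)} R`: there is a class `g ∈ R_0 X` which is primitive, that is, the maps
`R ⊗ X = 𝟙 ⊗ R ⊗ X ⟶ R ⊗ R ⊗ X` and `R ⊗ X = R ⊗ 𝟙 ⊗ X ⟶ R ⊗ R ⊗ X` have the same value on `g`,
which generates `R_* X` over `R_*`, and whose annihilator is `(v_0, v_1, …, v_n)`. -/
def IsSmithToda (p n : ℕ) (v : ∀ i : ℕ, Hom (S.obj (Cn (p ^ i - 1))) R.obj) (X : T.C) : Prop :=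
  ∃ g : Hom T.one (ten R.obj X),
    comp g (comp (leftInv (ten R.obj X)) (tenHom R.unit (ident (ten R.obj X)))) =
      comp g (tenHom (ident R.obj) (comp (leftInv X) (tenHom R.unit (ident X)))) ∧
    (∀ (k : ℤ) (y : Hom (sphere T k) (ten R.obj X)), ∃ a : Hom (sphere T k) R.obj,
      y = comp a (lin g)) ∧
    ∀ (k : ℤ) (a : Hom (sphere T k) R.obj), comp a (lin g) = 0 ↔ InIdeal p n v a

end Vale.Agent.P257.St
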