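import Vale.Agent.P257.H702.Statement

/-!
# P257: the Brown-Peterson spectrum with integral homotopy, and its `p`-series

* `IsPSeries` : the coefficients of the `p`-series of a complex orientation.
* `IsBP` : the Brown-Peterson spectrum.
* `SmithTodaExists` : existence of Smith-Toda complexes, for these Brown-Peterson spectra.
-/

open CategoryTheory MonoidalCategory OnePoint

noncomputable section

namespace Vale.Agent.P257.St

open Vale.Agent.P251.St Vale.Agent.P251.St.SHCat

variable {T : SHCat} {S : Susp T} {R : RingSp T}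

/-- The `p`-series of the orientation `o` is `[p](x) = ∑ k, c k x ^ (k + 1)`, with
`c k ∈ π_{2k} R`. On the projective space of `ℂ^(N + 1)`, where `x ^ (N + 1) = 0`: `t` is the zero
section of the `p`-th tensor power of the tautological line bundle, so that the pull back of the
Thom class along `t` is `[p](x)`, and `e k` is the zero section of `k + 1` copies of the
tautological line bundle, so that the pull back of the Thom class along `e k` is `x ^ (k + 1)`. -/
def IsPSeries (p : ℕ) (o : Oriented S R) (c : ∀ k : ℕ, Hom (S.obj (Cn k)) R.obj) : Prop :=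
  ∀ (N : ℕ) (t : Map (CP (Fin (N + 1))) (Th 1 (Fin p → Fin (N + 1))))
    (e : ∀ k : ℕ, Map (CP (Fin (N + 1))) (Th (1 + k) (Fin (1 + k) × Fin (N + 1)))),
    IsPair (fun (x : CPSet (Fin (N + 1))) i j => ∏ k, x.1 (i k) (j k)) (fun _ => 0) t →
    (∀ k, IsPair (fun (x : CPSet (Fin (N + 1))) i j => if i.1 = j.1 then x.1 i.2 j.2 else 0)
      (fun _ => 0) (e k)) →
    ∃ w : ℕ → Coh S R 1 (CP (Fin (N + 1))),
      (∀ k < N, IsScale (c k) (comp (S.map (e k)) (o.θ (1 + k) _)) (w k)) ∧
        comp (S.map t) (o.θ 1 _) = ∑ k ∈ Finset.range N, w k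

/-- `B` is the Brown-Peterson spectrum at `p`, with complex orientation `o`: it is `p`-local, and
`π_* B = ℤ_(p)[v_1, v_2, …]`, where `v_i ∈ π_{2(p^i - 1)} B` is the coefficient of `x ^ (p ^ i)` in
the `p`-series `[p](x) = ∑ c_k x ^ (k + 1)`. -/
structure IsBP (p : ℕ) (o : Oriented S R) (c : ∀ k : ℕ, Hom (S.obj (Cn k)) R.obj) : Prop where
  series : IsPSeries p o c
  isLocal : PLocal p R.obj
  conc : ∀ (k : ℤ) (f : Hom (sphere T k) R.obj), (k < 0 ∨ Odd k) → f = 0
  poly : ∃ e : ∀ n : ℕ, VPoly p n →+ Hom (S.obj (Cn n)) R.obj,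
    (∀ (a : VPoly p 0) (j : Map Pn (Cn 0)), (a : MvPolynomial ℕ ℤ) = 1 →
      j.toFun (Space.pt (X := Pn) ()) = Space.pt (X := Cn 0) 0 →
        comp S.unit (comp (S.map j) (e 0 a)) = R.unit) ∧
    (∀ (n m : ℕ) (x : VPoly p n) (y : VPoly p m) (z : VPoly p (n + m)),
      (z : MvPolynomial ℕ ℤ) = x * y → IsProd (e n x) (e m y) (e (n + m) z)) ∧
    (∀ (i : ℕ) (x : VPoly p (p ^ (i + 1) - 1)), (x : MvPolynomial ℕ ℤ) = MvPolynomial.X i →
      e (p ^ (i + 1) - 1) x = c (p ^ (i + 1) - 1)) ∧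
    ∀ n : ℕ, Function.Injective (e n) ∧ ∀ y : Hom (S.obj (Cn n)) R.obj,
      ∃ (m : ℤ) (x : VPoly p n), ¬ (p : ℤ) ∣ m ∧ zmul m y = e n x

/-- `V(n)` exists at the prime `p`: there is a finite `p`-local spectrum `X` with
`BP_* X ≅ BP_* / (p, v_1, …, v_n)` as comodules, for the Brown-Peterson spectrum at `p`, where
`v_i = c (p ^ i - 1)` is the coefficient of `x ^ (p ^ i)` in the `p`-series (`v_0 = p`). -/
def SmithTodaExists (S : Susp T) (p n : ℕ) : Prop :=
  ∃ X : T.C, FinPLocal p X ∧ ∀ (B : RingSp T) (o : Oriented S B)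
    (c : ∀ k : ℕ, Hom (S.obj (Cn k)) B.obj), IsBP p o c →
      IsSmithToda p n (fun i => c (p ^ i - 1)) X

end Vale.Agent.P257.St
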